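import Crest.Agent.R030.Defs

/-! # Row 30: elementary facts on edges, counting and the amplification factor -/

set_option autoImplicit false
set_option linter.unusedSectionVars false

namespace Crest.Agent.R030
open Finset
open scoped Classical

variable {V : Type} [Fintype V] [DecidableEq V] {G : SimpleGraph V} {M : ℕ}

theorem mem_cn {h : Finset V} {q : V} : q ∈ cn G h ↔ ∀ x ∈ h, G.Adj x q := by simp [cn]

theorem mem_Ed {h : Finset V} : h ∈ Ed G ↔ IsEdge G h := by simp [Ed]

theorem mem_Tg {p : Finset V × V} : p ∈ Tg G ↔ IsEdge G p.1 ∧ p.2 ∈ cn G p.1 := by simp [Tg]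

theorem not_mem_of_mem_cn {h : Finset V} {q : V} (hq : q ∈ cn G h) : q ∉ h :=
  fun hh => G.irrefl (mem_cn.1 hq q hh)

theorem IsEdge.card {h : Finset V} (he : IsEdge G h) : h.card = 2 := by
  obtain ⟨x, y, hxy, rfl⟩ := he
  exact card_pair hxy.ne

theorem isEdge_pair {x y : V} (hxy : G.Adj x y) : IsEdge G {x, y} := ⟨x, y, hxy, rfl⟩

theorem isEdge_free {h : Finset V} {q x : V} (hq : q ∈ cn G h) (hx : x ∈ h) : IsEdge G {x, q} :=
  isEdge_pair (mem_cn.1 hq x hx)

theorem IsEdge.adj {h : Finset V} (he : IsEdge G h) {x y : V} (hx : x ∈ h) (hy : y ∈ h)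
    (hxy : x ≠ y) : G.Adj x y := by
  obtain ⟨a, b, hab, rfl⟩ := he
  simp only [mem_insert, mem_singleton] at hx hy
  rcases hx with rfl | rfl <;> rcases hy with rfl | rfl
  · exact absurd rfl hxy
  · exact hab
  · exact hab.symm
  · exact absurd rfl hxy

/-- an edge seen from one of its endpoints -/
theorem IsEdge.exists_other {h : Finset V} (he : IsEdge G h) {x : V} (hx : x ∈ h) :
    ∃ y, G.Adj x y ∧ h = {x, y} ∧ h.erase x = {y} := by
  obtain ⟨a, b, hab, rfl⟩ := he
  simp only [mem_insert, mem_singleton] at hx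
  rcases hx with rfl | rfl
  · refine ⟨b, hab, rfl, ?_⟩
    ext z; simp only [mem_erase, mem_insert, mem_singleton]
    constructor
    · rintro ⟨h1, h2 | h2⟩
      · exact absurd h2 h1
      · exact h2
    · rintro rfl; exact ⟨hab.ne.symm, Or.inr rfl⟩
  · refine ⟨a, hab.symm, pair_comm _ _, ?_⟩
    ext z; simp only [mem_erase, mem_insert, mem_singleton]
    constructor
    · rintro ⟨h1, h2 | h2⟩
      · exact h2
      · exact absurd h2 h1
    · rintro rfl; exact ⟨hab.ne, Or.inl rfl⟩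

theorem card_insert_cn {h : Finset V} {q : V} (he : IsEdge G h) (hq : q ∈ cn G h) :
    (insert q h).card = 3 := by
  rw [card_insert_of_notMem (not_mem_of_mem_cn hq), he.card]

theorem pair_inj_of_not_mem {h : Finset V} {q x y : V} (hq : q ∉ h) (hx : x ∈ h)
    (hxy : ({x, q} : Finset V) = {y, q}) : x = y := by
  have : x ∈ ({y, q} : Finset V) := by rw [← hxy]; simp
  simp only [mem_insert, mem_singleton] at this
  rcases this with h1 | h1
  · exact h1
  · exact absurd (h1 ▸ hx) hq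

theorem card_Tg_le : ((Tg G).card : ℝ) ≤ (Fintype.card V : ℝ) ^ 3 := by
  have : (Tg G).card ≤ (univ : Finset (V × V × V)).card := by
    apply card_le_card_of_surjOn (fun t : V × V × V => (({t.1, t.2.1} : Finset V), t.2.2))
    intro p hp
    obtain ⟨⟨x, y, _, hxy⟩, _⟩ := mem_Tg.1 (mem_coe.1 hp)
    exact ⟨(x, y, p.2), by simp, by simp only; rw [← hxy]⟩
  have h2 : ((univ : Finset (V × V × V)).card : ℝ) = (Fintype.card V : ℝ) ^ 3 := by
    simp [Fintype.card_prod]; ring
  rw [← h2]; exact_mod_cast this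

/-- the triple-codegree gain, first form -/
theorem gain1 {qD : ℝ} (h3 : ∀ h : Finset V, h.card = 3 → ((cn G h).card : ℝ) ≤ qD)
    {h : Finset V} (he : IsEdge G h) {x : V} (hx : x ∈ h) (R : Finset V)
    (hR : Disjoint (h.erase x) R) (hqD : 0 ≤ qD) :
    ∑ q ∈ cn G h, ((cn G {x, q} ∩ R).card : ℝ) ≤ R.card * qD := by
  obtain ⟨y, hxy, hh, her⟩ := he.exists_other hx
  have key : ∑ q ∈ cn G h, ((cn G {x, q} ∩ R).card : ℝ)
      = ∑ r ∈ R, (((cn G h).filter fun q => r ∈ cn G {x, q}).card : ℝ) := by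
    have h1 : ∀ q, ((cn G {x, q} ∩ R).card : ℝ) = ∑ r ∈ R, if r ∈ cn G {x, q} then (1 : ℝ) else 0 := by
      intro q
      rw [sum_boole, inter_comm, ← filter_mem_eq_inter]
    simp_rw [h1]
    rw [sum_comm]
    refine sum_congr rfl fun r _ => ?_
    rw [sum_boole]
  rw [key]
  calc ∑ r ∈ R, (((cn G h).filter fun q => r ∈ cn G {x, q}).card : ℝ) ≤ ∑ _r ∈ R, qD := by
        refine sum_le_sum fun r hr => ?_
        by_cases hrx : r = x
        · have : ((cn G h).filter fun q => r ∈ cn G {x, q}) = ∅ := by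
            apply filter_eq_empty_iff.2
            intro q _ hq
            exact not_mem_of_mem_cn hq (by simp [hrx])
          rw [this]; simpa using hqD
        · have hry : r ≠ y := by
            rintro rfl
            exact disjoint_left.1 hR (by rw [her]; simp) hr
          have hrh : r ∉ h := by rw [hh]; simp [hrx, hry]
          refine le_trans ?_ (h3 (insert r h) (by rw [card_insert_of_notMem hrh, he.card]))
          apply Nat.cast_le.2
          apply card_le_card
          intro q hq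
          rw [mem_filter] at hq
          rw [mem_cn]
          intro z hz
          rcases mem_insert.1 hz with rfl | hz
          · exact (mem_cn.1 hq.2 q (by simp)).symm
          · exact mem_cn.1 hq.1 z hz
    _ = R.card * qD := by simp

/-- the triple-codegree gain, second form -/
theorem gain2 {qD : ℝ} (h3 : ∀ h : Finset V, h.card = 3 → ((cn G h).card : ℝ) ≤ qD)
    {h : Finset V} (he : IsEdge G h) (H : Finset (Finset V)) (hH : ∀ f ∈ H, IsEdge G f)
    (hh : h ∉ H) :
    ∑ q ∈ cn G h, ((H.filter fun f => q ∈ cn G f).card : ℝ) ≤ H.card * qD := by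
  have key : ∑ q ∈ cn G h, ((H.filter fun f => q ∈ cn G f).card : ℝ)
      = ∑ f ∈ H, (((cn G h).filter fun q => q ∈ cn G f).card : ℝ) := by
    simp_rw [← sum_boole]
    rw [sum_comm]
  rw [key]
  calc ∑ f ∈ H, (((cn G h).filter fun q => q ∈ cn G f).card : ℝ) ≤ ∑ _f ∈ H, qD := by
        refine sum_le_sum fun f hf => ?_
        have hne : f ≠ h := fun e => hh (e ▸ hf)
        obtain ⟨z, hzf, hzh⟩ : ∃ z ∈ f, z ∉ h := by
          by_contra hc
          push Not at hc
          exact hne (eq_of_subset_of_card_le hc (by rw [he.card, (hH f hf).card]))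
        refine le_trans ?_ (h3 (insert z h) (by rw [card_insert_of_notMem hzh, he.card]))
        apply Nat.cast_le.2
        apply card_le_card
        intro q hq
        rw [mem_filter] at hq
        rw [mem_cn]
        intro z' hz'
        rcases mem_insert.1 hz' with rfl | hz'
        · exact mem_cn.1 hq.2 _ hzf
        · exact mem_cn.1 hq.1 z' hz'
    _ = H.card * qD := by simp

/-- summation of increments -/
theorem sum_le_of_incr (f F : ℕ → ℝ) (u : ℕ) (hF : 0 ≤ F 0) (h : ∀ t < u, f t ≤ F (t + 1) - F t) :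
    ∑ t ∈ range u, f t ≤ F u := by
  have : ∑ t ∈ range u, f t ≤ ∑ t ∈ range u, (F (t + 1) - F t) :=
    sum_le_sum fun t ht => h t (mem_range.1 ht)
  rw [sum_range_sub] at this
  linarith

namespace NumOK
variable {pt : ℕ → ℝ} {D qq η Z : ℝ} {L : ℕ} (hN : NumOK G M pt D qq η Z L)
include hN

theorem Z_ge : 18 ≤ Z := by
  have h1 : (1 : ℝ) ≤ L := by exact_mod_cast hN.Lpos
  have := hN.L_Z
  linarith

theorem D_ge : 1 ≤ D := by
  have h1 : (1 : ℝ) ≤ Z := by have := hN.Z_ge; linarith
  have h2 : (1 : ℝ) ≤ Z ^ 12 := one_le_pow₀ h1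
  have := hN.big
  linarith

theorem Mpos' : (0 : ℝ) < M := by exact_mod_cast hN.Mpos

theorem rho_nn (t : ℕ) : 0 ≤ rho D M pt t := by
  have := hN.D_ge
  unfold rho; positivity

theorem Phi_succ (t : ℕ) :
    Phi D M pt η (t + 1) = Phi D M pt η t * (1 + (1 + η) * rho D M pt t) := by
  unfold Phi; rw [prod_range_succ]

theorem one_le_Phi (t : ℕ) : 1 ≤ Phi D M pt η t := by
  induction t with
  | zero => simp [Phi]
  | succ t ih =>
    rw [hN.Phi_succ]
    have h1 := hN.rho_nn t
    have h2 := hN.eta_pos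
    have : 0 ≤ (1 + η) * rho D M pt t := by positivity
    nlinarith

theorem Phi_pos (t : ℕ) : 0 < Phi D M pt η t := lt_of_lt_of_le one_pos (hN.one_le_Phi t)

theorem Phi_mono : Monotone (Phi D M pt η) := by
  apply monotone_nat_of_le_succ
  intro t
  rw [hN.Phi_succ]
  have h1 := hN.rho_nn t
  have h2 := hN.eta_pos
  have h3 := hN.Phi_pos t
  have : 0 ≤ (1 + η) * rho D M pt t := by positivity
  nlinarith

/-- increments of powers of `Φ` -/
theorem Phi_pow_incr (k t : ℕ) :
    k * (1 + η) * rho D M pt t * Phi D M pt η t ^ k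
      ≤ Phi D M pt η (t + 1) ^ k - Phi D M pt η t ^ k := by
  rw [hN.Phi_succ, mul_pow]
  have h1 := hN.rho_nn t
  have h2 := hN.eta_pos
  have h3 : 0 ≤ (1 + η) * rho D M pt t := by positivity
  have h4 := one_add_mul_le_pow (a := (1 + η) * rho D M pt t) (by linarith) k
  have h5 : 0 ≤ Phi D M pt η t ^ k := (pow_pos (hN.Phi_pos t) k).le
  nlinarith [mul_le_mul_of_nonneg_left h4 h5]

theorem Phi_sq_le {t : ℕ} (ht : t ≤ M) : Phi D M pt η t ^ 2 ≤ Z * D :=
  le_trans (pow_le_pow_left₀ (hN.Phi_pos t).le (hN.Phi_mono ht) 2) hN.Phi_sq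

/-- `D pt / M ≤ ρ Φ` -/
theorem pt_le_rho_Phi {t : ℕ} (ht : t ≤ M) :
    D * pt t / M ≤ rho D M pt t * Phi D M pt η t := by
  have h1 := hN.Phi_pt t ht
  have h2 := hN.pt_nn t
  have h3 := hN.D_ge
  have h4 := hN.Mpos'
  unfold rho
  rw [div_mul_eq_mul_div]
  apply div_le_div_of_nonneg_right _ h4.le
  have : D * pt t * 1 ≤ D * pt t * (Phi D M pt η t * pt t) :=
    mul_le_mul_of_nonneg_left h1 (by positivity)
  nlinarith

theorem sqrtD : 1000 * Z ^ 6 ≤ Real.sqrt D := by
  apply Real.le_sqrt_of_sq_le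
  have := hN.big
  nlinarith

/-- the fuel term is negligible -/
theorem g1_le {t : ℕ} (ht : t ≤ M) : g1 (Fintype.card V) (Phi D M pt η) L t ≤ qq := by
  unfold g1
  have h1 := hN.Phi_sq_le ht
  have h2 := hN.fuel
  have h3 := hN.D_ge
  have h4 := hN.Z_ge
  have h5 := hN.big
  have h6 := hN.qq_nn
  have hp : (0 : ℝ) < 2 ^ L := by positivity
  rw [div_le_iff₀ hp]
  have h7 : Phi D M pt η t ^ 4 ≤ (Z * D) ^ 2 := by
    have : Phi D M pt η t ^ 4 = (Phi D M pt η t ^ 2) ^ 2 := by ring
    rw [this]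
    exact pow_le_pow_left₀ (by positivity) h1 2
  have h8 : 8 * Z ^ 2 ≤ D := by
    have : Z ^ 2 ≤ Z ^ 12 := pow_le_pow_right₀ (by linarith) (by norm_num)
    nlinarith
  have hn : (0 : ℝ) ≤ (Fintype.card V : ℝ) ^ 3 := by positivity
  calc 8 * (Fintype.card V : ℝ) ^ 3 * Phi D M pt η t ^ 4
      ≤ 8 * (Fintype.card V : ℝ) ^ 3 * (Z * D) ^ 2 := by gcongr
    _ = (Fintype.card V : ℝ) ^ 3 * ((8 * Z ^ 2) * D ^ 2) := by ring
    _ ≤ (Fintype.card V : ℝ) ^ 3 * (D * D ^ 2) := by gcongr
    _ = (Fintype.card V : ℝ) ^ 3 * D ^ 3 := by ring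
    _ ≤ qq * 2 ^ L := h2

end NumOK

end Crest.Agent.R030
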