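import Crest.Agent.R030.DEMCore

/-! # Row 30: the early phase (differential equations method)

`N0 = #allEdges n`.  A state after `i` steps has `#E = N0 - 3 i`, density `p = #E / N0`.
`eps p = n^(-1/3) p^(-40)`.  `E` is good if `|#cn S - n p^k| ≤ eps p · n p^k` for all `S` of size `k = 2,3`.
Potential `Ψ E = ∑_S ∑_± exp (θ (±(#cn S / p^k - n) - n eps p))`, `θ = n^(-1/3)/C`.
* not good ⇒ `Ψ ≥ 1`;  `Ψ (allEdges n) ≤ 2 n³·exp(θ(3 - n^(2/3)))`;
* good and `p ≥ n^(-1/1000)` ⇒ triangles exist and the average of `Ψ (E \ T.sym2)` over `T ∈ triangles E` is `≤ Ψ E`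
  (`exp x ≤ 1 + x + x²` for `|x| ≤ 1`; with `h = 3/#E`: an edge `uw` is removed with probability
  `#cn{u,w}/#triangles = h (1 ± 3 eps)`, `3 #triangles = ∑_e #cn e`; the drop `ΔN ≤ 3` of `N = #cn S` has mean
  `N k h (1 ± (3 eps + 3/(n p²)))`; `p' = p (1-h)`; the drift of `N/p^k` is at most `30 n h eps` in absolute value, the term
  `n eps` grows by at least `40 n h eps`, the second moment is `≤ C n h / p³`).
* backward induction on `i ≤ i0`: `expectFinal φ (n² - i) E ≤ η + Bd Ψ E`.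
-/

set_option autoImplicit false
set_option linter.unusedSectionVars false

namespace Crest.Agent.R030
open Finset Crest.CombinatoricsR.TriangleRemoval Filter
open scoped Classical

variable {n : ℕ}

theorem card_le_sq {E : Finset (Sym2 (Fin n))} (hE : E ⊆ allEdges n) : E.card ≤ n ^ 2 := by
  have h1 : (E.card : ℝ) ≤ (allEdges n).card := by exact_mod_cast card_le_card hE
  rw [card_allEdges] at h1
  have h2 : (0 : ℝ) ≤ n := Nat.cast_nonneg n
  have : (E.card : ℝ) ≤ (n : ℝ) ^ 2 := by nlinarith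
  exact_mod_cast this

theorem expectFinal_le {φ : ℕ → ℝ} {Bd : ℝ} (hφ : ∀ k ≤ n ^ 2, φ k ≤ Bd) (f : ℕ) :
    ∀ E ⊆ allEdges n, expectFinal φ f E ≤ Bd := by
  induction f with
  | zero => intro E hE; exact hφ _ (card_le_sq hE)
  | succ f ih =>
    intro E hE
    simp only [expectFinal]
    split_ifs with h0
    · exact hφ _ (card_le_sq hE)
    · have hc : (0 : ℝ) < (triangles E).card := by exact_mod_cast Nat.pos_of_ne_zero h0
      rw [inv_mul_le_iff₀ hc]
      calc ∑ t ∈ triangles E, expectFinal φ f (E \ t.sym2) ≤ ∑ _t ∈ triangles E, Bd :=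
            sum_le_sum fun t _ => ih _ (sdiff_subset.trans hE)
        _ = _ := by simp

/-- the sets whose common neighbourhoods are tracked -/
def trk (n : ℕ) : Finset (Finset (Fin n)) := univ.filter fun S => S.card = 2 ∨ S.card = 3

/-- density -/
noncomputable def dens (E : Finset (Sym2 (Fin n))) : ℝ := E.card / (allEdges n).card

/-- the potential -/
noncomputable def Psi (e0 θ : ℝ) (E : Finset (Sym2 (Fin n))) : ℝ :=
  ∑ S ∈ trk n, ∑ s ∈ ({1, -1} : Finset ℝ),
    Real.exp (θ * (s * ((cn (grE E) S).card / dens E ^ S.card - n) - n * (e0 / dens E ^ 40)))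

/-- good states -/
def Good (e0 : ℝ) (E : Finset (Sym2 (Fin n))) : Prop :=
  ∀ S ∈ trk n, |((cn (grE E) S).card : ℝ) - n * dens E ^ S.card|
    ≤ e0 / dens E ^ 40 * (n * dens E ^ S.card)

theorem Psi_nn (e0 θ : ℝ) (E : Finset (Sym2 (Fin n))) : 0 ≤ Psi e0 θ E :=
  sum_nonneg fun _ _ => sum_nonneg fun _ _ => (Real.exp_pos _).le

theorem one_le_Psi {e0 θ : ℝ} (hθ : 0 ≤ θ) {E : Finset (Sym2 (Fin n))} (hp : 0 < dens E)
    (hg : ¬ Good e0 E) : 1 ≤ Psi e0 θ E := by
  unfold Good at hg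
  push Not at hg
  obtain ⟨S, hS, hlt⟩ := hg
  have hpk : 0 < dens E ^ S.card := pow_pos hp _
  obtain ⟨s, hs, hs'⟩ : ∃ s ∈ ({1, -1} : Finset ℝ),
      n * (e0 / dens E ^ 40) ≤ s * ((cn (grE E) S).card / dens E ^ S.card - n) := by
    have h1 : ((cn (grE E) S).card : ℝ) / dens E ^ S.card - n
        = (((cn (grE E) S).card : ℝ) - n * dens E ^ S.card) / dens E ^ S.card := by field_simp
    rw [h1]
    rcases lt_abs.1 hlt with h2 | h2
    · refine ⟨1, by simp, ?_⟩
      rw [one_mul, le_div_iff₀ hpk]; linarith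
    · refine ⟨-1, by simp, ?_⟩
      rw [neg_one_mul, ← neg_div, le_div_iff₀ hpk]; linarith
  have h2 : 1 ≤ Real.exp (θ * (s * ((cn (grE E) S).card / dens E ^ S.card - n)
      - n * (e0 / dens E ^ 40))) := Real.one_le_exp (mul_nonneg hθ (by linarith))
  refine le_trans h2 (le_trans ?_ (single_le_sum
    (f := fun S => ∑ s ∈ ({1, -1} : Finset ℝ), Real.exp (θ * (s * ((cn (grE E) S).card
      / dens E ^ S.card - n) - n * (e0 / dens E ^ 40))))
    (fun _ _ => sum_nonneg fun _ _ => (Real.exp_pos _).le) hS))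
  exact single_le_sum (f := fun s : ℝ => Real.exp (θ * (s * ((cn (grE E) S).card
      / dens E ^ S.card - n) - n * (e0 / dens E ^ 40)))) (fun _ _ => (Real.exp_pos _).le) hs

theorem card_trk : ((trk n).card : ℝ) ≤ 2 * (n : ℝ) ^ 3 := by
  have h1 : trk n ⊆ powersetCard 2 univ ∪ powersetCard 3 univ := by
    intro S hS
    simp only [trk, mem_filter, mem_univ, true_and] at hS
    simp only [mem_union, mem_powersetCard, subset_univ, true_and]
    exact hS
  have h2 := le_trans (card_le_card h1) (card_union_le _ _)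
  rw [card_powersetCard, card_powersetCard, card_univ, Fintype.card_fin] at h2
  have h3 := Nat.choose_le_pow n 2
  have h4 := Nat.choose_le_pow n 3
  have h5 : n ^ 2 ≤ n ^ 3 := by
    rcases Nat.eq_zero_or_pos n with rfl | h
    · simp
    · exact Nat.pow_le_pow_right h (by norm_num)
  have : (trk n).card ≤ 2 * n ^ 3 := by omega
  exact_mod_cast this

theorem cn_all (S : Finset (Fin n)) : cn (grE (allEdges n)) S = univ \ S := by
  ext q
  rw [Finset.mem_sdiff]
  simp only [mem_cn, grE, allEdges, mem_filter, mem_univ, true_and, Sym2.mk_isDiag_iff, and_self]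
  exact ⟨fun h hq => h q hq rfl, fun h x hx e => h (e ▸ hx)⟩

theorem Psi_all {e0 θ : ℝ} (hθ : 0 ≤ θ) (hN : 0 < (allEdges n).card) :
    Psi e0 θ (allEdges n) ≤ 4 * (n : ℝ) ^ 3 * Real.exp (θ * (3 - n * e0)) := by
  have hd : dens (allEdges n) = 1 := by
    unfold dens
    exact div_self (by exact_mod_cast hN.ne')
  have h1 : ∀ S ∈ trk n, ∑ s ∈ ({1, -1} : Finset ℝ),
      Real.exp (θ * (s * ((cn (grE (allEdges n)) S).card / dens (allEdges n) ^ S.card - n)
        - n * (e0 / dens (allEdges n) ^ 40))) ≤ 2 * Real.exp (θ * (3 - n * e0)) := by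
    intro S hS
    have hk : (S.card : ℝ) ≤ 3 := by
      simp only [trk, mem_filter, mem_univ, true_and] at hS
      rcases hS with h | h <;> rw [h] <;> norm_num
    have hk0 : (0 : ℝ) ≤ S.card := Nat.cast_nonneg _
    have hc : ((cn (grE (allEdges n)) S).card : ℝ) = n - S.card := by
      rw [cn_all, card_univ_sdiff, Fintype.card_fin, Nat.cast_sub]
      simpa using card_le_univ S
    rw [sum_pair (by norm_num), hc, hd]
    simp only [one_pow, div_one]
    have ha : Real.exp (θ * (1 * (n - S.card - n) - n * e0)) ≤ Real.exp (θ * (3 - n * e0)) :=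
      Real.exp_le_exp.2 (mul_le_mul_of_nonneg_left (by linarith) hθ)
    have hb : Real.exp (θ * (-1 * (n - S.card - n) - n * e0)) ≤ Real.exp (θ * (3 - n * e0)) :=
      Real.exp_le_exp.2 (mul_le_mul_of_nonneg_left (by linarith) hθ)
    linarith
  calc Psi e0 θ (allEdges n) ≤ ∑ _S ∈ trk n, 2 * Real.exp (θ * (3 - n * e0)) := sum_le_sum h1
    _ = (trk n).card * (2 * Real.exp (θ * (3 - n * e0))) := by simp
    _ ≤ 2 * (n : ℝ) ^ 3 * (2 * Real.exp (θ * (3 - n * e0))) :=
        mul_le_mul_of_nonneg_right card_trk (by positivity)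
    _ = _ := by ring

/-- numerical conditions of the early phase; `pl` is a lower bound for the density -/
structure DemOK (n : ℕ) (pl e0 : ℝ) : Prop where
  N0 : 0 < (allEdges n).card
  pl0 : 0 < pl
  e00 : 0 < e0
  e1 : e0 / pl ^ 40 ≤ 1 / 10
  h1 : 9 / (pl * (allEdges n).card) ≤ e0
  h2 : 3 * n / (pl * (allEdges n).card) ≤ 1
  h3 : 3 / (pl * (allEdges n).card) ≤ 1 / 100
  D : 3 / (n * pl ^ 2) ≤ e0
  th : 11 * (e0 / 16) ≤ pl ^ 3

theorem avg_Psi {pl e0 : ℝ} (hD : DemOK n pl e0) {E : Finset (Sym2 (Fin n))} (hE : E ⊆ allEdges n)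
    (hp : pl ≤ dens E) (hg : Good e0 E) :
    0 < (triangles E).card ∧ ((triangles E).card : ℝ)⁻¹ *
      ∑ T ∈ triangles E, Psi e0 (e0 / 16) (E \ T.sym2) ≤ Psi e0 (e0 / 16) E := by
  have hN0 : (0 : ℝ) < (allEdges n).card := by exact_mod_cast hD.N0
  have hpl := hD.pl0
  have he0 := hD.e00
  set p := dens E with hpdef
  have hp0 : 0 < p := lt_of_lt_of_le hpl hp
  have hp1 : p ≤ 1 := by
    rw [hpdef, dens, div_le_one hN0]
    exact_mod_cast card_le_card hE
  have hEc : (E.card : ℝ) = p * (allEdges n).card := by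
    rw [hpdef, dens]; field_simp
  have hEpos : (0 : ℝ) < E.card := by rw [hEc]; positivity
  have hne : E.Nonempty := card_pos.1 (by exact_mod_cast hEpos)
  have hn0 : (0 : ℝ) < n := by
    have h1 := card_allEdges n
    rcases Nat.eq_zero_or_pos n with h | h
    · subst h; simp at h1; simp at hN0
    · exact_mod_cast h
  have hple : pl * (allEdges n).card ≤ E.card := by
    rw [hEc]; exact mul_le_mul_of_nonneg_right hp hN0.le
  have hplN : 0 < pl * (allEdges n).card := by positivity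
  have he1 : e0 ≤ e0 / p ^ 40 := by
    rw [le_div_iff₀ (by positivity)]
    have : p ^ 40 ≤ 1 := pow_le_one₀ hp0.le hp1
    nlinarith
  have he2 : e0 / p ^ 40 ≤ 1 / 10 :=
    le_trans (div_le_div_of_nonneg_left he0.le (by positivity) (pow_le_pow_left₀ hpl.le hp 40)) hD.e1
  have hh : ∀ c : ℝ, 0 ≤ c → c / E.card ≤ c / (pl * (allEdges n).card) := fun c hc =>
    div_le_div_of_nonneg_left hc hplN hple
  have h2 : ∀ h : Finset (Fin n), h.card = 2 →
      |((cn (grE E) h).card : ℝ) - n * p ^ 2| ≤ e0 / p ^ 40 * (n * p ^ 2) := by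
    intro h hh
    have := hg h (by simp [trk, hh])
    rwa [hh] at this
  have hDp : 3 / (n * p ^ 2) ≤ e0 / p ^ 40 := by
    refine le_trans (le_trans ?_ hD.D) he1
    apply div_le_div_of_nonneg_left (by norm_num) (by positivity)
    exact mul_le_mul_of_nonneg_left (pow_le_pow_left₀ hpl.le hp 2) hn0.le
  have key : ∀ S ∈ trk n, ∀ s ∈ ({1, -1} : Finset ℝ), 0 < (triangles E).card ∧
      ((triangles E).card : ℝ)⁻¹ * ∑ T ∈ triangles E,
        Real.exp (e0 / 16 * (s * ((cn (grE (E \ T.sym2)) S).card / dens (E \ T.sym2) ^ S.card - n)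
          - n * (e0 / dens (E \ T.sym2) ^ 40)))
      ≤ Real.exp (e0 / 16 * (s * ((cn (grE E) S).card / p ^ S.card - n) - n * (e0 / p ^ 40))) := by
    intro S hS s hs
    have hS' : S.card = 2 ∨ S.card = 3 := by simpa [trk] using hS
    obtain ⟨hQ, hav⟩ := avg_drop hE hne (D := n * p ^ 2) (ε := e0 / p ^ 40) (by positivity)
      (by positivity) he2 h2 hS'
    refine ⟨hQ, ?_⟩
    have hc := step_core (triangles E) hQ (drop E S) (fun T _ => drop_nn S T)
      (fun T hT => drop_le hT S) (n := n) (N := (cn (grE E) S).card) (p := p) (h := 3 / E.card)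
      (e0 := e0) (θ := e0 / 16) (s := s) hS' hn0.le hp0 hp1 (by positivity)
      (le_trans (hh 3 (by norm_num)) hD.h3) he0
      (by
        have := hh 9 (by norm_num)
        have h4 : 3 * (3 / (E.card : ℝ)) = 9 / E.card := by ring
        rw [h4]
        exact le_trans this (le_trans hD.h1 he1))
      (by
        have := hh (3 * n) (by positivity)
        have h4 : (n : ℝ) * (3 / (E.card : ℝ)) = 3 * n / E.card := by ring
        rw [h4]
        exact le_trans this hD.h2)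
      he2 (by positivity) le_rfl (le_trans hD.th (pow_le_pow_left₀ hpl.le hp 3))
      (by simpa using hs) (Nat.cast_nonneg _) (hg S hS)
      (le_trans hav (mul_le_mul_of_nonneg_left (by linarith) (by positivity)))
    refine le_trans (le_of_eq ?_) hc
    congr 1
    refine sum_congr rfl fun T hT => ?_
    have h5 : dens (E \ T.sym2) = p * (1 - 3 / E.card) := by
      have h6 : ((E \ T.sym2).card : ℝ) + 3 = E.card := by exact_mod_cast card_sdiff_tri hE hT
      rw [hpdef, dens, dens]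
      have h7 : ((E \ T.sym2).card : ℝ) = E.card - 3 := by linarith
      rw [h7]
      field_simp
    have h8 : ((cn (grE (E \ T.sym2)) S).card : ℝ) = (cn (grE E) S).card - drop E S T := by
      unfold drop; ring
    rw [h5, h8]
  have hn2 : 2 ≤ n := by
    by_contra hc
    have h1 := card_allEdges n
    have : n = 1 := by
      have : 0 < n := by exact_mod_cast hn0
      omega
    subst this
    rw [h1] at hN0
    simp at hN0
  obtain ⟨S0, hS0⟩ : (trk n).Nonempty := by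
    obtain ⟨S, -, hS⟩ := exists_subset_card_eq (s := (univ : Finset (Fin n))) (n := 2) (by simpa using hn2)
    exact ⟨S, by simp [trk, hS]⟩
  refine ⟨(key S0 hS0 1 (by simp)).1, ?_⟩
  unfold Psi
  rw [sum_comm, mul_sum]
  refine sum_le_sum fun S hS => ?_
  rw [sum_comm, mul_sum]
  exact sum_le_sum fun s hs => (key S hS s hs).2

theorem dem_explicit {pl e0 ε : ℝ} (hD : DemOK n pl e0) (hε : e0 / pl ^ 40 ≤ ε) {i0 : ℕ} {p0 : ℝ}
    (hi0 : 3 * i0 ≤ (allEdges n).card)
    (hp0 : ((allEdges n).card : ℝ) - 3 * i0 = p0 * (allEdges n).card) (hpl : pl ≤ p0)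
    {φ : ℕ → ℝ} {Bd η : ℝ} (hφ0 : ∀ k, 0 ≤ φ k) (hφ : ∀ k ≤ n ^ 2, φ k ≤ Bd) (hη : 0 ≤ η)
    (hlate : ∀ E ⊆ allEdges n, E.card + 3 * i0 = (allEdges n).card →
      PR (grE E) (n * p0 ^ 2) (n * p0 ^ 3) ε → expectFinal φ (n ^ 2 - i0) E ≤ η) :
    expectFinal φ (n ^ 2) (allEdges n)
      ≤ η + Bd * (4 * (n : ℝ) ^ 3 * Real.exp (e0 / 16 * (3 - n * e0))) := by
  have hN0 : (0 : ℝ) < (allEdges n).card := by exact_mod_cast hD.N0
  have hBd : 0 ≤ Bd := le_trans (hφ0 0) (hφ 0 (Nat.zero_le _))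
  have he0 := hD.e00
  have hpl0 := hD.pl0
  have key : ∀ j ≤ i0, ∀ E ⊆ allEdges n, E.card + 3 * (i0 - j) = (allEdges n).card →
      expectFinal φ (n ^ 2 - i0 + j) E ≤ η + Bd * Psi e0 (e0 / 16) E := by
    intro j
    induction j with
    | zero =>
      intro _ E hE hc
      have hd : dens E = p0 := by
        have h1 : (E.card : ℝ) + 3 * i0 = (allEdges n).card := by exact_mod_cast hc
        rw [dens, div_eq_iff hN0.ne']
        linarith
      by_cases hg : Good e0 E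
      · have hPR : PR (grE E) (n * p0 ^ 2) (n * p0 ^ 3) ε := by
          have he : e0 / p0 ^ 40 ≤ ε :=
            le_trans (div_le_div_of_nonneg_left he0.le (by positivity)
              (pow_le_pow_left₀ hpl0.le hpl 40)) hε
          have hp00 : 0 < p0 := lt_of_lt_of_le hpl0 hpl
          constructor
          · intro h hh
            have := hg h (by simp [trk, hh])
            rw [hh, hd] at this
            exact le_trans this (mul_le_mul_of_nonneg_right he (by positivity))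
          · intro h hh
            have := hg h (by simp [trk, hh])
            rw [hh, hd] at this
            exact le_trans this (mul_le_mul_of_nonneg_right he (by positivity))
        have h1 := hlate E hE hc hPR
        have h2 := mul_nonneg hBd (Psi_nn e0 (e0 / 16) E)
        simp only [add_zero]
        linarith
      · have h1 := one_le_Psi (θ := e0 / 16) (by positivity) (by rw [hd]; linarith) hg
        have h2 := expectFinal_le hφ (n ^ 2 - i0 + 0) E hE
        nlinarith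
    | succ j ih =>
      intro hj E hE hc
      have hd : pl ≤ dens E := by
        have h1 : (E.card : ℝ) + 3 * ((i0 - (j + 1) : ℕ) : ℝ) = (allEdges n).card := by
          exact_mod_cast hc
        have h2 : ((i0 - (j + 1) : ℕ) : ℝ) ≤ i0 := by exact_mod_cast Nat.sub_le _ _
        rw [dens, le_div_iff₀ hN0]
        have h3 : pl * (allEdges n).card ≤ p0 * (allEdges n).card :=
          mul_le_mul_of_nonneg_right hpl hN0.le
        linarith
      by_cases hg : Good e0 E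
      · obtain ⟨hQ, hav⟩ := avg_Psi hD hE hd hg
        have hc' : (0 : ℝ) < (triangles E).card := by exact_mod_cast hQ
        rw [← add_assoc]
        simp only [expectFinal]
        rw [if_neg hQ.ne']
        have h1 : ∑ T ∈ triangles E, expectFinal φ (n ^ 2 - i0 + j) (E \ T.sym2)
            ≤ ∑ T ∈ triangles E, (η + Bd * Psi e0 (e0 / 16) (E \ T.sym2)) := by
          refine sum_le_sum fun T hT => ih (by omega) _ (sdiff_subset.trans hE) ?_
          have := card_sdiff_tri hE hT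
          omega
        rw [sum_add_distrib, sum_const, nsmul_eq_mul, ← mul_sum] at h1
        have h2 := mul_le_mul_of_nonneg_left h1 (inv_pos.2 hc').le
        have h3 := mul_le_mul_of_nonneg_left hav hBd
        have h4 : ((triangles E).card : ℝ)⁻¹ * (((triangles E).card : ℝ) * η
            + Bd * ∑ T ∈ triangles E, Psi e0 (e0 / 16) (E \ T.sym2))
            = η + Bd * (((triangles E).card : ℝ)⁻¹ *
              ∑ T ∈ triangles E, Psi e0 (e0 / 16) (E \ T.sym2)) := by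
          field_simp
        linarith
      · have h1 := one_le_Psi (θ := e0 / 16) (by positivity) (lt_of_lt_of_le hpl0 hd) hg
        have h2 := expectFinal_le hφ (n ^ 2 - i0 + (j + 1)) E hE
        nlinarith
  have h1 := key i0 le_rfl (allEdges n) Subset.rfl (by simp)
  have h2 : i0 ≤ n ^ 2 := by
    have := card_le_sq (Subset.rfl : allEdges n ⊆ allEdges n)
    omega
  rw [Nat.sub_add_cancel h2] at h1
  have h3 := Psi_all (n := n) (e0 := e0) (θ := e0 / 16) (by positivity) hD.N0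
  have h4 := mul_le_mul_of_nonneg_left h3 hBd
  linarith

theorem ev_rpow_le {a b C : ℝ} (hab : a < b) :
    ∀ᶠ n : ℕ in atTop, C * (n : ℝ) ^ a ≤ (n : ℝ) ^ b := by
  have h1 : Tendsto (fun n : ℕ => (n : ℝ) ^ (b - a)) atTop atTop :=
    (tendsto_rpow_atTop (by linarith)).comp tendsto_natCast_atTop_atTop
  filter_upwards [h1.eventually_ge_atTop C, eventually_gt_atTop 0] with n hn hn0
  have hp : (0 : ℝ) < n := by exact_mod_cast hn0
  have : (n : ℝ) ^ b = (n : ℝ) ^ (b - a) * (n : ℝ) ^ a := by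
    rw [← Real.rpow_add hp]; congr 1; ring
  rw [this]
  exact mul_le_mul_of_nonneg_right hn (by positivity)

theorem ev_exp : ∀ᶠ n : ℕ in atTop,
    4 * (n : ℝ) ^ 3 * Real.exp ((n : ℝ) ^ (-(1 / 3 : ℝ)) / 16 * (3 - n * (n : ℝ) ^ (-(1 / 3 : ℝ))))
      ≤ 1 / (n : ℝ) ^ 2 := by
  have h1 : Tendsto (fun x : ℝ => x ^ (15 : ℝ) * Real.exp (-(1 / 16) * x)) atTop (nhds 0) :=
    tendsto_rpow_mul_exp_neg_mul_atTop_nhds_zero 15 (1 / 16) (by norm_num)
  have h2 : Tendsto (fun n : ℕ => (n : ℝ) ^ (1 / 3 : ℝ)) atTop atTop :=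
    (tendsto_rpow_atTop (by norm_num)).comp tendsto_natCast_atTop_atTop
  have h3 := (h1.comp h2).eventually (ge_mem_nhds (show (0 : ℝ) < 1 / 12 by norm_num))
  filter_upwards [h3, eventually_ge_atTop 1] with n hn hn1
  have hp1 : (1 : ℝ) ≤ n := by exact_mod_cast hn1
  have hp : (0 : ℝ) < n := by linarith
  simp only [Function.comp] at hn
  have h4 : ((n : ℝ) ^ (1 / 3 : ℝ)) ^ (15 : ℝ) = (n : ℝ) ^ 5 := by
    rw [← Real.rpow_mul hp.le]
    norm_num
  rw [h4] at hn
  have h5 : (n : ℝ) ^ (-(1 / 3 : ℝ)) * (n * (n : ℝ) ^ (-(1 / 3 : ℝ))) = (n : ℝ) ^ (1 / 3 : ℝ) := by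
    have : (n : ℝ) ^ (1 / 3 : ℝ) = (n : ℝ) ^ (-(1 / 3 : ℝ) + (1 + -(1 / 3 : ℝ))) := by norm_num
    rw [this, Real.rpow_add hp, Real.rpow_add hp, Real.rpow_one]
  have h6 : (n : ℝ) ^ (-(1 / 3 : ℝ)) ≤ 1 := Real.rpow_le_one_of_one_le_of_nonpos hp1 (by norm_num)
  have h7 : Real.exp ((n : ℝ) ^ (-(1 / 3 : ℝ)) / 16 * (3 - n * (n : ℝ) ^ (-(1 / 3 : ℝ))))
      ≤ 3 * Real.exp (-(1 / 16) * (n : ℝ) ^ (1 / 3 : ℝ)) := by
    have h8 : (n : ℝ) ^ (-(1 / 3 : ℝ)) / 16 * (3 - n * (n : ℝ) ^ (-(1 / 3 : ℝ)))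
        ≤ 1 + -(1 / 16) * (n : ℝ) ^ (1 / 3 : ℝ) := by
      rw [← h5]; nlinarith
    refine le_trans (Real.exp_le_exp.2 h8) ?_
    rw [Real.exp_add]
    have := Real.exp_one_lt_d9
    exact mul_le_mul_of_nonneg_right (by linarith) (Real.exp_pos _).le
  rw [le_div_iff₀ (by positivity)]
  calc 4 * (n : ℝ) ^ 3 * Real.exp ((n : ℝ) ^ (-(1 / 3 : ℝ)) / 16 *
        (3 - n * (n : ℝ) ^ (-(1 / 3 : ℝ)))) * (n : ℝ) ^ 2
      ≤ 4 * (n : ℝ) ^ 3 * (3 * Real.exp (-(1 / 16) * (n : ℝ) ^ (1 / 3 : ℝ))) * (n : ℝ) ^ 2 := by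
        gcongr
    _ = 12 * ((n : ℝ) ^ 5 * Real.exp (-(1 / 16) * (n : ℝ) ^ (1 / 3 : ℝ))) := by ring
    _ ≤ 1 := by linarith

theorem ev_demOK : ∀ᶠ n : ℕ in atTop,
    DemOK n ((n : ℝ) ^ (-(1 / 1000 : ℝ))) ((n : ℝ) ^ (-(1 / 3 : ℝ))) ∧
    (n : ℝ) ^ (-(1 / 3 : ℝ)) / ((n : ℝ) ^ (-(1 / 1000 : ℝ))) ^ 40 ≤ (n : ℝ) ^ (-(1 / 4 : ℝ)) ∧
    3 / ((allEdges n).card : ℝ) ≤ (n : ℝ) ^ (-(1 / 1000 : ℝ)) := by
  filter_upwards [eventually_ge_atTop 2,
    ev_rpow_le (a := -(1 / 4)) (b := 0) (C := 10) (by norm_num),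
    ev_rpow_le (a := 0) (b := 2 - 1 / 1000 - 1 / 3) (C := 36) (by norm_num),
    ev_rpow_le (a := 1) (b := 2 - 1 / 1000) (C := 1200) (by norm_num),
    ev_rpow_le (a := 0) (b := 1 - 2 / 1000 - 1 / 3) (C := 3) (by norm_num),
    ev_rpow_le (a := -(1 / 3)) (b := -(3 / 1000)) (C := 1) (by norm_num)]
    with n hn2 h1 h2 h3 h4 h5
  have hp2 : (2 : ℝ) ≤ n := by exact_mod_cast hn2
  have hp1 : (1 : ℝ) ≤ n := by linarith
  have hp : (0 : ℝ) < n := by linarith
  have hN : (n : ℝ) ^ 2 / 4 ≤ (allEdges n).card := by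
    rw [card_allEdges]; nlinarith
  have hN0 : (0 : ℝ) < (allEdges n).card := lt_of_lt_of_le (by positivity) hN
  set pl := (n : ℝ) ^ (-(1 / 1000 : ℝ)) with hpl
  set e0 := (n : ℝ) ^ (-(1 / 3 : ℝ)) with he0
  have hpl0 : 0 < pl := by positivity
  have he00 : 0 < e0 := by positivity
  simp only [Real.rpow_zero, mul_one, Real.rpow_one, one_mul] at h1 h2 h3 h4 h5
  have hpw : ∀ k : ℕ, pl ^ k = (n : ℝ) ^ (-(k / 1000 : ℝ)) := by
    intro k
    rw [hpl, ← Real.rpow_natCast, ← Real.rpow_mul hp.le]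
    congr 1; ring
  have hε : e0 / pl ^ 40 ≤ (n : ℝ) ^ (-(1 / 4 : ℝ)) := by
    rw [hpw, he0, ← Real.rpow_sub hp]
    apply Real.rpow_le_rpow_of_exponent_le hp1
    norm_num
  have hA : (n : ℝ) ^ (2 - 1 / 1000 : ℝ) = pl * (n : ℝ) ^ 2 := by
    rw [hpl, ← Real.rpow_natCast, ← Real.rpow_add hp]
    congr 1; norm_num
  have hB : (n : ℝ) ^ (2 - 1 / 1000 - 1 / 3 : ℝ) = pl * (n : ℝ) ^ 2 * e0 := by
    rw [← hA, he0, ← Real.rpow_add hp]
    congr 1
  have hC : (n : ℝ) ^ (1 - 2 / 1000 - 1 / 3 : ℝ) = n * pl ^ 2 * e0 := by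
    rw [hpw, he0]
    nth_rewrite 2 [← Real.rpow_one (n : ℝ)]
    rw [← Real.rpow_add hp, ← Real.rpow_add hp]
    congr 1
  rw [hA] at h3
  rw [hB] at h2
  rw [hC] at h4
  have hplN : pl * ((n : ℝ) ^ 2 / 4) ≤ pl * (allEdges n).card :=
    mul_le_mul_of_nonneg_left hN hpl0.le
  have hplN0 : 0 < pl * (allEdges n).card := by positivity
  refine ⟨⟨by exact_mod_cast hN0, hpl0, he00, by linarith, ?_, ?_, ?_, ?_, ?_⟩, hε, ?_⟩
  · rw [div_le_iff₀ hplN0]; nlinarith
  · rw [div_le_iff₀ hplN0]; nlinarith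
  · rw [div_le_iff₀ hplN0]; nlinarith
  · rw [div_le_iff₀ (by positivity)]; nlinarith
  · have : pl ^ 3 = (n : ℝ) ^ (-(3 / 1000 : ℝ)) := by rw [hpw]; norm_num
    rw [this]; linarith
  · rw [div_le_iff₀ hN0]; nlinarith

theorem dem : ∀ᶠ n : ℕ in atTop, ∃ (i0 : ℕ) (p0 : ℝ),
    3 * i0 ≤ (allEdges n).card ∧ (((allEdges n).card : ℝ) - 3 * i0) = p0 * (allEdges n).card ∧
    (n : ℝ) ^ (-(1 / 1000 : ℝ)) ≤ p0 ∧ p0 ≤ 2 * (n : ℝ) ^ (-(1 / 1000 : ℝ)) ∧
    ∀ (φ : ℕ → ℝ) (Bd η : ℝ), (∀ k, 0 ≤ φ k) → (∀ k ≤ n ^ 2, φ k ≤ Bd) → 0 ≤ η →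
      (∀ E ⊆ allEdges n, E.card + 3 * i0 = (allEdges n).card →
        PR (grE E) (n * p0 ^ 2) (n * p0 ^ 3) ((n : ℝ) ^ (-(1 / 4 : ℝ))) →
        expectFinal φ (n ^ 2 - i0) E ≤ η) →
      expectFinal φ (n ^ 2) (allEdges n) ≤ η + Bd / (n : ℝ) ^ 2 := by
  filter_upwards [ev_demOK, ev_exp, eventually_ge_atTop 1] with n hn hexp hn1
  obtain ⟨hD, hε, h3⟩ := hn
  have hp1 : (1 : ℝ) ≤ n := by exact_mod_cast hn1
  set pl := (n : ℝ) ^ (-(1 / 1000 : ℝ)) with hpl
  have hpl1 : pl ≤ 1 := Real.rpow_le_one_of_one_le_of_nonpos hp1 (by norm_num)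
  have hpl0 := hD.pl0
  have hN0 : (0 : ℝ) < (allEdges n).card := by exact_mod_cast hD.N0
  set N : ℝ := ((allEdges n).card : ℝ) with hN
  have hx : 0 ≤ N * (1 - pl) / 3 := by
    have : 0 ≤ 1 - pl := by linarith
    positivity
  have hf1 := Nat.floor_le hx
  have hf2 := Nat.lt_floor_add_one (N * (1 - pl) / 3)
  set i0 := ⌊N * (1 - pl) / 3⌋₊ with hi0
  have hi : 3 * i0 ≤ (allEdges n).card := by
    have : (3 : ℝ) * i0 ≤ N := by nlinarith
    rw [hN] at this
    exact_mod_cast this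
  have hp0 : N - 3 * i0 = (N - 3 * i0) / N * N := by field_simp
  have hlo : pl ≤ (N - 3 * i0) / N := by
    rw [le_div_iff₀ hN0]; linarith
  have hhi : (N - 3 * i0) / N ≤ 2 * pl := by
    rw [div_le_iff₀ hN0] at h3 ⊢; linarith
  refine ⟨i0, (N - 3 * i0) / N, hi, hp0, hlo, hhi, fun φ Bd η hφ0 hφ hη hlate => ?_⟩
  have h1 := dem_explicit hD hε hi hp0 hlo hφ0 hφ hη hlate
  have hBd : 0 ≤ Bd := le_trans (hφ0 0) (hφ 0 (Nat.zero_le _))
  have h2 := mul_le_mul_of_nonneg_left hexp hBd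
  rw [mul_one_div] at h2
  linarith

end Crest.Agent.R030
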