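import Crest.Agent.R030.DEMStep

/-! # Row 30: the analytic core of one step of the exponential supermartingale -/

set_option autoImplicit false
set_option linter.unusedSectionVars false

namespace Crest.Agent.R030
open Finset Crest.CombinatoricsR.TriangleRemoval Filter
open scoped Classical

theorem card_allEdges (n : ℕ) : ((allEdges n).card : ℝ) = n * (n - 1) / 2 := by
  have h1 : (allEdges n).card = n.choose 2 := by
    have := Sym2.card_subtype_not_diag (α := Fin n)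
    rw [Fintype.card_fin, Fintype.card_subtype] at this
    exact this
  rw [h1, Nat.cast_choose_two]

theorem exp_le_quad {x : ℝ} (hx : |x| ≤ 1) : Real.exp x ≤ 1 + x + x ^ 2 := by
  have := Real.abs_exp_sub_one_sub_id_le hx
  have h2 := (abs_le.1 this).2
  linarith

/-- the analytic core of one step -/
theorem step_core {ι : Type} (𝒯 : Finset ι) (hne : 0 < 𝒯.card) (dr : ι → ℝ)
    (hd0 : ∀ T ∈ 𝒯, 0 ≤ dr T) (hd3 : ∀ T ∈ 𝒯, dr T ≤ 3) {n N p h e0 θ s : ℝ} {k : ℕ}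
    (hk : k = 2 ∨ k = 3) (hn : 0 ≤ n) (hp0 : 0 < p) (hp1 : p ≤ 1) (hh0 : 0 < h) (hh1 : h ≤ 1 / 100)
    (he0 : 0 < e0) (hhe : 3 * h ≤ e0 / p ^ 40) (hnh : n * h ≤ 1) (he : e0 / p ^ 40 ≤ 1 / 10)
    (hθ0 : 0 ≤ θ) (hθ : θ ≤ e0 / 16) (hθp : 11 * θ ≤ p ^ 3) (hs : s = 1 ∨ s = -1) (hN0 : 0 ≤ N)
    (hN : |N - n * p ^ k| ≤ e0 / p ^ 40 * (n * p ^ k))
    (hav : |(𝒯.card : ℝ)⁻¹ * ∑ T ∈ 𝒯, dr T - N * k * h| ≤ N * k * h * (4 * (e0 / p ^ 40))) :
    (𝒯.card : ℝ)⁻¹ * ∑ T ∈ 𝒯, Real.exp (θ * (s * ((N - dr T) / (p * (1 - h)) ^ k - n)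
        - n * (e0 / (p * (1 - h)) ^ 40)))
      ≤ Real.exp (θ * (s * (N / p ^ k - n) - n * (e0 / p ^ 40))) := by
  set e := e0 / p ^ 40 with hedef
  have he0' : 0 < e := by positivity
  have h1h : 0 < 1 - h := by linarith
  have hpk : 0 < p ^ k := pow_pos hp0 k
  have hc : (0 : ℝ) < 𝒯.card := by exact_mod_cast hne
  set u := (1 - h) ^ k with hu
  have hu0 : 0 < u := pow_pos h1h k
  have hk3 : (k : ℝ) ≤ 3 := by rcases hk with rfl | rfl <;> norm_num
  have hk0 : (0 : ℝ) ≤ k := Nat.cast_nonneg k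
  have hu1 : 1 - u ≤ k * h ∧ k * h - 3 * h ^ 2 ≤ 1 - u := by
    rcases hk with rfl | rfl
    · simp only [hu]; push_cast; constructor <;> nlinarith
    · simp only [hu]; push_cast; constructor <;> nlinarith [pow_pos hh0 3, sq_nonneg h]
  have hu2 : 97 / 100 ≤ u := by nlinarith
  have hu3 : u ≤ 1 := pow_le_one₀ h1h.le (by linarith)
  have hp3 : p ^ 3 ≤ p ^ k := by
    apply pow_le_pow_of_le_one hp0.le hp1
    rcases hk with rfl | rfl <;> norm_num
  have hp30 : 0 < p ^ 3 := pow_pos hp0 3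
  have hp31 : p ^ 3 ≤ 1 := pow_le_one₀ hp0.le hp1
  -- normalised quantities
  set A := N / p ^ k with hA
  have hA0 : 0 ≤ A := by positivity
  have hA1 : A ≤ 11 / 10 * n := by
    rw [hA, div_le_iff₀ hpk]
    have := (abs_le.1 hN).2
    have h2 : e * (n * p ^ k) ≤ 1 / 10 * (n * p ^ k) :=
      mul_le_mul_of_nonneg_right he (by positivity)
    nlinarith
  set Y : ι → ℝ := fun T => (A * (1 - u) - dr T / p ^ k) / u with hY
  have hb : 40 * h * e ≤ e0 / (p * (1 - h)) ^ 40 - e := by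
    have h1 : e0 / (p * (1 - h)) ^ 40 = e * (1 / (1 - h)) ^ 40 := by
      rw [hedef, mul_pow]; field_simp
    have h2 : 1 + h ≤ 1 / (1 - h) := by
      rw [le_div_iff₀ h1h]; nlinarith
    have h3 : 1 + 40 * h ≤ (1 / (1 - h)) ^ 40 := by
      have := one_add_mul_le_pow (a := h) (by linarith) 40
      have h4 : (1 + h) ^ 40 ≤ (1 / (1 - h)) ^ 40 := pow_le_pow_left₀ (by linarith) h2 40
      push_cast at this
      linarith
    rw [h1]
    nlinarith
  have hsplit : ∀ T, θ * (s * ((N - dr T) / (p * (1 - h)) ^ k - n) - n * (e0 / (p * (1 - h)) ^ 40))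
      = θ * (s * (A - n) - n * e) - θ * n * (e0 / (p * (1 - h)) ^ 40 - e) + θ * s * Y T := by
    intro T
    have : (N - dr T) / (p * (1 - h)) ^ k = A + Y T := by
      simp only [hY, hA, mul_pow, ← hu]
      field_simp
      ring
    rw [this]; ring
  have hs1 : |s| = 1 := by rcases hs with rfl | rfl <;> simp
  have hs2 : s ^ 2 = 1 := by rcases hs with rfl | rfl <;> simp
  have hA2 : 0 ≤ A * (1 - u) ∧ A * (1 - u) ≤ 33 / 10 * (n * h) := by
    constructor
    · apply mul_nonneg hA0; linarith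
    · have h1 : 1 - u ≤ 3 * h := by nlinarith
      calc A * (1 - u) ≤ (11 / 10 * n) * (3 * h) :=
            mul_le_mul hA1 h1 (by linarith) (by positivity)
        _ = _ := by ring
  have hYb : ∀ T ∈ 𝒯, |Y T| ≤ 11 / p ^ 3 := by
    intro T hT
    have h1 : 0 ≤ dr T / p ^ k := div_nonneg (hd0 T hT) hpk.le
    have h2 : dr T / p ^ k ≤ 3 / p ^ 3 := by
      rw [div_le_div_iff₀ hpk hp30]
      nlinarith [hd0 T hT, hd3 T hT]
    have h3 : 1 ≤ 1 / p ^ 3 := by rw [le_div_iff₀ hp30]; linarith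
    have h4 : |A * (1 - u) - dr T / p ^ k| ≤ 4 * (1 / p ^ 3) := by
      have : 3 / p ^ 3 = 3 * (1 / p ^ 3) := by ring
      rw [abs_le]; constructor <;> nlinarith [hA2.1, hA2.2]
    simp only [hY]
    rw [abs_div, abs_of_pos hu0, div_le_iff₀ hu0]
    have : 11 / p ^ 3 = 11 * (1 / p ^ 3) := by ring
    rw [this]
    nlinarith
  have hx : ∀ T ∈ 𝒯, |θ * s * Y T| ≤ 1 := by
    intro T hT
    rw [abs_mul, abs_mul, hs1, abs_of_nonneg hθ0, mul_one]
    calc θ * |Y T| ≤ θ * (11 / p ^ 3) := mul_le_mul_of_nonneg_left (hYb T hT) hθ0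
      _ = 11 * θ / p ^ 3 := by ring
      _ ≤ 1 := by rw [div_le_one hp30]; exact hθp
  set av := (𝒯.card : ℝ)⁻¹ * ∑ T ∈ 𝒯, dr T with hav'
  -- the mean
  have hmean : (𝒯.card : ℝ)⁻¹ * ∑ T ∈ 𝒯, Y T = (A * (1 - u) - av / p ^ k) / u := by
    simp only [hY, hav']
    rw [← sum_div, sum_sub_distrib, sum_const, ← sum_div, nsmul_eq_mul]
    field_simp
  have hav2 : |A * (1 - u) - av / p ^ k| ≤ 11 / 10 * n * h * (13 * e) := by
    have h1 : |av / p ^ k - A * k * h| ≤ A * k * h * (4 * e) := by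
      have : av / p ^ k - A * k * h = (av - N * k * h) / p ^ k := by rw [hA]; field_simp
      rw [this, abs_div, abs_of_pos hpk, div_le_iff₀ hpk]
      refine le_trans hav (le_of_eq ?_)
      rw [hA]; field_simp
    have h2 : |A * (1 - u) - A * k * h| ≤ A * h * e := by
      have h3 : A * (k * h - (1 - u)) ≤ A * (3 * h ^ 2) :=
        mul_le_mul_of_nonneg_left (by linarith [hu1.2]) hA0
      have h4 : 0 ≤ A * (k * h - (1 - u)) := mul_nonneg hA0 (by linarith [hu1.1])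
      have h5 : A * h * (3 * h) ≤ A * h * e := mul_le_mul_of_nonneg_left hhe (by positivity)
      rw [abs_le]; constructor <;> nlinarith
    have h3 : A * k * h * (4 * e) ≤ A * h * (12 * e) := by
      have : A * h * e * k ≤ A * h * e * 3 := mul_le_mul_of_nonneg_left hk3 (by positivity)
      nlinarith
    have h4 : A * (h * (13 * e)) ≤ 11 / 10 * n * (h * (13 * e)) :=
      mul_le_mul_of_nonneg_right hA1 (by positivity)
    have h5 := abs_le.1 h1
    have h6 := abs_le.1 h2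
    rw [abs_le]; constructor <;> nlinarith
  have hmean2 : |(𝒯.card : ℝ)⁻¹ * ∑ T ∈ 𝒯, Y T| ≤ 30 * (n * h * e) := by
    rw [hmean, abs_div, abs_of_pos hu0, div_le_iff₀ hu0]
    have : 0 ≤ n * h * e := by positivity
    nlinarith
  -- the second moment
  have hav3 : av / p ^ k ≤ 5 * (n * h) := by
    have h1 := (abs_le.1 hav).2
    have h2 : N * k * h * (4 * e) ≤ N * k * h * (4 / 10) :=
      mul_le_mul_of_nonneg_left (by linarith) (by positivity)
    have h3 : N * h * k ≤ N * h * 3 := mul_le_mul_of_nonneg_left hk3 (by positivity)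
    have h4 : av ≤ 42 / 10 * (N * h) := by nlinarith
    have h5 : av / p ^ k ≤ 42 / 10 * (A * h) := by
      rw [div_le_iff₀ hpk, hA]
      refine le_trans h4 (le_of_eq ?_)
      field_simp
    have h6 : A * h ≤ 11 / 10 * n * h := mul_le_mul_of_nonneg_right hA1 hh0.le
    nlinarith
  have hsq : (𝒯.card : ℝ)⁻¹ * ∑ T ∈ 𝒯, Y T ^ 2 ≤ 152 * (n * h) / p ^ 3 := by
    have h1 : ∀ T ∈ 𝒯, Y T ^ 2 ≤ 40 * (n * h) + 12 / p ^ 3 * (dr T / p ^ k) := by
      intro T hT
      have h2 : 0 ≤ dr T / p ^ k := div_nonneg (hd0 T hT) hpk.le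
      have h3 : dr T / p ^ k ≤ 3 / p ^ 3 := by
        rw [div_le_div_iff₀ hpk hp30]
        nlinarith [hd0 T hT, hd3 T hT]
      have h4 : (dr T / p ^ k) ^ 2 ≤ 3 / p ^ 3 * (dr T / p ^ k) := by nlinarith
      have hnh0 : 0 ≤ n * h := by positivity
      have h5 : (A * (1 - u)) ^ 2 ≤ 11 * (n * h) := by
        have : (A * (1 - u)) ^ 2 ≤ (33 / 10 * (n * h)) ^ 2 := pow_le_pow_left₀ hA2.1 hA2.2 2
        nlinarith
      have h6 : (A * (1 - u) - dr T / p ^ k) ^ 2 ≤ 11 * (n * h) + 3 / p ^ 3 * (dr T / p ^ k) := by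
        nlinarith [mul_nonneg hA2.1 h2]
      simp only [hY]
      rw [div_pow, div_le_iff₀ (by positivity)]
      have h7 : 9 / 10 ≤ u ^ 2 := by nlinarith
      have h8 : 0 ≤ 3 / p ^ 3 * (dr T / p ^ k) := by positivity
      have h9 : 12 / p ^ 3 * (dr T / p ^ k) = 4 * (3 / p ^ 3 * (dr T / p ^ k)) := by ring
      rw [h9]
      nlinarith
    have h2 := sum_le_sum h1
    rw [sum_add_distrib, sum_const, ← mul_sum, ← sum_div, nsmul_eq_mul] at h2
    have h3 : (𝒯.card : ℝ)⁻¹ * ∑ T ∈ 𝒯, Y T ^ 2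
        ≤ 40 * (n * h) + 12 / p ^ 3 * (av / p ^ k) := by
      refine le_trans (mul_le_mul_of_nonneg_left h2 (by positivity)) (le_of_eq ?_)
      rw [hav']; field_simp
    have h4 : 12 / p ^ 3 * (av / p ^ k) ≤ 12 / p ^ 3 * (5 * (n * h)) :=
      mul_le_mul_of_nonneg_left hav3 (by positivity)
    have h5 : n * h ≤ n * h / p ^ 3 := by
      rw [le_div_iff₀ hp30]
      have : 0 ≤ n * h := by positivity
      nlinarith
    have h6 : 12 / p ^ 3 * (5 * (n * h)) = 60 * (n * h / p ^ 3) := by ring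
    have h7 : 152 * (n * h) / p ^ 3 = 152 * (n * h / p ^ 3) := by ring
    have : 0 ≤ n * h := by positivity
    rw [h7]
    linarith
  have hθsq : θ * (152 * (n * h) / p ^ 3) ≤ 10 * (n * h * e) := by
    have h1 : e0 / p ^ 3 ≤ e := by
      rw [hedef]
      apply div_le_div_of_nonneg_left he0.le (by positivity)
      exact pow_le_pow_of_le_one hp0.le hp1 (by norm_num)
    have hnh0 : 0 ≤ n * h := by positivity
    calc θ * (152 * (n * h) / p ^ 3) ≤ e0 / 16 * (152 * (n * h) / p ^ 3) :=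
          mul_le_mul_of_nonneg_right hθ (by positivity)
      _ = 152 / 16 * (n * h) * (e0 / p ^ 3) := by ring
      _ ≤ 152 / 16 * (n * h) * e := mul_le_mul_of_nonneg_left h1 (by positivity)
      _ ≤ 10 * (n * h * e) := by nlinarith [mul_nonneg hnh0 he0'.le]
  have hmain : (𝒯.card : ℝ)⁻¹ * ∑ T ∈ 𝒯, Real.exp (θ * s * Y T)
      ≤ Real.exp (θ * n * (e0 / (p * (1 - h)) ^ 40 - e)) := by
    have h1 : ∑ T ∈ 𝒯, Real.exp (θ * s * Y T)
        ≤ ∑ T ∈ 𝒯, (1 + θ * s * Y T + θ ^ 2 * Y T ^ 2) := by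
      refine sum_le_sum fun T hT => le_trans (exp_le_quad (hx T hT)) (le_of_eq ?_)
      rw [mul_pow, mul_pow, hs2]; ring
    rw [sum_add_distrib, sum_add_distrib, sum_const, ← mul_sum, ← mul_sum, nsmul_eq_mul] at h1
    have h2 : (𝒯.card : ℝ)⁻¹ * ∑ T ∈ 𝒯, Real.exp (θ * s * Y T)
        ≤ 1 + θ * (s * ((𝒯.card : ℝ)⁻¹ * ∑ T ∈ 𝒯, Y T))
          + θ * (θ * ((𝒯.card : ℝ)⁻¹ * ∑ T ∈ 𝒯, Y T ^ 2)) := by
      refine le_trans (mul_le_mul_of_nonneg_left h1 (by positivity)) (le_of_eq ?_)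
      field_simp
    have h3 : s * ((𝒯.card : ℝ)⁻¹ * ∑ T ∈ 𝒯, Y T) ≤ 30 * (n * h * e) := by
      refine le_trans (le_abs_self _) ?_
      rw [abs_mul, hs1, one_mul]; exact hmean2
    have h4 : θ * ((𝒯.card : ℝ)⁻¹ * ∑ T ∈ 𝒯, Y T ^ 2) ≤ 10 * (n * h * e) :=
      le_trans (mul_le_mul_of_nonneg_left hsq hθ0) hθsq
    have h5 : 40 * (n * h * e) ≤ n * (e0 / (p * (1 - h)) ^ 40 - e) := by
      have := mul_le_mul_of_nonneg_left hb hn
      linarith
    have h6 := Real.add_one_le_exp (θ * n * (e0 / (p * (1 - h)) ^ 40 - e))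
    have h7 := mul_le_mul_of_nonneg_left h3 hθ0
    have h8 := mul_le_mul_of_nonneg_left h4 hθ0
    have h9 := mul_le_mul_of_nonneg_left h5 hθ0
    nlinarith
  simp_rw [hsplit, Real.exp_add, Real.exp_sub]
  rw [← mul_sum, mul_left_comm, div_mul_eq_mul_div, div_le_iff₀ (Real.exp_pos _)]
  exact mul_le_mul_of_nonneg_left hmain (Real.exp_pos _).le

end Crest.Agent.R030
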