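import Crest.Agent.R030.Basic

/-! # Row 30: one step of the removal process: first moments of the codegree drops

`3 #triangles = ∑_{edges e} #cn e`; an edge `{u,w}` of `E` lies in `#cn {u,w}` triangles; a common neighbour `w` of `S` is lost
iff the removed triangle contains `w` and a vertex of `S`; triangles containing `w` and two vertices of `S`
(at most 3) are counted twice. -/

set_option autoImplicit false
set_option linter.unusedSectionVars false

namespace Crest.Agent.R030
open Finset Crest.CombinatoricsR.TriangleRemoval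
open scoped Classical

variable {n : ℕ} {E : Finset (Sym2 (Fin n))}

theorem ds_mem_tri {T : Finset (Fin n)} :
    T ∈ triangles E ↔ T.card = 3 ∧ ∀ u ∈ T, ∀ v ∈ T, u ≠ v → s(u, v) ∈ E := by
  simp [triangles, mem_powersetCard]

theorem ds_inter_card (hE : E ⊆ allEdges n) {T : Finset (Fin n)} (hT : T ∈ triangles E) :
    (E.filter fun e => e ∈ T.sym2).card = 3 := by
  obtain ⟨h3, hadj⟩ := ds_mem_tri.1 hT
  obtain ⟨a, b, c, hab, hac, hbc, rfl⟩ := card_eq_three.1 h3
  have : (E.filter fun e => e ∈ ({a, b, c} : Finset (Fin n)).sym2)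
      = {s(a, b), s(a, c), s(b, c)} := by
    ext e
    induction e using Sym2.ind with
    | _ x y =>
      simp only [mem_filter, mk_mem_sym2_iff]
      constructor
      · rintro ⟨he, hx, hy⟩
        have hne : x ≠ y := by
          have := hE he
          simpa [allEdges] using this
        simp only [mem_insert, mem_singleton] at hx hy ⊢
        rcases hx with rfl | rfl | rfl <;> rcases hy with rfl | rfl | rfl <;>
          simp_all [Sym2.eq_swap]
      · intro he
        simp only [mem_insert, mem_singleton] at he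
        rcases he with he | he | he
        · rw [he]
          refine ⟨hadj a (by simp) b (by simp) hab, ?_⟩
          rw [← mk_mem_sym2_iff, he, mk_mem_sym2_iff]; simp
        · rw [he]
          refine ⟨hadj a (by simp) c (by simp) hac, ?_⟩
          rw [← mk_mem_sym2_iff, he, mk_mem_sym2_iff]; simp
        · rw [he]
          refine ⟨hadj b (by simp) c (by simp) hbc, ?_⟩
          rw [← mk_mem_sym2_iff, he, mk_mem_sym2_iff]; simp
  rw [this, card_eq_three]
  refine ⟨_, _, _, ?_, ?_, ?_, rfl⟩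
  · simp [hac, hbc, hab.symm]
  · simp [hab, hac, hbc]
  · simp [hab, hac, hbc.symm]

/-- the triangles through an edge -/
theorem ds_tri_pair {x y : Fin n} (hxy : (grE E).Adj x y) :
    ((triangles E).filter fun T => x ∈ T ∧ y ∈ T).card = (cn (grE E) {x, y}).card := by
  symm
  refine card_bij (fun q _ => insert q {x, y}) ?_ ?_ ?_
  · intro q hq
    have hx : (grE E).Adj x q := mem_cn.1 hq x (by simp)
    have hy : (grE E).Adj y q := mem_cn.1 hq y (by simp)
    refine mem_filter.2 ⟨ds_mem_tri.2 ⟨card_insert_cn (isEdge_pair hxy) hq, ?_⟩, by simp, by simp⟩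
    intro u hu v hv huv
    simp only [mem_insert, mem_singleton] at hu hv
    rcases hu with rfl | rfl | rfl <;> rcases hv with rfl | rfl | rfl
    · exact absurd rfl huv
    · exact hx.symm.2
    · exact hy.symm.2
    · exact hx.2
    · exact absurd rfl huv
    · exact hxy.2
    · exact hy.2
    · exact hxy.symm.2
    · exact absurd rfl huv
  · intro q hq q' _ h
    have : q ∈ insert q' ({x, y} : Finset (Fin n)) := by rw [← h]; simp
    rcases mem_insert.1 this with h1 | h1
    · exact h1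
    · exact absurd h1 (not_mem_of_mem_cn hq)
  · intro T hT
    obtain ⟨hT, hx, hy⟩ := mem_filter.1 hT
    obtain ⟨h3, hadj⟩ := ds_mem_tri.1 hT
    have hsub : ({x, y} : Finset (Fin n)) ⊆ T := by
      intro z hz
      rcases mem_insert.1 hz with rfl | hz
      · exact hx
      · rw [mem_singleton.1 hz]; exact hy
    have hc : ({x, y} : Finset (Fin n)).card = 2 := card_pair hxy.ne
    obtain ⟨q, hqT, hq⟩ : ∃ q ∈ T, q ∉ ({x, y} : Finset (Fin n)) := by
      by_contra hcon
      push Not at hcon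
      have := card_le_card (show T ⊆ {x, y} from hcon)
      omega
    refine ⟨q, mem_cn.2 fun z hz => ?_, ?_⟩
    · have hzq : z ≠ q := fun h => hq (h ▸ hz)
      exact ⟨hzq, hadj z (hsub hz) q hqT hzq⟩
    · refine eq_of_subset_of_card_le (insert_subset hqT hsub) ?_
      rw [card_insert_of_notMem hq]; omega

theorem ds_cn_sdiff (S T : Finset (Fin n)) :
    cn (grE (E \ T.sym2)) S = (cn (grE E) S).filter fun w => ¬ (w ∈ T ∧ ∃ x ∈ S, x ∈ T) := by
  ext w
  simp only [mem_filter, mem_cn, grE, mem_sdiff, mk_mem_sym2_iff]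
  constructor
  · intro h
    refine ⟨fun x hx => ⟨(h x hx).1, (h x hx).2.1⟩, ?_⟩
    rintro ⟨hw, x, hx, hxT⟩
    exact (h x hx).2.2 ⟨hxT, hw⟩
  · rintro ⟨h1, h2⟩ x hx
    exact ⟨(h1 x hx).1, (h1 x hx).2, fun h => h2 ⟨h.2, x, hx, h.1⟩⟩

theorem card_sdiff_tri (hE : E ⊆ allEdges n) {T : Finset (Fin n)} (hT : T ∈ triangles E) :
    (E \ T.sym2).card + 3 = E.card := by
  rw [← ds_inter_card hE hT, filter_mem_eq_inter, card_sdiff_add_card_inter]

/-- the drop of the number of common neighbours of `S` when the triangle `T` is removed -/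
noncomputable def drop (E : Finset (Sym2 (Fin n))) (S T : Finset (Fin n)) : ℝ :=
  ((cn (grE E) S).card : ℝ) - (cn (grE (E \ T.sym2)) S).card

theorem ds_drop_eq (S T : Finset (Fin n)) :
    drop E S T = (((cn (grE E) S).filter fun w => w ∈ T ∧ ∃ x ∈ S, x ∈ T).card : ℝ) := by
  unfold drop
  rw [ds_cn_sdiff, ← card_filter_add_card_filter_not (s := cn (grE E) S)
    (fun w => w ∈ T ∧ ∃ x ∈ S, x ∈ T)]
  push_cast
  ring

theorem drop_nn (S T : Finset (Fin n)) : 0 ≤ drop E S T := by
  rw [ds_drop_eq]; positivity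

theorem drop_le {T : Finset (Fin n)} (hT : T ∈ triangles E) (S : Finset (Fin n)) :
    drop E S T ≤ 3 := by
  rw [ds_drop_eq]
  have h3 := (ds_mem_tri.1 hT).1
  have : ((cn (grE E) S).filter fun w => w ∈ T ∧ ∃ x ∈ S, x ∈ T).card ≤ T.card :=
    card_le_card fun w hw => (mem_filter.1 hw).2.1
  rw [h3] at this
  exact_mod_cast this

theorem triangles_card {D ε : ℝ} (hE : E ⊆ allEdges n)
    (h2 : ∀ h : Finset (Fin n), h.card = 2 → |((cn (grE E) h).card : ℝ) - D| ≤ ε * D) :
    |3 * ((triangles E).card : ℝ) - E.card * D| ≤ E.card * (ε * D) := by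
  have key : 3 * ((triangles E).card : ℝ)
      = ∑ e ∈ E, (((triangles E).filter fun T => e ∈ T.sym2).card : ℝ) := by
    have h1 : 3 * ((triangles E).card : ℝ)
        = ∑ T ∈ triangles E, ((E.filter fun e => e ∈ T.sym2).card : ℝ) := by
      rw [sum_congr rfl fun T hT => by rw [ds_inter_card hE hT]]
      simp [mul_comm]
    rw [h1]
    simp_rw [← sum_boole]
    rw [sum_comm]
  have h3 : (E.card : ℝ) * D = ∑ _e ∈ E, D := by simp
  have h4 : (E.card : ℝ) * (ε * D) = ∑ _e ∈ E, ε * D := by simp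
  rw [key, h3, h4, ← sum_sub_distrib]
  refine (abs_sum_le_sum_abs _ _).trans (sum_le_sum fun e he => ?_)
  induction e using Sym2.ind with
  | _ x y =>
    have hne : x ≠ y := by
      have := hE he
      simpa [allEdges] using this
    have hxy : (grE E).Adj x y := ⟨hne, he⟩
    simp only [mk_mem_sym2_iff]
    rw [ds_tri_pair hxy]
    exact h2 _ (card_pair hne)

/-- the number of triangles killing the common neighbour `w` of `S` -/
theorem ds_kill {S : Finset (Fin n)} (hS : S.card ≤ 3) {w : Fin n} (hw : w ∈ cn (grE E) S) :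
    ((triangles E).filter fun T => w ∈ T ∧ ∃ x ∈ S, x ∈ T).card
        ≤ ∑ x ∈ S, (cn (grE E) {x, w}).card ∧
      ∑ x ∈ S, (cn (grE E) {x, w}).card
        ≤ ((triangles E).filter fun T => w ∈ T ∧ ∃ x ∈ S, x ∈ T).card + 3 := by
  have hwS : w ∉ S := not_mem_of_mem_cn hw
  have key : ∑ x ∈ S, (cn (grE E) {x, w}).card
      = ∑ T ∈ triangles E, (S.filter fun x => x ∈ T ∧ w ∈ T).card := by
    rw [sum_congr rfl fun x hx => (ds_tri_pair (mem_cn.1 hw x hx)).symm]
    simp_rw [card_filter]
    rw [sum_comm]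
  rw [key]
  constructor
  · rw [card_filter]
    refine sum_le_sum fun T _ => ?_
    split_ifs with h
    · obtain ⟨h1, x, hx, hxT⟩ := h
      exact card_pos.2 ⟨x, mem_filter.2 ⟨hx, hxT, h1⟩⟩
    · exact Nat.zero_le _
  · have h3 : ((triangles E).filter fun T => w ∈ T ∧ T.erase w ⊆ S).card ≤ 3 := by
      have : ((triangles E).filter fun T => w ∈ T ∧ T.erase w ⊆ S).card
          ≤ (S.powersetCard 2).card := by
        refine card_le_card_of_injOn (fun T => T.erase w) ?_ ?_
        · intro T hT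
          obtain ⟨hT, h1, h2⟩ := mem_filter.1 (mem_coe.1 hT)
          refine mem_coe.2 (mem_powersetCard.2 ⟨h2, ?_⟩)
          rw [card_erase_of_mem h1, (ds_mem_tri.1 hT).1]
        · intro T hT T' hT' h
          have h1 := (mem_filter.1 (mem_coe.1 hT)).2.1
          have h2 := (mem_filter.1 (mem_coe.1 hT')).2.1
          rw [← insert_erase h1, ← insert_erase h2]
          exact congrArg _ h
      rw [card_powersetCard] at this
      refine this.trans ?_
      exact (Nat.choose_le_choose 2 hS).trans (by decide)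
    refine le_trans ?_ (Nat.add_le_add_left h3 _)
    rw [card_filter, card_filter, ← sum_add_distrib]
    refine sum_le_sum fun T hT => ?_
    have hT3 := (ds_mem_tri.1 hT).1
    by_cases h1 : w ∈ T
    · have hsub : (S.filter fun x => x ∈ T ∧ w ∈ T) ⊆ T.erase w := by
        intro x hx
        obtain ⟨hxS, hxT, -⟩ := mem_filter.1 hx
        exact mem_erase.2 ⟨fun h => hwS (h ▸ hxS), hxT⟩
      have hc : (T.erase w).card = 2 := by rw [card_erase_of_mem h1, hT3]
      have hle := card_le_card hsub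
      by_cases h2 : ∃ x ∈ S, x ∈ T
      · by_cases h4 : T.erase w ⊆ S
        · rw [if_pos ⟨h1, h2⟩, if_pos ⟨h1, h4⟩]; omega
        · rw [if_pos ⟨h1, h2⟩, if_neg fun h => h4 h.2]
          by_contra hcon
          have : (S.filter fun x => x ∈ T ∧ w ∈ T) = T.erase w :=
            eq_of_subset_of_card_le hsub (by omega)
          exact h4 (this ▸ filter_subset _ _)
      · have : (S.filter fun x => x ∈ T ∧ w ∈ T) = ∅ :=
          filter_eq_empty_iff.2 fun x hx h => h2 ⟨x, hx, h.1⟩
        rw [this]; simp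
    · have : (S.filter fun x => x ∈ T ∧ w ∈ T) = ∅ :=
        filter_eq_empty_iff.2 fun x hx h => h1 h.2
      rw [this]; simp

theorem avg_drop {D ε : ℝ} (hE : E ⊆ allEdges n) (hne : E.Nonempty) (hD : 0 < D) (hε0 : 0 ≤ ε)
    (hε : ε ≤ 1 / 10)
    (h2 : ∀ h : Finset (Fin n), h.card = 2 → |((cn (grE E) h).card : ℝ) - D| ≤ ε * D)
    {S : Finset (Fin n)} (hS : S.card = 2 ∨ S.card = 3) :
    0 < (triangles E).card ∧
    |((triangles E).card : ℝ)⁻¹ * ∑ T ∈ triangles E, drop E S T
        - (cn (grE E) S).card * S.card * (3 / E.card)|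
      ≤ (cn (grE E) S).card * S.card * (3 / E.card) * (3 * ε + 3 / D) := by
  have htri := abs_le.1 (triangles_card hE h2)
  have he : (0 : ℝ) < E.card := by exact_mod_cast hne.card_pos
  have heD : 0 < (E.card : ℝ) * D := mul_pos he hD
  have hτ : (0 : ℝ) < (triangles E).card := by nlinarith [htri.1]
  refine ⟨by exact_mod_cast hτ, ?_⟩
  have hS3 : S.card ≤ 3 := by omega
  have hs2 : (2 : ℝ) ≤ S.card := by
    have : 2 ≤ S.card := by omega
    exact_mod_cast this
  have key : ∑ T ∈ triangles E, drop E S T = ∑ w ∈ cn (grE E) S,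
      (((triangles E).filter fun T => w ∈ T ∧ ∃ x ∈ S, x ∈ T).card : ℝ) := by
    simp_rw [ds_drop_eq, ← sum_boole]
    rw [sum_comm]
  have hw : ∀ w ∈ cn (grE E) S,
      S.card * (D - ε * D) - 3
          ≤ (((triangles E).filter fun T => w ∈ T ∧ ∃ x ∈ S, x ∈ T).card : ℝ) ∧
        (((triangles E).filter fun T => w ∈ T ∧ ∃ x ∈ S, x ∈ T).card : ℝ)
          ≤ S.card * (D + ε * D) := by
    intro w hw
    obtain ⟨k1, k2⟩ := ds_kill hS3 hw
    have k1' : (((triangles E).filter fun T => w ∈ T ∧ ∃ x ∈ S, x ∈ T).card : ℝ)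
        ≤ ∑ x ∈ S, ((cn (grE E) {x, w}).card : ℝ) := by exact_mod_cast k1
    have k2' : ∑ x ∈ S, ((cn (grE E) {x, w}).card : ℝ)
        ≤ (((triangles E).filter fun T => w ∈ T ∧ ∃ x ∈ S, x ∈ T).card : ℝ) + 3 := by
      exact_mod_cast k2
    have hb : ∀ x ∈ S, |((cn (grE E) {x, w}).card : ℝ) - D| ≤ ε * D := fun x hx =>
      h2 _ (card_pair (mem_cn.1 hw x hx).ne)
    have l1 : ∑ _x ∈ S, (D - ε * D) ≤ ∑ x ∈ S, ((cn (grE E) {x, w}).card : ℝ) :=
      sum_le_sum fun x hx => by linarith [(abs_le.1 (hb x hx)).1]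
    have l2 : ∑ x ∈ S, ((cn (grE E) {x, w}).card : ℝ) ≤ ∑ _x ∈ S, (D + ε * D) :=
      sum_le_sum fun x hx => by linarith [(abs_le.1 (hb x hx)).2]
    rw [sum_const, nsmul_eq_mul] at l1 l2
    constructor <;> linarith
  set A : ℝ := ∑ T ∈ triangles E, drop E S T with hA
  set c : ℝ := ((cn (grE E) S).card : ℝ) with hc
  set s : ℝ := (S.card : ℝ) with hs
  set e : ℝ := (E.card : ℝ) with hedef
  set τ : ℝ := ((triangles E).card : ℝ) with hτdef
  have hc0 : 0 ≤ c := by positivity
  have hA1 : c * (s * (D - ε * D) - 3) ≤ A := by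
    rw [key]
    have := sum_le_sum fun w hw' => (hw w hw').1
    rwa [sum_const, nsmul_eq_mul] at this
  have hA2 : A ≤ c * (s * (D + ε * D)) := by
    rw [key]
    have := sum_le_sum fun w hw' => (hw w hw').2
    rwa [sum_const, nsmul_eq_mul] at this
  clear_value A c s e τ
  clear key hw hA hc hs hedef hτdef h2
  obtain ⟨θ, hθ⟩ : ∃ θ : ℝ, θ = 3 * τ / (e * D) := ⟨_, rfl⟩
  have hθ1 : 1 - ε ≤ θ := by
    rw [hθ, le_div_iff₀ heD]; nlinarith [htri.1]
  have hθ2 : θ ≤ 1 + ε := by
    rw [hθ, div_le_iff₀ heD]; nlinarith [htri.2]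
  have hθ0 : 0 < θ := by linarith
  have hτθ : τ = e * D * θ / 3 := by rw [hθ]; field_simp
  have e1 : τ⁻¹ * A - c * s * (3 / e) = (A - c * s * D * θ) * (3 / (e * D * θ)) := by
    rw [hτθ]; field_simp
  have e2 : c * s * (3 / e) * (3 * ε + 3 / D)
      = (c * s * (3 * ε * D + 3) * θ) * (3 / (e * D * θ)) := by
    field_simp
  have hp : 0 < 3 / (e * D * θ) := by positivity
  rw [e1, e2, abs_mul, abs_of_pos hp]
  refine mul_le_mul_of_nonneg_right ?_ hp.le
  have hcsD : 0 ≤ c * s * D := by positivity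
  have hcsDε : 0 ≤ c * s * D * ε := by positivity
  have m1 : c * s * D * ε * (9 / 10) ≤ c * s * D * ε * θ :=
    mul_le_mul_of_nonneg_left (by linarith) hcsDε
  have m2 : c * s * D * (1 - ε) ≤ c * s * D * θ := mul_le_mul_of_nonneg_left hθ1 hcsD
  have m3 : c * s * D * θ ≤ c * s * D * (1 + ε) := mul_le_mul_of_nonneg_left hθ2 hcsD
  have m4 : c * 1 ≤ c * (s * θ) := mul_le_mul_of_nonneg_left (by nlinarith) hc0
  rw [abs_le]
  constructor <;> nlinarith

end Crest.Agent.R030
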