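import Mathlib
import Crest.Prelude.Def_TriangleRemoval

/-!
# Row 30 (triangle removal): definitions

Edges are 2-element finsets `h`, the triangle on `h` with apex `q` is `insert q h`.
Every triangle `T` has an iid uniform label `lab ω T ∈ {0,…,M-1}`; every pair (edge `h`, apex `q`)
has an independent "ideal" variable, `bit ω h q = 1` iff the label of `insert q h` is below it; given the
label `t` the bit is 1 with probability `mu t h q` (the belief-propagation value).
-/

set_option autoImplicit false

namespace Crest.Agent.R030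
open Finset
open scoped Classical

/-- index set of the independent variables -/
abbrev Idx (V : Type) := Finset V ⊕ (Finset V × V)

/-- sample space -/
abbrev Om (V : Type) (M : ℕ) := Idx V → Fin (M + 1)

/-- thresholds: the node (h,q) is evaluated by its ideal bit iff its label is `< σ h q` -/
abbrev Thr (V : Type) := Finset V → V → ℕ

/-- overrides of node values -/
abbrev Ov (V : Type) := Finset V → V → Option ℝ

variable {V : Type} [Fintype V] [DecidableEq V]

/-- the triangle a variable belongs to -/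
def tri : Idx V → Finset V
  | Sum.inl T => T
  | Sum.inr (h, q) => insert q h

/-- common neighbours of all vertices of `h` -/
noncomputable def cn (G : SimpleGraph V) (h : Finset V) : Finset V :=
  univ.filter fun q => ∀ x ∈ h, G.Adj x q

/-- `h` is an edge of `G` -/
def IsEdge (G : SimpleGraph V) (h : Finset V) : Prop := ∃ x y, G.Adj x y ∧ h = {x, y}

/-- the edges of `G` as 2-element finsets -/
noncomputable def Ed (G : SimpleGraph V) : Finset (Finset V) := univ.filter fun h => IsEdge G h

/-- the pairs (edge, apex) -/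
noncomputable def Tg (G : SimpleGraph V) : Finset (Finset V × V) :=
  univ.filter fun p => IsEdge G p.1 ∧ p.2 ∈ cn G p.1

/-- pseudo-randomness: codegrees of pairs and of triples -/
structure PR (G : SimpleGraph V) (D D3 ε : ℝ) : Prop where
  two : ∀ h : Finset V, h.card = 2 → |((cn G h).card : ℝ) - D| ≤ ε * D
  three : ∀ h : Finset V, h.card = 3 → |((cn G h).card : ℝ) - D3| ≤ ε * D3

/-! ## belief propagation -/

/-- `abar t h q`: ideal probability that `h` is hit by the triangle `insert q h` before time `t` -/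
noncomputable def abar (G : SimpleGraph V) (M : ℕ) : ℕ → Finset V → V → ℝ
  | 0 => fun _ _ => 0
  | t + 1 => fun h q => abar G M t h q +
      (∏ x ∈ h, ∏ q' ∈ (cn G {x, q}).filter (fun q' => insert q' {x, q} ≠ insert q h),
        (1 - abar G M t {x, q} q')) / M

/-- directed message: survival of `f` until `t`, ignoring the triangle `T` -/
noncomputable def mdir (G : SimpleGraph V) (M t : ℕ) (f T : Finset V) : ℝ :=
  ∏ q' ∈ (cn G f).filter (fun q' => insert q' f ≠ T), (1 - abar G M t f q')

/-- ideal availability of the triangle `insert q h` seen from `h` at time `t` -/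
noncomputable def mu (G : SimpleGraph V) (M t : ℕ) (h : Finset V) (q : V) : ℝ :=
  ∏ x ∈ h, mdir G M t {x, q} (insert q h)

/-- ideal survival probability of the edge `h` until time `t` -/
noncomputable def mm (G : SimpleGraph V) (M t : ℕ) (h : Finset V) : ℝ :=
  ∏ q ∈ cn G h, (1 - abar G M t h q)

/-- the mean-field density: `p(0)=1`, `p(t+1) = p(t) (1 - D p(t)²/M)` -/
noncomputable def pseq (D : ℝ) (M : ℕ) : ℕ → ℝ
  | 0 => 1
  | t + 1 => pseq D M t * (1 - D * pseq D M t ^ 2 / M)

/-! ## the product measure -/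

/-- weights of the independent variables -/
noncomputable def wt (G : SimpleGraph V) (M : ℕ) : Idx V → Fin (M + 1) → ℝ
  | Sum.inl _, v => if (v : ℕ) < M then 1 / (M : ℝ) else 0
  | Sum.inr (h, q), v =>
      (if (v : ℕ) = 0 then 1 else mu G M ((v : ℕ) - 1) h q) - (if (v : ℕ) = M then 0 else mu G M v h q)

/-- expectation -/
noncomputable def Ex (G : SimpleGraph V) (M : ℕ) (f : Om V M → ℝ) : ℝ :=
  ∑ ω : Om V M, (∏ i, wt G M i (ω i)) * f ω

variable {M : ℕ}

/-- label of a triangle -/
def lab (ω : Om V M) (T : Finset V) : ℕ := (ω (Sum.inl T) : ℕ)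

/-- the ideal bit of the node `(h,q)` -/
noncomputable def bit (ω : Om V M) (h : Finset V) (q : V) : ℝ :=
  if lab ω (insert q h) < (ω (Sum.inr (h, q)) : ℕ) then 1 else 0

/-- indicator that the label of `T` is `< c` -/
noncomputable def act (ω : Om V M) (T : Finset V) (c : ℕ) : ℝ := if lab ω T < c then 1 else 0

/-- indicator that the label of `T` is `s` -/
noncomputable def ind (ω : Om V M) (T : Finset V) (s : ℕ) : ℝ := if lab ω T = s then 1 else 0

/-- `I` depends only on the variables of the triangles in `𝒮` -/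
def DepTri (I : Om V M → ℝ) (𝒮 : Set (Finset V)) : Prop := DependsOn I {i | tri i ∈ 𝒮}

/-- survival of the edge `h` until `c` when the node `(h,q)` has availability `A q`; apexes in `S`
are ignored -/
noncomputable def alive (G : SimpleGraph V) (h : Finset V) (c : ℕ) (A : V → Om V M → ℝ)
    (S : Finset V) (ω : Om V M) : ℝ :=
  ∏ q ∈ cn G h \ S, (1 - act ω (insert q h) c * A q ω)

/-- the real process: `ral c h ω = 1` iff `h` is not removed before time `c` -/
noncomputable def ral (G : SimpleGraph V) (ω : Om V M) (c : ℕ) (h : Finset V) : ℝ :=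
  ∏ q ∈ cn G h, (1 - if _hl : lab ω (insert q h) < c then
    ∏ x ∈ h, ral G ω (lab ω (insert q h)) {x, q} else 0)
termination_by c

/-- the real availability of the node `(h,q)` -/
noncomputable def realA (G : SimpleGraph V) (h : Finset V) (q : V) (ω : Om V M) : ℝ :=
  ∏ x ∈ h, ral G ω (lab ω (insert q h)) {x, q}

/-- valuations: at nodes whose apex is new (not in `W` or among the ancestors' apexes) the value
follows the rule; elsewhere it is arbitrary in `[0,1]` -/
inductive Val (G : SimpleGraph V) (σ : Thr V) : Finset V → Finset V → (V → Om V M → ℝ) → Prop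
  | mk (W h : Finset V) (A : V → Om V M → ℝ) (sub : V → V → V → Om V M → ℝ)
      (nn : ∀ q ω, 0 ≤ A q ω) (le1 : ∀ q ω, A q ω ≤ 1)
      (hsub : ∀ q ∈ cn G h, q ∉ W → ∀ x ∈ h, Val G σ (insert q W) {x, q} (sub q x))
      (rule : ∀ q ∈ cn G h, q ∉ W → ∀ ω, A q ω =
        if lab ω (insert q h) < σ h q then bit ω h q
        else ∏ x ∈ h, alive G {x, q} (lab ω (insert q h)) (sub q x) ∅ ω) :
      Val G σ W h A

theorem card_compl_insert_lt {W : Finset V} {q : V} (hq : q ∉ W) :
    (univ \ insert q W).card < (univ \ W).card := by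
  apply card_lt_card
  refine ⟨fun x hx => ?_, fun hh => ?_⟩
  · simp only [mem_sdiff, mem_univ, true_and, mem_insert, not_or] at hx ⊢
    exact hx.2
  · have : q ∈ univ \ insert q W := hh (by simp [hq])
    simp at this

/-- canonical valuation: nodes with an old apex have value `0`, overridden nodes their override -/
noncomputable def can (G : SimpleGraph V) (σ : Thr V) (ov : Ov V) (ω : Om V M)
    (W h : Finset V) (q : V) : ℝ :=
  if _hq : q ∈ W then 0 else
    match ov h q with
    | some α => α
    | none =>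
      if lab ω (insert q h) < σ h q then bit ω h q
      else ∏ x ∈ h, ∏ q' ∈ cn G {x, q},
        (1 - act ω (insert q' {x, q}) (lab ω (insert q h)) * can G σ ov ω (insert q W) {x, q} q')
termination_by (univ \ W).card
decreasing_by exact card_compl_insert_lt (by assumption)

/-- `can` as a family, with an override that may depend on `ω` -/
noncomputable def canF (G : SimpleGraph V) (σ : Thr V) (ovf : Om V M → Ov V) (W h : Finset V) :
    V → Om V M → ℝ := fun q ω => can G σ (ovf ω) ω W h q

/-- no override -/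
def noOv : Ov V := fun _ _ => none

/-- the triangles through the apex `w` and a vertex of `e`, other than `insert w e` -/
def Xi (e : Finset V) (w : V) (T : Finset V) : Prop := w ∈ T ∧ (∃ v ∈ e, v ∈ T) ∧ T ≠ insert w e

/-- override: the node `(e,w)` gets the value `α`; if `j`, the nodes on triangles in `Xi e w` get `0` -/
noncomputable def ovT (e : Finset V) (w : V) (α : ℝ) (j : Bool) : Ov V := fun h q =>
  if h = e ∧ q = w then some α else if j = true ∧ Xi e w (insert q h) then some 0 else none

/-- canonical availability of the node `(e,w)` at time `a` -/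
noncomputable def XX (G : SimpleGraph V) (e : Finset V) (w : V) (a : ℕ) (ω : Om V M) : ℝ :=
  ∏ x ∈ e, ∏ q' ∈ (cn G {x, w}).filter (fun q' => insert q' {x, w} ≠ insert w e),
    (1 - act ω (insert q' {x, w}) a * bit ω {x, w} q')

/-! ## patterns -/

/-- a pattern: root edges `H` with times `c` and valuations `A`, vertex set `W` -/
structure Pat (V : Type) (M : ℕ) where
  W : Finset V
  H : Finset (Finset V)
  c : Finset V → ℕ
  A : Finset V → V → Om V M → ℝ

/-- product of the survival constraints of the roots outside `Dr` -/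
noncomputable def Pat.Fx (G : SimpleGraph V) (P : Pat V M) (Dr : Finset (Finset V)) (ω : Om V M) : ℝ :=
  ∏ h ∈ P.H \ Dr, alive G h (P.c h) (P.A h) P.W ω

/-- well-formedness; valuations are required for the roots outside `Dr`, relative to `P.W ∪ X` -/
structure Pat.WFx (G : SimpleGraph V) (σ : Thr V) (ctop : ℕ) (P : Pat V M)
    (Dr : Finset (Finset V)) (X : Finset V) : Prop where
  edge : ∀ h ∈ P.H, IsEdge G h
  sub : ∀ h ∈ P.H, h ⊆ P.W
  time : ∀ h ∈ P.H, P.c h ≤ ctop
  val : ∀ h ∈ P.H, h ∉ Dr → Val G σ (P.W ∪ X) h (P.A h)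

/-- the base pattern data and the constant of the extension bound -/
structure Base (V : Type) where
  W0 : Finset V
  H0 : Finset (Finset V)
  c0 : Finset V → ℕ
  K : ℝ
  ctop : ℕ

/-- `P` extends the base -/
structure Base.Le (B : Base V) (P : Pat V M) : Prop where
  W : B.W0 ⊆ P.W
  H : B.H0 ⊆ P.H
  c : ∀ h ∈ B.H0, P.c h = B.c0 h

/-- the weight of an extension -/
noncomputable def Base.wgt (B : Base V) (pt : ℕ → ℝ) (P : Pat V M) : ℝ :=
  B.K * ∏ h ∈ P.H \ B.H0, pt (P.c h)

/-- the extension hypothesis: every proper extension of the base by at most `cap` vertices and edges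
obeys the bound -/
def Ext (G : SimpleGraph V) (M : ℕ) (B : Base V) (pt : ℕ → ℝ) (cap : ℕ) : Prop :=
  ∀ (σ : Thr V) (P : Pat V M), P.WFx G σ B.ctop ∅ ∅ → B.Le P → P.W ≠ B.W0 →
    (P.W \ B.W0).card ≤ cap → (P.H \ B.H0).card ≤ cap →
    ∀ I : Om V M → ℝ, (∀ ω, 0 ≤ I ω) → DepTri I {T | T ⊆ P.W} →
      Ex G M (fun ω => I ω * P.Fx G ∅ ω) ≤ Ex G M I * B.wgt pt P

/-- one expansion step at the marked edge `h` through the apex `q` at time `s`: the free edges
`{x,q}` become roots (unless present) with valuations `fam`; if `own` the marked root gets `C` -/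
noncomputable def Pat.step (P : Pat V M) (h : Finset V) (own : Prop) (C : V → Om V M → ℝ)
    (q : V) (s : ℕ) (fam : Finset V → V → Om V M → ℝ) : Pat V M where
  W := insert q P.W
  H := P.H ∪ h.image fun x => {x, q}
  c := fun f => if f ∈ P.H then P.c f else s
  A := fun f => if f ∈ P.H then (if own ∧ f = h then C else P.A f) else fam f

/-- close the marked root: it gets the valuation `C` (if `own`), and `X` joins the vertex set -/
noncomputable def Pat.close (P : Pat V M) (h : Finset V) (own : Prop) (C : V → Om V M → ℝ)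
    (X : Finset V) : Pat V M where
  W := P.W ∪ X
  H := P.H
  c := P.c
  A := fun f => if own ∧ f = h then C else P.A f

/-- the set of roots left out of the product: the marked edge if it is owned -/
noncomputable def drp (own : Prop) (h : Finset V) : Finset (Finset V) := if own then {h} else ∅

/-- a fixed strict total order used for telescoping products -/
def sel {ι : Type} (i j : ι) : Prop := WellOrderingRel j i

/-- the family seen by the siblings of `q` when telescoping from `A` to `B` -/
noncomputable def mixA (A B : V → Om V M → ℝ) (q : V) : V → Om V M → ℝ :=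
  fun q' => if sel q q' then A q' else B q'

/-- raise the threshold of `(e,w)` to `a+1` -/
noncomputable def raise (σ : Thr V) (e : Finset V) (w : V) (a : ℕ) : Thr V :=
  fun h q => if h = e ∧ q = w then a + 1 else σ h q

/-- override values lie in `[0,1]` -/
def OvBd (ov : Ov V) : Prop := ∀ h q α, ov h q = some α → 0 ≤ α ∧ α ≤ 1

/-- product over the base roots of canonical valuations -/
noncomputable def Fcan (G : SimpleGraph V) (σ : Thr V) (ov : Ov V) (B : Base V) (ω : Om V M) : ℝ :=
  ∏ h ∈ B.H0, alive G h (B.c0 h) (canF G σ (fun _ => ov) B.W0 h) ∅ ω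

/-- ideal value of the base, without the triangles inside `W0` -/
noncomputable def Vdrop (G : SimpleGraph V) (M : ℕ) (B : Base V) : ℝ :=
  ∏ h ∈ B.H0, ∏ q ∈ cn G h \ B.W0, (1 - abar G M (B.c0 h) h q)

/-! ## numerical data -/

/-- rate of normal steps -/
noncomputable def rho (D : ℝ) (M : ℕ) (pt : ℕ → ℝ) (t : ℕ) : ℝ := D * pt t ^ 2 / M

/-- amplification factor -/
noncomputable def Phi (D : ℝ) (M : ℕ) (pt : ℕ → ℝ) (η : ℝ) (t : ℕ) : ℝ :=
  ∏ s ∈ range t, (1 + (1 + η) * rho D M pt s)

/-- numerical hypotheses of the expansion theorem; `D` bounds codegrees, `qq * D` triple codegrees,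
`Z` bounds every "sub-polynomial" quantity, `L` is the depth cap -/
structure NumOK (G : SimpleGraph V) (M : ℕ) (pt : ℕ → ℝ) (D qq η Z : ℝ) (L : ℕ) : Prop where
  Mpos : 0 < M
  eta_pos : 0 < η
  eta_le : η ≤ 1
  eta_Z : 1 ≤ η * Z
  qq_nn : 0 ≤ qq
  qq_le : qq ≤ 1
  big : 10 ^ 6 * Z ^ 12 ≤ D
  two : ∀ h, IsEdge G h → ((cn G h).card : ℝ) ≤ D
  three : ∀ h : Finset V, h.card = 3 → ((cn G h).card : ℝ) ≤ qq * D
  pt_nn : ∀ t, 0 ≤ pt t
  pt_le : ∀ t, pt t ≤ Z
  mu_le : ∀ t < M, ∀ h q, IsEdge G h → q ∈ cn G h → mu G M t h q ≤ pt t ^ 2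
  Phi_pt : ∀ t ≤ M, 1 ≤ Phi D M pt η t * pt t
  Phi_sq : Phi D M pt η M ^ 2 ≤ Z * D
  Phi_time : ∀ t ≤ M, D * t / M ≤ Phi D M pt η t ^ 2
  lam : ∑ t ∈ range M, pt t ^ 2 / M ≤ Z / D
  pi : ∑ t ∈ range M, pt t / M ≤ Z / Real.sqrt D
  Lpos : 0 < L
  L_Z : 8 * (L : ℝ) + 10 ≤ Z
  fuel : (Fintype.card V : ℝ) ^ 3 * D ^ 3 ≤ qq * 2 ^ L

/-- hypotheses on the base -/
structure BaseOK (G : SimpleGraph V) (M : ℕ) (B : Base V) (Z : ℝ) (L : ℕ) : Prop where
  edge : ∀ h ∈ B.H0, IsEdge G h
  sub : ∀ h ∈ B.H0, h ⊆ B.W0
  time : ∀ h ∈ B.H0, B.c0 h ≤ B.ctop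
  top : B.ctop ≤ M
  K_nn : 0 ≤ B.K
  W_Z : (B.W0.card : ℝ) + 8 * L + 10 ≤ Z
  H_Z : (B.H0.card : ℝ) + 8 * L + 10 ≤ Z

/-- fuel term of the one-particle value functions -/
noncomputable def g1 (n : ℕ) (Φ : ℕ → ℝ) (d t : ℕ) : ℝ := 8 * (n : ℝ) ^ 3 * Φ t ^ 4 / 2 ^ d

/-- the graph of an edge set -/
def grE {n : ℕ} (E : Finset (Sym2 (Fin n))) : SimpleGraph (Fin n) where
  Adj x y := x ≠ y ∧ s(x, y) ∈ E
  symm := ⟨fun x y h => ⟨h.1.symm, by rw [Sym2.eq_swap]; exact h.2⟩⟩
  loopless := ⟨fun x h => h.1 rfl⟩

end Crest.Agent.R030
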