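import Crest.Agent.R030.Tele

/-! # Row 30: first expansion: from arbitrary values at bad nodes to the canonical valuation

Value function: `U1E d h W Sk u = #((cn h ∩ W) \ Sk) * u/M + qq Z² Φ(u)²/D + g1 d u`.
Induction on the fuel `d` (`exp1_aux`).
* `d = 0`: `|a-b| ≤ a+b`, `Ext.close` twice, `2 ≤ g1 0 u` (note `card V ≥ 1`).
* `d+1`: `abs_alive_sub_le`; an apex `q ∈ P.W` has canonical value 0, `|A q - 0| ≤ 1`, and
  `Ext.close` with `I * act (insert q h) u` (`Ex_mul_act`) gives `u/M`; for `q ∉ P.W` write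
  `act = ∑ s<u, ind s`; on `lab = s` both values are the same bit or (`Val.elim`, `can_of_none`) products
  over `x ∈ h` of `alive {x,q} s · ∅`, telescope with `prod_sub_prod_sel`; the opposite vertex is
  inactive (`lab = s`, not `< s`; `alive_skip_congr`), so the new skip set is `h.erase x`; use `Pat.step`,
  `Ex_mul_ind`, the induction hypothesis; weight `pt s ^ 2 / M`.
* numerics: `∑_{q ∈ cn h \ W} ∑_{x∈h} #((cn {x,q} ∩ insert q W) \ h.erase x) ≤ 2 #W qq D` (`gain1`
  with `R = W \ h.erase x`, `q ∉ cn {x,q}`), `#W ≤ Z`, `s/M ≤ Φ(s)²/D`, `1 ≤ η Z`, `Phi_pow_incr` (k=2,4),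
  `sum_le_of_incr`.
-/

set_option autoImplicit false
set_option linter.unusedSectionVars false

namespace Crest.Agent.R030
open Finset
open scoped Classical

variable {V : Type} [Fintype V] [DecidableEq V] {G : SimpleGraph V} {M : ℕ}
variable {pt : ℕ → ℝ} {D qq η Z : ℝ} {L : ℕ} {B : Base V}

/-- value function of the one-particle expansions -/
noncomputable def U1E (G : SimpleGraph V) (M : ℕ) (pt : ℕ → ℝ) (D qq η Z : ℝ) (d : ℕ)
    (h W Sk : Finset V) (u : ℕ) : ℝ :=
  (((cn G h ∩ W) \ Sk).card : ℝ) * (u / M) + qq * Z ^ 2 * Phi D M pt η u ^ 2 / D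
    + g1 (Fintype.card V) (Phi D M pt η) d u

/-- the numerical step shared by the first two expansions -/
theorem U1E_step (hN : NumOK G M pt D qq η Z L) {h W : Finset V} (he : IsEdge G h)
    (hW : (W.card : ℝ) ≤ Z) (d : ℕ) {u : ℕ} (hu : u ≤ M) :
    ∑ q ∈ cn G h \ W, ∑ s ∈ range u, pt s ^ 2 / M *
        ∑ x ∈ h, U1E G M pt D qq η Z d {x, q} (insert q W) (h.erase x) s
      ≤ qq * Z ^ 2 * Phi D M pt η u ^ 2 / D + g1 (Fintype.card V) (Phi D M pt η) (d + 1) u := by
  have hD := hN.D_ge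
  have hZ := hN.Z_ge
  have hM := hN.Mpos'
  have hqq := hN.qq_nn
  have hη := hN.eta_pos
  have hD0 : 0 < D := by linarith
  -- the number of old apexes
  have hcnt : ∑ q ∈ cn G h \ W, ∑ x ∈ h, (((cn G {x, q} ∩ insert q W) \ h.erase x).card : ℝ)
      ≤ 2 * (Z * (qq * D)) := by
    rw [sum_comm]
    calc ∑ x ∈ h, ∑ q ∈ cn G h \ W, (((cn G {x, q} ∩ insert q W) \ h.erase x).card : ℝ)
        ≤ ∑ _x ∈ h, Z * (qq * D) := by
          refine sum_le_sum fun x hx => ?_
          have h1 := gain1 hN.three he hx (W \ h.erase x) disjoint_sdiff (by positivity)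
          have h2 : ((W \ h.erase x).card : ℝ) ≤ Z :=
            le_trans (Nat.cast_le.2 (card_le_card sdiff_subset)) hW
          calc ∑ q ∈ cn G h \ W, (((cn G {x, q} ∩ insert q W) \ h.erase x).card : ℝ)
              ≤ ∑ q ∈ cn G h \ W, ((cn G {x, q} ∩ (W \ h.erase x)).card : ℝ) := by
                refine sum_le_sum fun q _ => Nat.cast_le.2 (card_le_card fun z hz => ?_)
                rw [mem_sdiff, mem_inter, mem_insert] at hz
                refine mem_inter.2 ⟨hz.1.1, mem_sdiff.2 ⟨?_, hz.2⟩⟩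
                rcases hz.1.2 with rfl | h3
                · exact absurd (by simp) (not_mem_of_mem_cn hz.1.1)
                · exact h3
            _ ≤ ∑ q ∈ cn G h, ((cn G {x, q} ∩ (W \ h.erase x)).card : ℝ) :=
                sum_le_sum_of_subset_of_nonneg sdiff_subset fun _ _ _ => Nat.cast_nonneg _
            _ ≤ ((W \ h.erase x).card : ℝ) * (qq * D) := h1
            _ ≤ Z * (qq * D) := by gcongr
      _ = 2 * (Z * (qq * D)) := by rw [sum_const, he.card]; simp
  have hcard : ((cn G h \ W).card : ℝ) ≤ D :=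
    le_trans (Nat.cast_le.2 (card_le_card sdiff_subset)) (hN.two h he)
  rw [sum_comm]
  refine sum_le_of_incr _ (fun t => qq * Z ^ 2 * Phi D M pt η t ^ 2 / D
    + g1 (Fintype.card V) (Phi D M pt η) (d + 1) t) u ?_ fun s hs => ?_
  · have := hN.Phi_pos 0
    unfold g1
    positivity
  have hsM : s ≤ M := hs.le.trans hu
  have hΦ := hN.Phi_pos s
  have hρ := hN.rho_nn s
  have h2 := hN.Phi_pow_incr 2 s
  have h4 := hN.Phi_pow_incr 4 s
  have ht : (s : ℝ) / M ≤ Phi D M pt η s ^ 2 / D := by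
    rw [le_div_iff₀ hD0]
    have := hN.Phi_time s hsM
    calc (s : ℝ) / M * D = D * s / M := by ring
      _ ≤ _ := this
  set Φ := Phi D M pt η s with hΦdef
  set Φ' := Phi D M pt η (s + 1) with hΦ'def
  set ρ := rho D M pt s with hρdef
  set n3 : ℝ := 8 * (Fintype.card V : ℝ) ^ 3 / 2 ^ (d + 1) with hn3
  have hn3' : 0 ≤ n3 := by positivity
  have hg : g1 (Fintype.card V) (Phi D M pt η) d s = 2 * n3 * Φ ^ 4 := by
    unfold g1; rw [hn3, ← hΦdef]; field_simp; ring
  have hg' : ∀ t, g1 (Fintype.card V) (Phi D M pt η) (d + 1) t = n3 * Phi D M pt η t ^ 4 := by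
    intro t; unfold g1; rw [hn3]; ring
  have hpt : pt s ^ 2 / M = ρ / D := by
    rw [hρdef]; unfold rho; field_simp
  set r : ℝ := qq * Z ^ 2 * Φ ^ 2 / D + 2 * n3 * Φ ^ 4 with hr
  have hr0 : 0 ≤ r := by positivity
  have hsum : ∑ q ∈ cn G h \ W, ∑ x ∈ h, U1E G M pt D qq η Z d {x, q} (insert q W) (h.erase x) s
      ≤ 2 * (Z * (qq * D)) * (Φ ^ 2 / D) + D * (2 * r) := by
    have e : ∀ q, ∑ x ∈ h, U1E G M pt D qq η Z d {x, q} (insert q W) (h.erase x) s
        = (∑ x ∈ h, (((cn G {x, q} ∩ insert q W) \ h.erase x).card : ℝ)) * (s / M) + 2 * r := by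
      intro q
      unfold U1E
      rw [hg, ← hΦdef]
      simp only [add_assoc, sum_add_distrib, ← sum_mul, sum_const, he.card, hr]
      simp only [nsmul_eq_mul, Nat.cast_ofNat]
      ring
    simp only [e]
    rw [sum_add_distrib, ← sum_mul, sum_const, nsmul_eq_mul]
    have : (0 : ℝ) ≤ 2 * (Z * (qq * D)) := by positivity
    gcongr
  rw [← mul_sum, hpt, hg', hg', ← hΦdef, ← hΦ'def]
  have hA : 0 ≤ qq * Z ^ 2 / D := by positivity
  have h5 := mul_le_mul_of_nonneg_left h2 hA
  have h6 := mul_le_mul_of_nonneg_left h4 hn3'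
  have h7 : ρ / D * (2 * (Z * (qq * D)) * (Φ ^ 2 / D) + D * (2 * r))
      = 2 * Z * (qq * ρ * Φ ^ 2 / D) + 2 * Z ^ 2 * (qq * ρ * Φ ^ 2 / D) + 4 * (n3 * ρ * Φ ^ 4) := by
    rw [hr]; field_simp; ring
  have h8 : 0 ≤ qq * ρ * Φ ^ 2 / D := by positivity
  have h9 : 0 ≤ n3 * ρ * Φ ^ 4 := by positivity
  have h10 : 2 * Z * (qq * ρ * Φ ^ 2 / D) ≤ 2 * η * Z ^ 2 * (qq * ρ * Φ ^ 2 / D) := by
    refine mul_le_mul_of_nonneg_right ?_ h8
    have := hN.eta_Z
    nlinarith
  have h11 : qq * Z ^ 2 / D * (((2 : ℕ) : ℝ) * (1 + η) * ρ * Φ ^ 2)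
      = 2 * η * Z ^ 2 * (qq * ρ * Φ ^ 2 / D) + 2 * Z ^ 2 * (qq * ρ * Φ ^ 2 / D) := by
    push_cast; ring
  have h12 : n3 * (((4 : ℕ) : ℝ) * (1 + η) * ρ * Φ ^ 4)
      = 4 * (n3 * ρ * Φ ^ 4) + 4 * η * (n3 * ρ * Φ ^ 4) := by
    push_cast; ring
  have h13 : 0 ≤ 4 * η * (n3 * ρ * Φ ^ 4) := by positivity
  calc ρ / D * ∑ q ∈ cn G h \ W, ∑ x ∈ h,
        U1E G M pt D qq η Z d {x, q} (insert q W) (h.erase x) s
      ≤ ρ / D * (2 * (Z * (qq * D)) * (Φ ^ 2 / D) + D * (2 * r)) :=
        mul_le_mul_of_nonneg_left hsum (by positivity)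
    _ ≤ qq * Z ^ 2 / D * (Φ' ^ 2 - Φ ^ 2) + n3 * (Φ' ^ 4 - Φ ^ 4) := by
        rw [h7]; linarith
    _ = _ := by ring

theorem exp1_drp_true (h : Finset V) : drp True h = {h} := by simp [drp]

/-- on the event `lab = s` the opposite vertex is inactive -/
theorem exp1_skip {h : Finset V} (he : IsEdge G h) {q x : V} (hx : x ∈ h) {s : ℕ} {ω : Om V M}
    (hl : lab ω (insert q h) = s) (F : V → Om V M → ℝ) :
    alive G {x, q} s F ∅ ω = alive G {x, q} s F (h.erase x) ω := by
  refine alive_skip_congr (empty_subset _) fun q' _ hq' _ => ?_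
  obtain ⟨y, -, hh, her⟩ := he.exists_other hx
  rw [her, mem_singleton] at hq'
  subst hq'
  have : insert q' ({x, q} : Finset V) = insert q h := by
    rw [hh]; ext z; simp only [mem_insert, mem_singleton]; tauto
  rw [this]
  simp [act, hl]

/-- the family seen by the siblings of the free edge `{x,q}` -/
noncomputable def exp1Fam (h : Finset V) (q x : V) (F F' : Finset V → V → Om V M → ℝ) :
    Finset V → V → Om V M → ℝ :=
  fun f => if ∃ y ∈ h, f = {y, q} ∧ sel x y then F f else F' f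

theorem exp1Fam_pair {h : Finset V} {q x y : V} (hq : q ∉ h) (hy : y ∈ h)
    (F F' : Finset V → V → Om V M → ℝ) :
    exp1Fam h q x F F' {y, q} = if sel x y then F {y, q} else F' {y, q} := by
  unfold exp1Fam
  by_cases hs : sel x y
  · rw [if_pos hs, if_pos ⟨y, hy, rfl, hs⟩]
  · rw [if_neg hs, if_neg]
    rintro ⟨z, -, hz, hs'⟩
    exact hs (pair_inj_of_not_mem hq hy hz ▸ hs')

/-- telescoping the two free edges -/
theorem exp1_tele {h : Finset V} {q : V} (hq : q ∉ h) (s : ℕ) {F F' : Finset V → V → Om V M → ℝ}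
    (hF : ∀ y ∈ h, Bd (F {y, q})) (hF' : ∀ y ∈ h, Bd (F' {y, q})) (ω : Om V M) :
    |∏ x ∈ h, alive G {x, q} s (F {x, q}) (h.erase x) ω
        - ∏ x ∈ h, alive G {x, q} s (F' {x, q}) (h.erase x) ω|
      ≤ ∑ x ∈ h, |alive G {x, q} s (F {x, q}) (h.erase x) ω
          - alive G {x, q} s (F' {x, q}) (h.erase x) ω|
        * ∏ y ∈ h.erase x, alive G {y, q} s (exp1Fam h q x F F' {y, q}) (h.erase y) ω := by
  rw [prod_sub_prod_sel]
  refine (abs_sum_le_sum_abs _ _).trans (le_of_eq (sum_congr rfl fun x _ => ?_))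
  have e : ∏ y ∈ h.erase x, (if sel x y then alive G {y, q} s (F {y, q}) (h.erase y) ω
        else alive G {y, q} s (F' {y, q}) (h.erase y) ω)
      = ∏ y ∈ h.erase x, alive G {y, q} s (exp1Fam h q x F F' {y, q}) (h.erase y) ω := by
    refine prod_congr rfl fun y hy => ?_
    rw [exp1Fam_pair hq (mem_of_mem_erase hy)]
    split_ifs <;> rfl
  rw [abs_mul, e, abs_of_nonneg (a := ∏ y ∈ h.erase x, _)]
  refine prod_nonneg fun y hy => alive_nn ?_ _ _ _ _
  rw [exp1Fam_pair hq (mem_of_mem_erase hy)]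
  split_ifs
  · exact hF y (mem_of_mem_erase hy)
  · exact hF' y (mem_of_mem_erase hy)

theorem exp1_aux (hN : NumOK G M pt D qq η Z L) (hB : BaseOK G M B Z L)
    (hE : Ext G M B pt (8 * L + 10)) (σ : Thr V) (d : ℕ) :
    ∀ (P : Pat V M) (h Sk : Finset V) (u : ℕ) (A : V → Om V M → ℝ) (I : Om V M → ℝ)
      (𝒮 : Set (Finset V)),
      P.WFx G σ B.ctop {h} ∅ → B.Le P → h ∈ P.H → P.c h = u → Val G σ P.W h A → Sk ⊆ P.W →
      (P.W ≠ B.W0 ∨ (0 < d ∧ cn G h ∩ P.W ⊆ Sk)) →
      (P.W \ B.W0).card + d ≤ L → (P.H \ B.H0).card + 2 * d ≤ 2 * L →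
      (∀ ω, 0 ≤ I ω) → DepTri I 𝒮 → (∀ T ∈ 𝒮, T ⊆ P.W) →
      (∀ q ∈ cn G h, q ∉ Sk → insert q h ∉ 𝒮) →
      Ex G M (fun ω => I ω * (|alive G h u A Sk ω
          - alive G h u (canF G σ (fun _ => noOv) P.W h) Sk ω| * P.Fx G {h} ω))
        ≤ Ex G M I * B.wgt pt P * U1E G M pt D qq η Z d h P.W Sk u := by
  have hM := hN.Mpos
  have hD := hN.D_ge
  have hqq := hN.qq_nn
  induction d with
  | zero =>
    intro P h Sk u A I 𝒮 hP hle hh hu hA hSk hne hcW hcH hI hDI h𝒮 _
    have he := hP.edge h hh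
    have hne' : P.W ∪ ∅ ≠ B.W0 := by
      rw [union_empty]
      rcases hne with h1 | h1
      · exact h1
      · exact absurd h1.1 (lt_irrefl _)
    have hP' : P.WFx G σ B.ctop (drp True h) ∅ := by rwa [exp1_drp_true]
    have hcl : ∀ C : V → Om V M → ℝ, Val G σ P.W h C →
        Ex G M (fun ω => I ω * (alive G h u C Sk ω * P.Fx G {h} ω)) ≤ Ex G M I * B.wgt pt P := by
      intro C hC
      have := Ext.close (own := True) hM hE hP' hle (fun _ => ⟨hh, hu⟩) (C := C) (Y := ∅) (S := Sk)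
        (Subset.refl _) (by rwa [union_empty]) (by rwa [union_empty]) hne'
        (by rw [union_empty]; omega) (by omega) hI
        (hDI.mono fun T hT => by rw [union_empty]; exact h𝒮 T hT)
      rwa [exp1_drp_true] at this
    have hcan := val_canF_noOv (M := M) (σ := σ) (Subset.refl P.W) he
    have h1 := hcl A hA
    have h2 := hcl _ hcan
    have h3 : Ex G M (fun ω => I ω * (|alive G h u A Sk ω
          - alive G h u (canF G σ (fun _ => noOv) P.W h) Sk ω| * P.Fx G {h} ω))
        ≤ Ex G M (fun ω => I ω * (alive G h u A Sk ω * P.Fx G {h} ω)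
          + I ω * (alive G h u (canF G σ (fun _ => noOv) P.W h) Sk ω * P.Fx G {h} ω)) := by
      refine Ex_mono hM fun ω => ?_
      rw [← mul_add, ← add_mul]
      refine mul_le_mul_of_nonneg_left (mul_le_mul_of_nonneg_right ?_ (hP.Fx_nn ω)) (hI ω)
      have a1 := alive_nn (G := G) hA.bd h u Sk ω
      have a2 := alive_nn (G := G) hcan.bd h u Sk ω
      rw [abs_le]; constructor <;> linarith
    rw [Ex_add] at h3
    have hw : 0 ≤ Ex G M I * B.wgt pt P :=
      mul_nonneg (Ex_nn hM hI) (Base.wgt_nn hB.K_nn hN.pt_nn P)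
    have hU : 2 ≤ U1E G M pt D qq η Z 0 h P.W Sk u := by
      unfold U1E g1
      obtain ⟨x, -⟩ := he
      have hn : (1 : ℝ) ≤ Fintype.card V := by
        exact_mod_cast Fintype.card_pos_iff.2 ⟨x⟩
      have hΦ := hN.one_le_Phi u
      have b1 : (1 : ℝ) ≤ (Fintype.card V : ℝ) ^ 3 := one_le_pow₀ hn
      have b2 : (1 : ℝ) ≤ Phi D M pt η u ^ 4 := one_le_pow₀ hΦ
      have b3 : (0 : ℝ) ≤ (((cn G h ∩ P.W) \ Sk).card : ℝ) * (u / M) := by positivity
      have b4 : (0 : ℝ) ≤ qq * Z ^ 2 * Phi D M pt η u ^ 2 / D := by positivity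
      have b5 : (1 : ℝ) ≤ (Fintype.card V : ℝ) ^ 3 * Phi D M pt η u ^ 4 := one_le_mul_of_one_le_of_one_le b1 b2
      rw [pow_zero, div_one, mul_assoc 8]
      linarith
    nlinarith [mul_le_mul_of_nonneg_left hU hw]
  | succ d ih =>
    intro P h Sk u A I 𝒮 hP hle hh hu hA hSk hne hcW hcH hI hDI h𝒮 hfree
    have he := hP.edge h hh
    have hhW := hP.sub h hh
    have hutop : u ≤ B.ctop := hu ▸ hP.time h hh
    have huM : u ≤ M := hutop.trans hB.top
    have hP' : P.WFx G σ B.ctop (drp True h) ∅ := by rwa [exp1_drp_true]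
    have hcan := val_canF_noOv (M := M) (σ := σ) (Subset.refl P.W) he
    set Cn := canF (M := M) G σ (fun _ => noOv) P.W h with hCn
    have hw : 0 ≤ Ex G M I * B.wgt pt P :=
      mul_nonneg (Ex_nn hM hI) (Base.wgt_nn hB.K_nn hN.pt_nn P)
    -- the summand of an apex
    set T : V → Om V M → ℝ := fun q ω => I ω * (act ω (insert q h) u * |A q ω - Cn q ω|
      * alive G h u (mixA A Cn q) (insert q Sk) ω * P.Fx G {h} ω) with hT
    have h1 : Ex G M (fun ω => I ω * (|alive G h u A Sk ω - alive G h u Cn Sk ω| * P.Fx G {h} ω))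
        ≤ ∑ q ∈ cn G h \ Sk, Ex G M (T q) := by
      rw [← Ex_sum]
      refine Ex_mono hM fun ω => ?_
      simp only [hT]
      rw [← mul_sum, ← sum_mul]
      exact mul_le_mul_of_nonneg_left (mul_le_mul_of_nonneg_right
        (abs_alive_sub_le hA.bd hcan.bd h u Sk ω) (hP.Fx_nn ω)) (hI ω)
    -- old apexes
    have hold : ∀ q ∈ (cn G h ∩ P.W) \ Sk, Ex G M (T q) ≤ Ex G M I * B.wgt pt P * (u / M) := by
      intro q hq
      rw [mem_sdiff, mem_inter] at hq
      obtain ⟨⟨hq, hqW⟩, hqS⟩ := hq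
      have hne' : P.W ∪ ∅ ≠ B.W0 := by
        rw [union_empty]
        rcases hne with h1 | h1
        · exact h1
        · exact absurd (h1.2 (mem_inter.2 ⟨hq, hqW⟩)) hqS
      have hmix := hA.mixA hcan q
      have h2 := Ext.close (own := True) hM hE hP' hle (fun _ => ⟨hh, hu⟩) (C := mixA A Cn q)
        (Y := ∅) (S := insert q Sk) (Subset.refl _) (by rwa [union_empty])
        (by rw [union_empty]; exact insert_subset hqW hSk) hne'
        (by rw [union_empty]; omega) (by omega) (I := fun ω => I ω * act ω (insert q h) u)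
        (fun ω => mul_nonneg (hI ω) (act_nn _ _ _))
        ((hDI.mul (depTri_act _ _)).mono fun T' hT' => by
          rw [union_empty]
          rcases hT' with h3 | h3
          · exact h𝒮 T' h3
          · rw [Set.mem_singleton_iff.1 h3]
            exact insert_subset hqW hhW)
      rw [exp1_drp_true, Ex_mul_act hM hDI (hfree q hq hqS) huM] at h2
      refine le_trans (Ex_mono hM fun ω => ?_) (h2.trans (le_of_eq (by ring)))
      simp only [hT]
      have a1 : |A q ω - Cn q ω| ≤ 1 := by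
        have b1 := hA.bd q ω
        have b2 := hcan.bd q ω
        rw [abs_le]; constructor <;> linarith [b1.1, b1.2, b2.1, b2.2]
      have a2 : 0 ≤ I ω * act ω (insert q h) u
          * (alive G h u (mixA A Cn q) (insert q Sk) ω * P.Fx G {h} ω) :=
        mul_nonneg (mul_nonneg (hI ω) (act_nn _ _ _))
          (mul_nonneg (alive_nn hmix.bd _ _ _ _) (hP.Fx_nn ω))
      calc _ = I ω * act ω (insert q h) u
            * (alive G h u (mixA A Cn q) (insert q Sk) ω * P.Fx G {h} ω) * |A q ω - Cn q ω| := by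
            ring
        _ ≤ _ := mul_le_of_le_one_right a2 a1
    -- new apexes
    have hnew : ∀ q ∈ cn G h \ P.W, Ex G M (T q) ≤ Ex G M I * B.wgt pt P *
        ∑ s ∈ range u, pt s ^ 2 / M *
          ∑ x ∈ h, U1E G M pt D qq η Z d {x, q} (insert q P.W) (h.erase x) s := by
      intro q hq
      rw [mem_sdiff] at hq
      obtain ⟨hq, hqW⟩ := hq
      have hqh : q ∉ h := not_mem_of_mem_cn hq
      have hqS : q ∉ Sk := fun h3 => hqW (hSk h3)
      obtain ⟨fam, hfam, hAq⟩ := hA.elim hq hqW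
      set F' : Finset V → V → Om V M → ℝ := fun f => canF G σ (fun _ => noOv) (insert q P.W) f
        with hF'
      have hfam' : ∀ y ∈ h, Val G σ (insert q P.W) {y, q} (F' {y, q}) := fun y hy =>
        val_canF_noOv (Subset.refl _) (isEdge_free hq hy)
      have hfamx : ∀ x, ∀ y ∈ h, Val G σ (insert q P.W) {y, q} (exp1Fam h q x fam F' {y, q}) := by
        intro x y hy
        rw [exp1Fam_pair hqh hy]
        split_ifs
        · exact hfam y hy
        · exact hfam' y hy
      have hmix := hA.mixA hcan q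
      have hnot : ∀ x, ({x, q} : Finset V) ∉ P.H := fun x hx =>
        hqW (hP.sub _ hx (by simp))
      set Q : ℕ → V → Pat V M := fun s x => P.step h True (mixA A Cn q) q s (exp1Fam h q x fam F')
        with hQ
      set R : ℕ → V → Om V M → ℝ := fun s x ω => (I ω * ind ω (insert q h) s) *
        (|alive G {x, q} s (fam {x, q}) (h.erase x) ω
          - alive G {x, q} s (F' {x, q}) (h.erase x) ω| * (Q s x).Fx G {{x, q}} ω) with hR
      have h2 : Ex G M (T q) ≤ ∑ s ∈ range u, ∑ x ∈ h, Ex G M (R s x) := by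
        simp only [← Ex_sum]
        refine Ex_mono hM fun ω => ?_
        simp only [hT]
        rw [act_eq_sum_ind, sum_mul, sum_mul, sum_mul, mul_sum]
        refine sum_le_sum fun s _ => ?_
        by_cases hl : lab ω (insert q h) = s
        swap
        · simp [hR, ind, hl]
        have a1 : |A q ω - Cn q ω| ≤ ∑ x ∈ h, |alive G {x, q} s (fam {x, q}) (h.erase x) ω
            - alive G {x, q} s (F' {x, q}) (h.erase x) ω|
            * ∏ y ∈ h.erase x, alive G {y, q} s (exp1Fam h q x fam F' {y, q}) (h.erase y) ω := by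
          have b1 : Cn q ω = if lab ω (insert q h) < σ h q then bit ω h q
              else ∏ x ∈ h, alive G {x, q} (lab ω (insert q h)) (F' {x, q}) ∅ ω :=
            can_of_none (ovf := fun _ => noOv) hqW rfl
          rw [hAq ω, b1]
          split_ifs with hlt
          · rw [sub_self, abs_zero]
            exact sum_nonneg fun x _ => mul_nonneg (abs_nonneg _)
              (prod_nonneg fun y hy => alive_nn (hfamx x y (mem_of_mem_erase hy)).bd _ _ _ _)
          · rw [hl, prod_congr rfl fun x hx => exp1_skip he hx hl (fam {x, q}),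
              prod_congr rfl fun x hx => exp1_skip he hx hl (F' {x, q})]
            exact exp1_tele hqh s (fun y hy => (hfam y hy).bd) (fun y hy => (hfam' y hy).bd) ω
        have a2 : 0 ≤ I ω * ind ω (insert q h) s := mul_nonneg (hI ω) (ind_nn _ _ _)
        have a3 : 0 ≤ alive G h u (mixA A Cn q) (insert q Sk) ω * P.Fx G {h} ω :=
          mul_nonneg (alive_nn hmix.bd _ _ _ _) (hP.Fx_nn ω)
        calc I ω * (ind ω (insert q h) s * |A q ω - Cn q ω|
              * alive G h u (mixA A Cn q) (insert q Sk) ω * P.Fx G {h} ω)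
            = (I ω * ind ω (insert q h) s) * (|A q ω - Cn q ω|
              * (alive G h u (mixA A Cn q) (insert q Sk) ω * P.Fx G {h} ω)) := by ring
          _ ≤ (I ω * ind ω (insert q h) s) * ((∑ x ∈ h, |alive G {x, q} s (fam {x, q}) (h.erase x) ω
              - alive G {x, q} s (F' {x, q}) (h.erase x) ω|
              * ∏ y ∈ h.erase x, alive G {y, q} s (exp1Fam h q x fam F' {y, q}) (h.erase y) ω)
              * (alive G h u (mixA A Cn q) (insert q Sk) ω * P.Fx G {h} ω)) :=
              mul_le_mul_of_nonneg_left (mul_le_mul_of_nonneg_right a1 a3) a2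
          _ ≤ ∑ x ∈ h, R s x ω := by
              rw [sum_mul, mul_sum]
              refine sum_le_sum fun x hx => mul_le_mul_of_nonneg_left ?_ a2
              rw [mul_assoc]
              refine mul_le_mul_of_nonneg_left ?_ (abs_nonneg _)
              have b2 := Pat.step_Fx (own := True) (s := s) hP' (fun _ => ⟨hh, hu⟩) hq hmix.bd
                (fam := exp1Fam h q x fam F') (fun y hy => (hfamx x y hy).bd)
                (S := insert q Sk) (insert_subset_insert _ hSk) (S' := fun y => h.erase y)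
                (fun y _ => (erase_subset _ _).trans (hhW.trans (subset_insert _ _))) hx ω
              have b3 : drp (({x, q} : Finset V) ∉ P.H) {x, q} = {({x, q} : Finset V)} := by
                simp [drp, hnot x]
              rw [exp1_drp_true, b3] at b2
              refine le_trans (le_of_eq ?_) b2
              ring
      refine h2.trans ?_
      rw [mul_sum]
      refine sum_le_sum fun s hs => ?_
      rw [mem_range] at hs
      rw [← mul_assoc, mul_sum]
      refine sum_le_sum fun x hx => ?_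
      have hQW : (Q s x).W = insert q P.W := rfl
      have hwf : (Q s x).WFx G σ B.ctop {{x, q}} ∅ :=
        Pat.step_wf (own := True) hP' hhW hq (hs.le.trans hutop)
          (fun _ => hmix.mono (by rw [union_empty]; exact subset_insert _ _))
          (disjoint_singleton_left.2 (hnot x))
          (fun y hy _ => by rw [union_empty]; exact hfamx x y hy)
      have hnew := Pat.step_c_new (P := P) (own := True) (C := mixA A Cn q) (s := s)
        (fam := exp1Fam h q x fam F') hx (hnot x)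
      have hcW' := Pat.step_card_W (P := P) (h := h) (own := True) (C := mixA A Cn q) (q := q)
        (s := s) (fam := exp1Fam h q x fam F') B
      have hcH' := Pat.step_card_H (P := P) (own := True) (C := mixA A Cn q) (q := q)
        (s := s) (fam := exp1Fam h q x fam F') B he
      have h3 := ih (Q s x) {x, q} (h.erase x) s (fam {x, q})
        (fun ω => I ω * ind ω (insert q h) s) (𝒮 ∪ {insert q h}) hwf (Pat.step_le hle) hnew.1 hnew.2
        (hfam x hx) ((erase_subset _ _).trans (hhW.trans (subset_insert _ _)))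
        (Or.inl fun h4 => hqW (hle.W (h4 ▸ mem_insert_self q P.W)))
        (by simp only [hQ]; omega) (by simp only [hQ]; omega)
        (fun ω => mul_nonneg (hI ω) (ind_nn _ _ _)) (hDI.mul (depTri_ind _ _))
        (fun T' hT' => by
          rcases hT' with h4 | h4
          · exact (h𝒮 T' h4).trans (subset_insert _ _)
          · rw [Set.mem_singleton_iff.1 h4]
            exact insert_subset_insert _ hhW)
        (fun q' hq' hq'x h4 => by
          rcases h4 with h4 | h4
          · exact hqW (h𝒮 _ h4 (by simp))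
          · have h5 : q' ∈ insert q h := by
              rw [← Set.mem_singleton_iff.1 h4]; simp
            have h6 := not_mem_of_mem_cn hq'
            simp only [mem_insert, mem_singleton, not_or] at h6
            rcases mem_insert.1 h5 with h7 | h7
            · exact h6.2 h7
            · exact hq'x (mem_erase.2 ⟨h6.1, h7⟩))
      have hwg : B.wgt pt (Q s x) = B.wgt pt P * pt s ^ 2 := by
        simp only [hQ]
        rw [Pat.step_wgt hle pt hqh, filter_true_of_mem fun y _ => hnot y, he.card]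
      rw [Ex_mul_ind hDI (hfree q hq hqS) (hs.trans_le huM), hwg, hQW] at h3
      refine le_trans h3 (le_of_eq ?_)
      ring
    -- assembling
    have hsplit : cn G h \ Sk = ((cn G h ∩ P.W) \ Sk) ∪ (cn G h \ P.W) := by
      ext q
      simp only [mem_sdiff, mem_union, mem_inter]
      constructor
      · rintro ⟨h2, h3⟩
        by_cases h4 : q ∈ P.W
        · exact Or.inl ⟨⟨h2, h4⟩, h3⟩
        · exact Or.inr ⟨h2, h4⟩
      · rintro (⟨⟨h2, -⟩, h3⟩ | ⟨h2, h3⟩)
        · exact ⟨h2, h3⟩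
        · exact ⟨h2, fun h4 => h3 (hSk h4)⟩
    have hdisj : Disjoint ((cn G h ∩ P.W) \ Sk) (cn G h \ P.W) := by
      rw [disjoint_left]
      intro q h2 h3
      exact (mem_sdiff.1 h3).2 (mem_inter.1 (mem_sdiff.1 h2).1).2
    have hWZ : (P.W.card : ℝ) ≤ Z := by
      have b1 : P.W.card = (P.W \ B.W0).card + B.W0.card := (card_sdiff_add_card_eq_card hle.W).symm
      have b2 : ((P.W \ B.W0).card : ℝ) ≤ L := by exact_mod_cast (by omega)
      have b3 := hB.W_Z
      have b4 : (0 : ℝ) ≤ L := Nat.cast_nonneg _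
      rw [b1]; push_cast; linarith
    have hstep := U1E_step hN he hWZ d huM
    rw [hsplit, sum_union hdisj] at h1
    refine h1.trans ?_
    have c1 := sum_le_sum hold
    have c2 := sum_le_sum hnew
    rw [sum_const, nsmul_eq_mul] at c1
    rw [← mul_sum] at c2
    have c3 := mul_le_mul_of_nonneg_left hstep hw
    unfold U1E at c3 ⊢
    unfold U1E at c2
    nlinarith [c1, c2, c3]

/-- start: telescope over the roots (`prod_sub_prod_sel`), `d = L`, `Sk = W0`,
`𝒮 = {T | T ⊆ W0}`; `#H0 ≤ Z`, `Φ² ≤ Z D`, `g1_le` -/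
theorem exp1 (hN : NumOK G M pt D qq η Z L) (hB : BaseOK G M B Z L)
    (hE : Ext G M B pt (8 * L + 10)) (σ : Thr V) (P : Pat V M) (hW : P.W = B.W0) (hH : P.H = B.H0)
    (hc : ∀ h ∈ B.H0, P.c h = B.c0 h) (hP : P.WFx G σ B.ctop ∅ ∅) (I : Om V M → ℝ)
    (hI : ∀ ω, 0 ≤ I ω) (hD : DepTri I {T | T ⊆ B.W0}) :
    |Ex G M (fun ω => I ω * P.Fx G ∅ ω) - Ex G M (fun ω => I ω * Fcan G σ noOv B ω)|
      ≤ Ex G M I * B.K * (2 * qq * Z ^ 4) := by
  have hM := hN.Mpos
  have hD1 := hN.D_ge
  have hqq := hN.qq_nn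
  have hZ := hN.Z_ge
  set Cn : Finset V → V → Om V M → ℝ := fun h => canF G σ (fun _ => noOv) B.W0 h with hCn
  have hvA : ∀ h ∈ B.H0, Val G σ B.W0 h (P.A h) := fun h hh => by
    have := hP.val h (hH ▸ hh) (notMem_empty _)
    rwa [union_empty, hW] at this
  have hvC : ∀ h ∈ B.H0, Val G σ B.W0 h (Cn h) := fun h hh =>
    val_canF_noOv (Subset.refl _) (hB.edge h hh)
  set Q : Finset V → Pat V M := fun h =>
    ⟨B.W0, B.H0, B.c0, fun h' => if sel h h' then P.A h' else Cn h'⟩ with hQ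
  have hwf : ∀ h, (Q h).WFx G σ B.ctop {h} ∅ := fun h =>
    ⟨hB.edge, hB.sub, hB.time, fun h' hh' _ => by
      simp only [hQ, union_empty]
      split_ifs
      · exact hvA h' hh'
      · exact hvC h' hh'⟩
  have h1 : ∀ ω, P.Fx G ∅ ω - Fcan G σ noOv B ω = ∑ h ∈ B.H0,
      (alive G h (B.c0 h) (P.A h) B.W0 ω - alive G h (B.c0 h) (Cn h) B.W0 ω) * (Q h).Fx G {h} ω := by
    intro ω
    have a1 : P.Fx G ∅ ω = ∏ h ∈ B.H0, alive G h (B.c0 h) (P.A h) B.W0 ω := by
      unfold Pat.Fx
      rw [sdiff_empty, hH, hW]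
      exact prod_congr rfl fun h hh => by rw [hc h hh]
    have a2 : Fcan G σ noOv B ω = ∏ h ∈ B.H0, alive G h (B.c0 h) (Cn h) B.W0 ω := by
      unfold Fcan
      refine prod_congr rfl fun h _ => alive_skip_congr (empty_subset _) fun q _ hq _ => ?_
      have : canF G σ (fun _ => noOv) B.W0 h q ω = 0 := can_of_mem hq
      rw [this, mul_zero]
    rw [a1, a2, prod_sub_prod_sel]
    refine sum_congr rfl fun h _ => ?_
    congr 1
    unfold Pat.Fx
    simp only [hQ]
    rw [sdiff_singleton_eq_erase]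
    refine prod_congr rfl fun h' _ => ?_
    split_ifs <;> rfl
  rw [← Ex_sub]
  refine (abs_Ex_le hM _).trans ?_
  have h2 : Ex G M (fun ω => |I ω * P.Fx G ∅ ω - I ω * Fcan G σ noOv B ω|)
      ≤ ∑ h ∈ B.H0, Ex G M (fun ω => I ω * (|alive G h (B.c0 h) (P.A h) B.W0 ω
        - alive G h (B.c0 h) (Cn h) B.W0 ω| * (Q h).Fx G {h} ω)) := by
    rw [← Ex_sum]
    refine Ex_mono hM fun ω => ?_
    rw [← mul_sub, abs_mul, abs_of_nonneg (hI ω), ← mul_sum, h1]
    refine mul_le_mul_of_nonneg_left ((abs_sum_le_sum_abs _ _).trans (le_of_eq ?_)) (hI ω)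
    refine sum_congr rfl fun h _ => ?_
    rw [abs_mul, abs_of_nonneg ((hwf h).Fx_nn ω)]
  refine h2.trans ?_
  have hw : 0 ≤ Ex G M I * B.K := mul_nonneg (Ex_nn hM hI) hB.K_nn
  have h3 : ∀ h ∈ B.H0, Ex G M (fun ω => I ω * (|alive G h (B.c0 h) (P.A h) B.W0 ω
        - alive G h (B.c0 h) (Cn h) B.W0 ω| * (Q h).Fx G {h} ω))
      ≤ Ex G M I * B.K * (2 * qq * Z ^ 3) := by
    intro h hh
    have a1 := exp1_aux hN hB hE σ L (Q h) h B.W0 (B.c0 h) (P.A h) I {T | T ⊆ B.W0} (hwf h)
      ⟨Subset.refl _, Subset.refl _, fun _ _ => rfl⟩ hh rfl (hvA h hh) (Subset.refl _)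
      (Or.inr ⟨hN.Lpos, inter_subset_right⟩) (by simp [hQ]) (by simp [hQ]) hI hD (fun _ hT => hT)
      (fun q _ hq hT => hq (hT (mem_insert_self _ _)))
    have a2 : B.wgt pt (Q h) = B.K := by simp [Base.wgt, hQ]
    have hcM : B.c0 h ≤ M := (hB.time h hh).trans hB.top
    have a3 : U1E G M pt D qq η Z L h (Q h).W B.W0 (B.c0 h) ≤ 2 * qq * Z ^ 3 := by
      unfold U1E
      have b1 : (cn G h ∩ (Q h).W) \ B.W0 = ∅ := sdiff_eq_empty_iff_subset.2 inter_subset_right
      have b2 := hN.g1_le hcM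
      have b3 := hN.Phi_sq_le hcM
      have b4 : qq * Z ^ 2 * Phi D M pt η (B.c0 h) ^ 2 / D ≤ qq * Z ^ 3 := by
        rw [div_le_iff₀ (by linarith)]
        calc qq * Z ^ 2 * Phi D M pt η (B.c0 h) ^ 2 ≤ qq * Z ^ 2 * (Z * D) := by gcongr
          _ = _ := by ring
      have b5 : qq ≤ qq * Z ^ 3 := le_mul_of_one_le_right hqq (one_le_pow₀ (by linarith))
      rw [b1, card_empty, Nat.cast_zero, zero_mul, zero_add]
      linarith
    rw [a2] at a1
    exact a1.trans (mul_le_mul_of_nonneg_left a3 hw)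
  refine (sum_le_sum h3).trans ?_
  rw [sum_const, nsmul_eq_mul]
  have hHZ : (B.H0.card : ℝ) ≤ Z := by
    have := hB.H_Z
    have b4 : (0 : ℝ) ≤ L := Nat.cast_nonneg _
    linarith
  calc (B.H0.card : ℝ) * (Ex G M I * B.K * (2 * qq * Z ^ 3))
      ≤ Z * (Ex G M I * B.K * (2 * qq * Z ^ 3)) :=
        mul_le_mul_of_nonneg_right hHZ (mul_nonneg hw (by positivity))
    _ = _ := by ring

end Crest.Agent.R030
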