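import Crest.Agent.R030.Exp1

/-! # Row 30: second expansion: the copies of the target node get the canonical value `XX`

Summed over all targets `p = (e,w)` and times `a`.  Induction on the fuel `d` (`exp2_aux`), all
patterns share the skeleton `(W,H,c)`, the valuations `𝔄 a p` depend on the target.
* targets with `w ∈ W` contribute `0` (`can_ovT_false_of_mem`).
* `d = 0`: `|x-y| ≤ x+y`, `Ext.close` with `Y = insert w e` and `I * ind (insert w e) a`
  (`Ex_mul_ind`); total `∑_{a<M} ∑_p 2/M ≤ 2 n³ ≤ g1 0 u` (`card_Tg_le`).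
* `d+1`: `abs_alive_sub_le`.  Apex `q ∈ W`: both values 0.  Node `(h,q) = p`: on `lab = a = σ p` the left
  value is `R = ∏_{x∈h} alive {x,q} a (canF noOv (insert q W)) ∅ = ∏_x ∏_{q' ∉ insert q W} (1 - act·bit)`
  (`alive_can_ideal`), `0 ≤ R - XX ≤ R * ∑_{x∈h} ∑_{q' ∈ (cn {x,q} ∩ insert q W) \ h.erase x} act (insert q' {x,q}) a`
  (`one_sub_prod_le_sum`); `Pat.step_Fx_all`, `Ext` with `I * ind * act`: weight
  `pt a ^ 2 / M * # * a/M` (first summand of `U1E`).  Other nodes with `q = w`: zero.  Otherwise as in `exp1_aux`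
  (weight `pt s ^ 2 / M`, second and third summand of `U1E`).  Together: `U1E_step`.
-/

set_option autoImplicit false
set_option linter.unusedSectionVars false

namespace Crest.Agent.R030
open Finset
open scoped Classical

variable {V : Type} [Fintype V] [DecidableEq V] {G : SimpleGraph V} {M : ℕ}
variable {pt : ℕ → ℝ} {D qq η Z : ℝ} {L : ℕ} {B : Base V}

theorem exp2_drp_true (h : Finset V) : drp True h = {h} := by simp [drp]

theorem exp2_abs_prod {ι : Type} [DecidableEq ι] (s : Finset ι) (f g : ι → ℝ)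
    (hf : ∀ i, 0 ≤ f i) (hg : ∀ i, 0 ≤ g i) :
    |∏ i ∈ s, f i - ∏ i ∈ s, g i|
      ≤ ∑ i ∈ s, |f i - g i| * ∏ j ∈ s.erase i, (if sel i j then f j else g j) := by
  rw [prod_sub_prod_sel]
  refine (abs_sum_le_sum_abs _ _).trans (le_of_eq (sum_congr rfl fun i _ => ?_))
  have h1 : 0 ≤ ∏ j ∈ s.erase i, (if sel i j then f j else g j) :=
    prod_nonneg fun j _ => by split_ifs <;> [exact hf j; exact hg j]
  rw [abs_mul, abs_of_nonneg h1]

theorem exp2_XX_nn (e : Finset V) (w : V) (a : ℕ) (ω : Om V M) : 0 ≤ XX G e w a ω := by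
  rcases XX_cases (G := G) e w a ω with h | h <;> rw [h]
  exact zero_le_one

theorem exp2_XX_le (e : Finset V) (w : V) (a : ℕ) (ω : Om V M) : XX G e w a ω ≤ 1 := by
  rcases XX_cases (G := G) e w a ω with h | h <;> rw [h]
  exact zero_le_one

theorem exp2_bdA (σ : Thr V) (W h : Finset V) : Bd (canF (M := M) G σ (fun _ => noOv) W h) :=
  canF_bd (fun _ => ovBd_noOv) W h

theorem exp2_bdB (σ : Thr V) (e : Finset V) (w : V) (a : ℕ) (W h : Finset V) :
    Bd (canF (M := M) G σ (fun ω => ovT e w (XX G e w a ω) false) W h) :=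
  canF_bd (fun ω => ovBd_ovT e w (exp2_XX_nn e w a ω) (exp2_XX_le e w a ω) false) W h

theorem exp2_valB {σ : Thr V} {e : Finset V} {w : V} (hee : (e, w) ∈ Tg G) (a : ℕ) {W W' h : Finset V}
    (hW : W ⊆ W') (hT : insert w e ⊆ W') (he : IsEdge G h) :
    Val G σ W' h (canF (M := M) G σ (fun ω => ovT e w (XX G e w a ω) false) W h) :=
  val_canF_ovT (mem_Tg.1 hee).1 (not_mem_of_mem_cn (mem_Tg.1 hee).2) (exp2_XX_nn e w a)
    (exp2_XX_le e w a) hW hT he (by simp)

theorem exp2_tri_ne {h : Finset V} {q x q' : V} (he : IsEdge G h) (hq : q ∈ cn G h) (hx : x ∈ h)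
    (hq' : q' ∈ cn G {x, q}) : insert q' {x, q} ≠ insert q h ↔ q' ∉ h.erase x := by
  have h1 := not_mem_of_mem_cn hq'
  simp only [mem_insert, mem_singleton, not_or] at h1
  obtain ⟨y, hxy, rfl, h2⟩ := he.exists_other hx
  rw [h2, mem_singleton]
  refine not_congr ⟨fun h3 => ?_, fun h3 => ?_⟩
  · have : q' ∈ insert q ({x, y} : Finset V) := h3 ▸ mem_insert_self _ _
    simpa [h1.1, h1.2] using this
  · subst h3
    ext z
    simp only [mem_insert, mem_singleton]
    tauto

/-- the value at the target node against `XX` -/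
theorem exp2_pt_target {σ : Thr V} {W h : Finset V} {q : V} {s : ℕ} (he : IsEdge G h)
    (hq : q ∈ cn G h) (hqW : q ∉ W) (hW : h ⊆ W) (hσ : ∀ p ∈ Tg G, s ≤ σ p.1 p.2)
    (hs : σ h q = s) {ω : Om V M} (hl : lab ω (insert q h) = s) :
    |canF G σ (fun _ => noOv) W h q ω - canF G σ (fun ω => ovT h q (XX G h q s ω) false) W h q ω|
      ≤ (∏ x ∈ h, alive G {x, q} s (canF G σ (fun _ => noOv) (insert q W) {x, q}) ∅ ω) *
        ∑ x ∈ h, ∑ q' ∈ (cn G {x, q} ∩ insert q W) \ h.erase x, act ω (insert q' {x, q}) s := by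
  have h1 : canF G σ (fun _ => noOv) W h q ω =
      ∏ x ∈ h, alive G {x, q} s (canF G σ (fun _ => noOv) (insert q W) {x, q}) ∅ ω := by
    have := can_of_none (G := G) (σ := σ) (ovf := fun _ => noOv) (ω := ω) (h := h) hqW rfl
    rw [hl, hs, if_neg (lt_irrefl _)] at this
    exact this
  have h2 : canF G σ (fun ω => ovT h q (XX G h q s ω) false) W h q ω = XX G h q s ω :=
    can_of_some hqW (by simp [ovT])
  set z : V → V → ℝ := fun x q' => act ω (insert q' {x, q}) s * bit ω {x, q} q' with hz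
  have hz0 : ∀ x q', 0 ≤ z x q' := fun x q' => mul_nonneg (act_nn _ _ _) (bit_nn _ _ _)
  have hz1 : ∀ x q', z x q' ≤ act ω (insert q' {x, q}) s := fun x q' =>
    mul_le_of_le_one_right (act_nn _ _ _) (bit_le_one _ _ _)
  have hz2 : ∀ x q', z x q' ≤ 1 := fun x q' => (hz1 x q').trans (act_le_one _ _ _)
  have h3 : XX G h q s ω =
      (∏ x ∈ h, alive G {x, q} s (canF G σ (fun _ => noOv) (insert q W) {x, q}) ∅ ω) *
        ∏ x ∈ h, ∏ q' ∈ (cn G {x, q} ∩ insert q W) \ h.erase x, (1 - z x q') := by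
    rw [← prod_mul_distrib, XX]
    refine prod_congr rfl fun x hx => ?_
    rw [alive_can_ideal (isEdge_free hq hx) hσ, ← prod_union]
    · refine prod_congr ?_ fun _ _ => rfl
      ext q'
      simp only [mem_filter, mem_union, mem_sdiff, mem_inter]
      constructor
      · rintro ⟨h4, h5⟩
        rw [exp2_tri_ne he hq hx h4] at h5
        tauto
      · rintro (⟨h4, h5⟩ | ⟨⟨h4, -⟩, h5⟩)
        · exact ⟨h4, (exp2_tri_ne he hq hx h4).2 fun h6 =>
            h5 (mem_insert_of_mem (hW (mem_of_mem_erase h6)))⟩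
        · exact ⟨h4, (exp2_tri_ne he hq hx h4).2 h5⟩
    · exact disjoint_left.2 fun q' h4 h5 => (mem_sdiff.1 h4).2 (mem_inter.1 (mem_sdiff.1 h5).1).2
  have hR : 0 ≤ ∏ x ∈ h, alive G {x, q} s (canF G σ (fun _ => noOv) (insert q W) {x, q}) ∅ ω :=
    prod_nonneg fun x _ => alive_nn (exp2_bdA _ _ _) _ _ _ _
  have hY0 : ∀ x, 0 ≤ ∏ q' ∈ (cn G {x, q} ∩ insert q W) \ h.erase x, (1 - z x q') := fun x =>
    prod_nonneg fun q' _ => sub_nonneg.2 (hz2 x q')
  have hY1 : ∀ x, ∏ q' ∈ (cn G {x, q} ∩ insert q W) \ h.erase x, (1 - z x q') ≤ 1 := fun x =>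
    prod_le_one (fun q' _ => sub_nonneg.2 (hz2 x q')) fun q' _ => sub_le_self _ (hz0 x q')
  rw [h1, h2, h3, ← mul_one_sub, abs_mul, abs_of_nonneg hR,
    abs_of_nonneg (sub_nonneg.2 (prod_le_one (fun x _ => hY0 x) fun x _ => hY1 x))]
  refine mul_le_mul_of_nonneg_left ?_ hR
  have h4 := one_sub_prod_le_sum h
    (fun x => 1 - ∏ q' ∈ (cn G {x, q} ∩ insert q W) \ h.erase x, (1 - z x q'))
    (fun x _ => sub_nonneg.2 (hY1 x)) fun x _ => sub_le_self _ (hY0 x)
  simp only [sub_sub_cancel] at h4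
  exact h4.trans (sum_le_sum fun x _ => (one_sub_prod_le_sum _ _ (fun q' _ => hz0 x q')
    fun q' _ => hz2 x q').trans (sum_le_sum fun q' _ => hz1 x q'))

/-- the values at another node -/
theorem exp2_pt_other {σ : Thr V} {W h e : Finset V} {q w : V} {s a : ℕ} (hqW : q ∉ W)
    (hne : ¬ (h = e ∧ q = w)) {ω : Om V M} (hl : lab ω (insert q h) = s) :
    |canF G σ (fun _ => noOv) W h q ω - canF G σ (fun ω => ovT e w (XX G e w a ω) false) W h q ω|
      ≤ |∏ x ∈ h, alive G {x, q} s (canF G σ (fun _ => noOv) (insert q W) {x, q}) ∅ ω -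
        ∏ x ∈ h, alive G {x, q} s
          (canF G σ (fun ω => ovT e w (XX G e w a ω) false) (insert q W) {x, q}) ∅ ω| := by
  have h1 := can_of_none (G := G) (σ := σ) (ovf := fun _ => noOv) (ω := ω) (h := h) hqW rfl
  have h2 := can_of_none (G := G) (σ := σ) (ovf := fun ω => ovT e w (XX G e w a ω) false) (ω := ω)
    (h := h) hqW (by simp [ovT, hne])
  unfold canF
  rw [hl] at h1 h2
  unfold canF at h1 h2
  rw [h1, h2]
  split_ifs
  · simp
  · exact le_rfl

theorem exp2_new {W : Finset V} {H : Finset (Finset V)} (hH : ∀ f ∈ H, f ⊆ W) {q : V}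
    (hqW : q ∉ W) (x : V) : ({x, q} : Finset V) ∉ H := fun hh => hqW (hH _ hh (by simp))

theorem exp2_step_wgt {P : Pat V M} (hBP : B.Le P) {h : Finset V} (he : IsEdge G h) {q : V}
    (hq : q ∈ cn G h) (hH : ∀ f ∈ P.H, f ⊆ P.W) (hqW : q ∉ P.W) (C : V → Om V M → ℝ) (s : ℕ)
    (fam : Finset V → V → Om V M → ℝ) :
    B.wgt pt (P.step h True C q s fam) = B.wgt pt P * pt s ^ 2 := by
  rw [Pat.step_wgt hBP pt (not_mem_of_mem_cn hq), filter_true_of_mem
    fun x _ => exp2_new hH hqW x, he.card]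

/-- the contribution of the target node -/
theorem exp2_target (hB : BaseOK G M B Z L) (hE : Ext G M B pt (8 * L + 10)) (hM : 0 < M)
    {σ : Thr V} {P : Pat V M} {h : Finset V} {q : V} {s u : ℕ} (hσ : ∀ p ∈ Tg G, s ≤ σ p.1 p.2)
    (hs : σ h q = s) (hP : P.WFx G σ B.ctop {h} (insert q h)) (hBP : B.Le P) (hh : h ∈ P.H)
    (hu : P.c h = u) (hsu : s < u) (hq : q ∈ cn G h) (hqW : q ∉ P.W)
    (hcW : (P.W \ B.W0).card + 1 ≤ 8 * L + 10) (hcH : (P.H \ B.H0).card + 2 ≤ 8 * L + 10)
    {I : Om V M → ℝ} {𝒮 : Set (Finset V)} (hI : ∀ ω, 0 ≤ I ω) (hD : DepTri I 𝒮)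
    (h𝒮 : ∀ T ∈ 𝒮, T ⊆ P.W) :
    Ex G M (fun ω => I ω * ind ω (insert q h) s *
        (|canF G σ (fun _ => noOv) P.W h q ω
            - canF G σ (fun ω => ovT h q (XX G h q s ω) false) P.W h q ω| *
          alive G h u (mixA (canF G σ (fun _ => noOv) P.W h)
            (canF G σ (fun ω => ovT h q (XX G h q s ω) false) P.W h) q) (insert q ∅) ω *
          P.Fx G {h} ω))
      ≤ Ex G M I * B.wgt pt P * (pt s ^ 2 / M *
        ∑ x ∈ h, (((cn G {x, q} ∩ insert q P.W) \ h.erase x).card : ℝ) * (s / M)) := by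
  have he := hP.edge h hh
  have hW := hP.sub h hh
  have hsc : s ≤ B.ctop := by have := hP.time h hh; omega
  have hsM : s < M := by have := hP.time h hh; have := hB.top; omega
  set C := mixA (canF G σ (fun _ => noOv) P.W h)
    (canF G σ (fun ω => ovT h q (XX G h q s ω) false) P.W h) q with hC
  set fam : Finset V → V → Om V M → ℝ := canF G σ (fun _ => noOv) (insert q P.W) with hfam
  have hCb : Bd C := (exp2_bdA _ _ _).mixA (exp2_bdB _ _ _ _ _ _) q
  have hP' : P.WFx G σ B.ctop (drp True h) (insert q h) := by rwa [exp2_drp_true]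
  have hsub : P.W ⊆ insert q P.W ∪ insert q h := (subset_insert _ _).trans subset_union_left
  have hwf := Pat.step_wf (C := C) (fam := fam) hP' hW hq hsc
    (fun _ => (val_canF_noOv hsub he).mixA (exp2_valB (mem_Tg.2 ⟨he, hq⟩) s hsub subset_union_right he) q)
    (disjoint_empty_left _) fun x hx _ => val_canF_noOv subset_union_left (isEdge_free hq hx)
  have hwf' : (P.step h True C q s fam).WFx G σ B.ctop ∅ ∅ :=
    ⟨hwf.edge, hwf.sub, hwf.time, fun f hf hf' => (hwf.val f hf hf').mono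
      (union_subset subset_union_left ((insert_subset_insert q hW).trans subset_union_left))⟩
  have hS : ∀ T ∈ 𝒮, q ∉ T := fun T hT hh => hqW (h𝒮 T hT hh)
  have key : ∀ x ∈ h, ∀ q' ∈ (cn G {x, q} ∩ insert q P.W) \ h.erase x,
      Ex G M (fun ω => I ω * ind ω (insert q h) s * act ω (insert q' {x, q}) s *
        (P.step h True C q s fam).Fx G ∅ ω) ≤
        Ex G M I * B.wgt pt P * (pt s ^ 2 / M * (s / M)) := by
    intro x hx q' hq'
    obtain ⟨h1, h2⟩ := mem_sdiff.1 hq'
    obtain ⟨h1, h3⟩ := mem_inter.1 h1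
    have hD1 := hD.mul (depTri_ind (insert q h) s)
    refine (hE σ _ hwf' (Pat.step_le hBP) (fun h4 => hqW (hBP.W (h4 ▸ mem_insert_self _ _)))
      ((Pat.step_card_W B).trans hcW) ((Pat.step_card_H B he).trans hcH) _
      (fun ω => mul_nonneg (mul_nonneg (hI ω) (ind_nn _ _ _)) (act_nn _ _ _))
      ((hD1.mul (depTri_act (insert q' {x, q}) s)).mono ?_)).trans (le_of_eq ?_)
    · rintro T ((hT | rfl) | rfl)
      · exact (h𝒮 T hT).trans (subset_insert _ _)
      · exact insert_subset_insert q hW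
      · exact insert_subset h3 (insert_subset (mem_insert_of_mem (hW hx))
          (singleton_subset_iff.2 (mem_insert_self _ _)))
    · rw [Ex_mul_act hM hD1 ?_ hsM.le, Ex_mul_ind hD (fun h4 => hS _ h4 (mem_insert_self _ _)) hsM,
        exp2_step_wgt hBP he hq hP.sub hqW]
      · ring
      · rintro (h4 | h4)
        · exact hS _ h4 (by simp)
        · exact (exp2_tri_ne he hq hx h1).2 h2 h4
  calc _ ≤ Ex G M (fun ω => ∑ x ∈ h, ∑ q' ∈ (cn G {x, q} ∩ insert q P.W) \ h.erase x,
        I ω * ind ω (insert q h) s * act ω (insert q' {x, q}) s *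
          (P.step h True C q s fam).Fx G ∅ ω) := by
        refine Ex_mono hM fun ω => ?_
        simp only [← sum_mul, ← mul_sum]
        by_cases hl : lab ω (insert q h) = s
        swap
        · simp [ind, hl]
        rw [mul_assoc (I ω * _)]
        refine mul_le_mul_of_nonneg_left ?_ (mul_nonneg (hI ω) (ind_nn _ _ _))
        have h1 := exp2_pt_target he hq hqW hW hσ hs hl
        have h2 := Pat.step_Fx_all (s := s) (fam := fam) hP' (fun _ => ⟨hh, hu⟩) hq hCb
          (fun y _ => exp2_bdA _ _ _) (S := insert q ∅) (insert_subset_insert q (empty_subset _))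
          (S' := fun _ => ∅) (fun _ _ => empty_subset _) ω
        rw [exp2_drp_true] at h2
        have h3 : 0 ≤ alive G h u C (insert q ∅) ω := alive_nn hCb _ _ _ _
        have h4 : 0 ≤ P.Fx G {h} ω := hP.Fx_nn ω
        have h5 : 0 ≤ ∑ x ∈ h, ∑ q' ∈ (cn G {x, q} ∩ insert q P.W) \ h.erase x,
            act ω (insert q' {x, q}) s := sum_nonneg fun _ _ => sum_nonneg fun _ _ => act_nn _ _ _
        refine le_trans ?_ (mul_le_mul_of_nonneg_left h2 h5)
        refine (mul_le_mul_of_nonneg_right (mul_le_mul_of_nonneg_right h1 h3) h4).trans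
          (le_of_eq ?_)
        ring
    _ ≤ ∑ x ∈ h, ∑ _q' ∈ (cn G {x, q} ∩ insert q P.W) \ h.erase x,
        Ex G M I * B.wgt pt P * (pt s ^ 2 / M * (s / M)) := by
        rw [Ex_sum]
        refine sum_le_sum fun x hx => ?_
        rw [Ex_sum]
        exact sum_le_sum fun q' hq' => key x hx q' hq'
    _ = _ := by
        simp only [sum_const, nsmul_eq_mul, mul_sum]
        exact sum_congr rfl fun x _ => by ring

/-- the family seen by the siblings of `q` -/
noncomputable def exp2_mix (G : SimpleGraph V) (σ : Thr V) (e : Finset V) (w : V) (a : ℕ)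
    (W h : Finset V) (q : V) : V → Om V M → ℝ :=
  mixA (canF G σ (fun _ => noOv) W h) (canF G σ (fun ω => ovT e w (XX G e w a ω) false) W h) q

/-- the family of the free edge other than `{x,q}` -/
noncomputable def exp2_fam (G : SimpleGraph V) (σ : Thr V) (e : Finset V) (w : V) (a : ℕ)
    (W h : Finset V) (x : V) : Finset V → V → Om V M → ℝ := fun f =>
  if ∀ y ∈ h.erase x, sel x y then canF G σ (fun _ => noOv) W f
  else canF G σ (fun ω => ovT e w (XX G e w a ω) false) W f

theorem exp2_mix_bd (σ : Thr V) (e : Finset V) (w : V) (a : ℕ) (W h : Finset V) (q : V) :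
    Bd (exp2_mix (M := M) G σ e w a W h q) := (exp2_bdA _ _ _).mixA (exp2_bdB _ _ _ _ _ _) q

theorem exp2_fam_bd (σ : Thr V) (e : Finset V) (w : V) (a : ℕ) (W h : Finset V) (x : V)
    (f : Finset V) : Bd (exp2_fam (M := M) G σ e w a W h x f) := by
  unfold exp2_fam
  split_ifs
  · exact exp2_bdA _ _ _
  · exact exp2_bdB _ _ _ _ _ _

/-- one term of the telescoping over the apexes and the labels -/
noncomputable def exp2_T (G : SimpleGraph V) (σ : Thr V) (e : Finset V) (w : V) (a : ℕ)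
    (P : Pat V M) (h : Finset V) (u : ℕ) (I : Om V M → ℝ) (q : V) (s : ℕ) : ℝ :=
  Ex G M fun ω => I ω * ind ω (insert q h) s * (ind ω (insert w e) a *
    (|canF G σ (fun _ => noOv) P.W h q ω
        - canF G σ (fun ω => ovT e w (XX G e w a ω) false) P.W h q ω| *
      alive G h u (exp2_mix G σ e w a P.W h q) (insert q ∅) ω * P.Fx G {h} ω))

theorem exp2_split (hM : 0 < M) {σ : Thr V} (e : Finset V) (w : V) (a : ℕ) {P : Pat V M}
    {h X : Finset V} {ctop : ℕ} (hP : P.WFx G σ ctop {h} X) (u : ℕ) {I : Om V M → ℝ}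
    (hI : ∀ ω, 0 ≤ I ω) :
    Ex G M (fun ω => I ω * (ind ω (insert w e) a *
        (|alive G h u (canF G σ (fun _ => noOv) P.W h) ∅ ω
          - alive G h u (canF G σ (fun ω => ovT e w (XX G e w a ω) false) P.W h) ∅ ω|
        * P.Fx G {h} ω)))
      ≤ ∑ q ∈ cn G h \ P.W, ∑ s ∈ range u, exp2_T G σ e w a P h u I q s := by
  unfold exp2_T
  simp only [← Ex_sum]
  refine Ex_mono hM fun ω => ?_
  have h1 := abs_alive_sub_le (G := G) (exp2_bdA (G := G) σ P.W h) (exp2_bdB (G := G) σ e w a P.W h)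
    h u ∅ ω
  rw [sdiff_empty, ← sum_subset (sdiff_subset (s := cn G h) (t := P.W)) fun q hq hq' => by
    have h2 : q ∈ P.W := by simpa [hq] using hq'
    simp [canF, can_of_mem h2]] at h1
  have h2 : 0 ≤ P.Fx G {h} ω := hP.Fx_nn ω
  have h3 := hI ω
  have h4 := ind_nn ω (insert w e) a
  refine (mul_le_mul_of_nonneg_left (mul_le_mul_of_nonneg_left
    (mul_le_mul_of_nonneg_right h1 h2) h4) h3).trans (le_of_eq ?_)
  rw [sum_mul, mul_sum, mul_sum]
  refine sum_congr rfl fun q _ => ?_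
  rw [act_eq_sum_ind, sum_mul, sum_mul, sum_mul, mul_sum, mul_sum]
  refine sum_congr rfl fun s _ => ?_
  unfold exp2_mix
  ring

theorem exp2_T_zero {σ : Thr V} {e : Finset V} {a : ℕ} {P : Pat V M} {h : Finset V} (hne : h ≠ e)
    (u : ℕ) (I : Om V M → ℝ) {q : V} (hqW : q ∉ P.W) (s : ℕ) (hM : 0 < M) :
    exp2_T G σ e q a P h u I q s = 0 := by
  rw [exp2_T, ← Ex_const (G := G) hM 0]
  congr 1
  funext ω
  have h1 := exp2_pt_other (G := G) (σ := σ) (e := e) (w := q) (a := a) hqW (fun h => hne h.1)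
    (ω := ω) rfl
  have h2 : ∀ f, alive G f (lab ω (insert q h))
      (canF G σ (fun ω => ovT e q (XX G e q a ω) false) (insert q P.W) f) ∅ ω =
      alive G f (lab ω (insert q h)) (canF G σ (fun _ => noOv) (insert q P.W) f) ∅ ω := fun f =>
    alive_congr fun q' _ _ => by
      unfold canF
      rw [can_ovT_false_of_mem (mem_insert_self _ _)]
  simp only [h2, sub_self, abs_zero] at h1
  rw [abs_nonpos_iff.1 h1]
  simp

theorem exp2_T_off {σ : Thr V} {a : ℕ} {P : Pat V M} {h : Finset V} (u : ℕ) (I : Om V M → ℝ)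
    (q : V) {s : ℕ} (has : a ≠ s) (hM : 0 < M) : exp2_T G σ h q a P h u I q s = 0 := by
  rw [exp2_T, ← Ex_const (G := G) hM 0]
  congr 1
  funext ω
  by_cases hl : lab ω (insert q h) = s
  · simp [ind, hl, has.symm]
  · simp [ind, hl]

theorem exp2_T_other (hM : 0 < M) {σ : Thr V} {e : Finset V} {w : V} (a : ℕ) {P : Pat V M}
    {h X : Finset V} {ctop u : ℕ} (hP : P.WFx G σ ctop {h} X) (hh : h ∈ P.H) (hu : P.c h = u)
    {I : Om V M → ℝ} (hI : ∀ ω, 0 ≤ I ω) {q : V} (hq : q ∈ cn G h) (hqW : q ∉ P.W) (hqw : q ≠ w)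
    (s : ℕ) :
    exp2_T G σ e w a P h u I q s ≤ ∑ x ∈ h,
      Ex G M (fun ω => I ω * ind ω (insert q h) s * (ind ω (insert w e) a *
        (|alive G {x, q} s (canF G σ (fun _ => noOv) (insert q P.W) {x, q}) ∅ ω
          - alive G {x, q} s
            (canF G σ (fun ω => ovT e w (XX G e w a ω) false) (insert q P.W) {x, q}) ∅ ω|
        * (P.step h True (exp2_mix G σ e w a P.W h q) q s
            (exp2_fam G σ e w a (insert q P.W) h x)).Fx G {{x, q}} ω))) := by
  have he := hP.edge h hh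
  have hP' : P.WFx G σ ctop (drp True h) X := by rwa [exp2_drp_true]
  rw [exp2_T, ← Ex_sum]
  refine Ex_mono hM fun ω => ?_
  simp only [← mul_sum]
  by_cases hl : lab ω (insert q h) = s
  swap
  · simp [ind, hl]
  refine mul_le_mul_of_nonneg_left (mul_le_mul_of_nonneg_left ?_ (ind_nn _ _ _))
    (mul_nonneg (hI ω) (ind_nn _ _ _))
  have h1 := (exp2_pt_other (G := G) (σ := σ) (e := e) (a := a) hqW (fun h => hqw h.2) hl).trans
    (exp2_abs_prod h _ _ (fun x => alive_nn (exp2_bdA _ _ _) _ _ _ _)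
      fun x => alive_nn (exp2_bdB _ _ _ _ _ _) _ _ _ _)
  have h3 : 0 ≤ alive G h u (exp2_mix G σ e w a P.W h q) (insert q ∅) ω :=
    alive_nn (exp2_mix_bd _ _ _ _ _ _ _) _ _ _ _
  have h4 : 0 ≤ P.Fx G {h} ω := hP.Fx_nn ω
  refine (mul_le_mul_of_nonneg_right (mul_le_mul_of_nonneg_right h1 h3) h4).trans ?_
  rw [sum_mul, sum_mul]
  refine sum_le_sum fun x hx => ?_
  rw [mul_assoc, mul_assoc]
  refine mul_le_mul_of_nonneg_left ?_ (abs_nonneg _)
  have h2 := Pat.step_Fx (s := s) (fam := exp2_fam G σ e w a (insert q P.W) h x) hP'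
    (fun _ => ⟨hh, hu⟩) hq (exp2_mix_bd (G := G) σ e w a P.W h q) (fun y _ => exp2_fam_bd _ _ _ _ _ _ _ _)
    (S := insert q ∅) (insert_subset_insert q (empty_subset _))
    (S' := fun _ => ∅) (fun _ _ => empty_subset _) hx ω
  rw [exp2_drp_true, drp, if_pos (exp2_new hP.sub hqW x)] at h2
  refine le_trans (le_of_eq ?_) h2
  rw [← mul_assoc, mul_comm _ (alive G h u _ _ _)]
  congr 2
  obtain ⟨y, -, -, h5⟩ := he.exists_other hx
  simp only [exp2_fam, h5, prod_singleton, mem_singleton, forall_eq]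
  split_ifs <;> rfl

theorem exp2_swap {α β γ : Type} (A : Finset α) (F : α → Finset β) (Q : Finset γ)
    (f : α → β → γ → ℝ) :
    ∑ a ∈ A, ∑ p ∈ F a, ∑ q ∈ Q, f a p q = ∑ q ∈ Q, ∑ a ∈ A, ∑ p ∈ F a, f a p q := by
  rw [sum_congr rfl fun a _ => sum_comm, sum_comm]

theorem exp2_aux (hN : NumOK G M pt D qq η Z L) (hB : BaseOK G M B Z L)
    (hE : Ext G M B pt (8 * L + 10)) (σf : ℕ → Finset V × V → Thr V)
    (hσ : ∀ a p, ∀ p' ∈ Tg G, a ≤ σf a p p'.1 p'.2) (d : ℕ) :
    ∀ (W : Finset V) (H : Finset (Finset V)) (c : Finset V → ℕ)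
      (𝔄 : ℕ → Finset V × V → Finset V → V → Om V M → ℝ) (h : Finset V) (u : ℕ)
      (I : Om V M → ℝ) (𝒮 : Set (Finset V)),
      (∀ a, ∀ p ∈ Tg G, p.2 ∉ W →
        (⟨W, H, c, 𝔄 a p⟩ : Pat V M).WFx G (σf a p) B.ctop {h} (insert p.2 p.1)) →
      (∀ f ∈ H, IsEdge G f ∧ f ⊆ W ∧ c f ≤ B.ctop) →
      B.W0 ⊆ W → B.H0 ⊆ H → (∀ f ∈ B.H0, c f = B.c0 f) → h ∈ H → c h = u →
      (W \ B.W0).card + d ≤ L → (H \ B.H0).card + 2 * d ≤ 2 * L →
      (∀ ω, 0 ≤ I ω) → DepTri I 𝒮 → (∀ T ∈ 𝒮, T ⊆ W) →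
      ∑ a ∈ range M, ∑ p ∈ (Tg G).filter (fun p => σf a p p.1 p.2 = a ∧ p.2 ∉ W),
        Ex G M (fun ω => I ω * (ind ω (insert p.2 p.1) a *
          (|alive G h u (canF G (σf a p) (fun _ => noOv) W h) ∅ ω
            - alive G h u (canF G (σf a p) (fun ω => ovT p.1 p.2 (XX G p.1 p.2 a ω) false) W h) ∅ ω|
          * (⟨W, H, c, 𝔄 a p⟩ : Pat V M).Fx G {h} ω)))
        ≤ Ex G M I * (B.K * ∏ f ∈ H \ B.H0, pt (c f)) *
          (qq * Z ^ 2 * Phi D M pt η u ^ 2 / D + g1 (Fintype.card V) (Phi D M pt η) d u) := by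
  have hM := hN.Mpos
  have hM' := hN.Mpos'
  induction d with
  | zero =>
    intro W H c 𝔄 h u I 𝒮 hwf hH hW0 hH0 hc hh hu hcW hcH hI hD h𝒮
    set K := B.K * ∏ f ∈ H \ B.H0, pt (c f) with hK
    have hK0 : 0 ≤ K := mul_nonneg hB.K_nn (prod_nonneg fun f _ => hN.pt_nn _)
    have hEI : 0 ≤ Ex G M I := Ex_nn hM hI
    have he := (hH h hh).1
    refine (sum_le_sum fun a ha => sum_le_sum (g := fun _ => 2 * (Ex G M I / M * K))
      fun p hp => ?_).trans ?_
    · obtain ⟨hp, -, hpW⟩ := mem_filter.1 hp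
      have hP : (⟨W, H, c, 𝔄 a p⟩ : Pat V M).WFx G (σf a p) B.ctop (drp True h) (insert p.2 p.1) := by
        rw [exp2_drp_true]; exact hwf a p hp hpW
      have hcl : ∀ C : V → Om V M → ℝ, Val G (σf a p) (W ∪ insert p.2 p.1) h C →
          Ex G M (fun ω => I ω * ind ω (insert p.2 p.1) a *
            (alive G h u C ∅ ω * (⟨W, H, c, 𝔄 a p⟩ : Pat V M).Fx G {h} ω)) ≤ Ex G M I / M * K := by
        intro C hC
        have h1 := Ext.close hM hE hP ⟨hW0, hH0, hc⟩ (fun _ => ⟨hh, hu⟩) subset_rfl hC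
          (empty_subset _) (fun h2 => hpW (hW0 (h2 ▸ mem_union_right _ (mem_insert_self _ _))))
          (by
            have h2 := card_insert_cn (mem_Tg.1 hp).1 (mem_Tg.1 hp).2
            have h3 : ((W ∪ insert p.2 p.1) \ B.W0).card ≤ (W \ B.W0).card + (insert p.2 p.1).card := by
              rw [union_sdiff_distrib]
              exact (card_union_le _ _).trans (Nat.add_le_add_left (card_le_card sdiff_subset) _)
            change ((W ∪ insert p.2 p.1) \ B.W0).card ≤ _
            omega)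
          (by change (H \ B.H0).card ≤ _; omega)
          (I := fun ω => I ω * ind ω (insert p.2 p.1) a)
          (fun ω => mul_nonneg (hI ω) (ind_nn _ _ _))
          ((hD.mul (depTri_ind _ a)).mono (by
            rintro T (hT | rfl)
            · exact (h𝒮 T hT).trans subset_union_left
            · exact subset_union_right))
        rw [exp2_drp_true, Ex_mul_ind hD (fun h2 => hpW (h𝒮 _ h2 (mem_insert_self _ _)))
          (mem_range.1 ha)] at h1
        exact h1
      rw [two_mul]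
      refine le_trans ?_ (add_le_add (hcl _ (val_canF_noOv subset_union_left he))
        (hcl _ (exp2_valB hp a subset_union_left subset_union_right he)))
      rw [← Ex_add]
      refine Ex_mono hM fun ω => ?_
      rw [← mul_add, ← add_mul, mul_assoc]
      refine mul_le_mul_of_nonneg_left (mul_le_mul_of_nonneg_left (mul_le_mul_of_nonneg_right ?_
        (hP.Fx_nn ω |>.trans_eq (by rw [exp2_drp_true]))) (ind_nn _ _ _)) (hI ω)
      have h1 := alive_nn (G := G) (exp2_bdA (G := G) (σf a p) W h) h u ∅ ω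
      have h2 := alive_nn (G := G) (exp2_bdB (G := G) (σf a p) p.1 p.2 a W h) h u ∅ ω
      exact abs_le.2 ⟨by linarith, by linarith⟩
    · have h1 : ∀ a, ∑ _p ∈ (Tg G).filter (fun p => σf a p p.1 p.2 = a ∧ p.2 ∉ W),
          2 * (Ex G M I / M * K) ≤ (Fintype.card V : ℝ) ^ 3 * (2 * (Ex G M I / M * K)) := fun a => by
        rw [sum_const, nsmul_eq_mul]
        exact mul_le_mul_of_nonneg_right ((Nat.cast_le.2 (card_filter_le _ _)).trans card_Tg_le)
          (by positivity)
      refine (sum_le_sum fun a _ => h1 a).trans ?_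
      rw [sum_const, card_range, nsmul_eq_mul]
      have h2 : (1 : ℝ) ≤ Phi D M pt η u ^ 4 := one_le_pow₀ (hN.one_le_Phi u)
      have h3 : 0 ≤ qq * Z ^ 2 * Phi D M pt η u ^ 2 / D := by
        have := hN.qq_nn
        have := hN.D_ge
        positivity
      have h4 : (0 : ℝ) ≤ (Fintype.card V : ℝ) ^ 3 := by positivity
      calc (M : ℝ) * ((Fintype.card V : ℝ) ^ 3 * (2 * (Ex G M I / M * K)))
          = Ex G M I * K * (2 * (Fintype.card V : ℝ) ^ 3) := by field_simp
        _ ≤ _ := by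
          refine mul_le_mul_of_nonneg_left ?_ (by positivity)
          unfold g1
          rw [pow_zero, div_one]
          nlinarith
  | succ d ih =>
    intro W H c 𝔄 h u I 𝒮 hwf hH hW0 hH0 hc hh hu hcW hcH hI hD h𝒮
    set K := B.K * ∏ f ∈ H \ B.H0, pt (c f) with hK
    have hK0 : 0 ≤ K := mul_nonneg hB.K_nn (prod_nonneg fun f _ => hN.pt_nn _)
    have hEI : 0 ≤ Ex G M I := Ex_nn hM hI
    obtain ⟨he, hhW, hut⟩ := hH h hh
    rw [hu] at hut
    have huM : u ≤ M := hut.trans hB.top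
    have hWZ : (W.card : ℝ) ≤ Z := by
      have h1 : W.card ≤ B.W0.card + L := by
        have := card_sdiff_add_card_eq_card hW0
        omega
      have h2 : (W.card : ℝ) ≤ B.W0.card + L := by exact_mod_cast h1
      have h3 : (0 : ℝ) ≤ L := by positivity
      linarith [hB.W_Z]
    refine le_trans ?_ (mul_le_mul_of_nonneg_left (U1E_step hN he hWZ d huM) (mul_nonneg hEI hK0))
    refine (sum_le_sum fun a _ => sum_le_sum fun p hp => exp2_split hM p.1 p.2 a
      (hwf a p (mem_filter.1 hp).1 (mem_filter.1 hp).2.2) u hI).trans ?_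
    dsimp only
    rw [exp2_swap, mul_sum]
    refine sum_le_sum fun q hq => ?_
    rw [exp2_swap, mul_sum]
    refine sum_le_sum fun s hs => ?_
    obtain ⟨hq, hqW⟩ : q ∈ cn G h ∧ q ∉ W := mem_sdiff.1 hq
    have hsu := mem_range.1 hs
    have hsM : s < M := by omega
    have hHW : ∀ f ∈ H, f ⊆ W := fun f hf => (hH f hf).2.1
    set X := Ex G M I * K * (pt s ^ 2 / M *
      ∑ x ∈ h, (((cn G {x, q} ∩ insert q W) \ h.erase x).card : ℝ) * (s / M)) with hX
    have hX0 : 0 ≤ X := mul_nonneg (mul_nonneg hEI hK0) (mul_nonneg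
      (div_nonneg (sq_nonneg _) hM'.le) (sum_nonneg fun x _ => mul_nonneg (Nat.cast_nonneg _)
        (div_nonneg (Nat.cast_nonneg _) hM'.le)))
    set P' : ℕ → Finset V × V → V → Pat V M := fun a p x =>
      (⟨W, H, c, 𝔄 a p⟩ : Pat V M).step h True (exp2_mix G (σf a p) p.1 p.2 a W h q) q s
        (exp2_fam G (σf a p) p.1 p.2 a (insert q W) h x) with hP'
    set Y : ℕ → Finset V × V → V → ℝ := fun a p x =>
      Ex G M (fun ω => I ω * ind ω (insert q h) s * (ind ω (insert p.2 p.1) a *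
        (|alive G {x, q} s (canF G (σf a p) (fun _ => noOv) (insert q W) {x, q}) ∅ ω
          - alive G {x, q} s (canF G (σf a p) (fun ω => ovT p.1 p.2 (XX G p.1 p.2 a ω) false)
            (insert q W) {x, q}) ∅ ω| * (P' a p x).Fx G {{x, q}} ω))) with hY
    have h1 : ∀ a, ∀ p ∈ (Tg G).filter (fun p => σf a p p.1 p.2 = a ∧ p.2 ∉ W),
        exp2_T G (σf a p) p.1 p.2 a ⟨W, H, c, 𝔄 a p⟩ h u I q s ≤
          (if a = s then if p = (h, q) then X else 0 else 0) +
            if p.2 ≠ q then ∑ x ∈ h, Y a p x else 0 := by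
      rintro a ⟨e, w⟩ hp
      obtain ⟨hp, hσp, hpW⟩ := mem_filter.1 hp
      by_cases hw : w = q
      · subst hw
        rw [if_neg (show ¬ (e, w).2 ≠ w from fun h5 => h5 rfl), add_zero]
        by_cases hhe : h = e
        · subst hhe
          by_cases has : a = s
          · subst has
            rw [if_pos rfl, if_pos rfl]
            refine le_trans ?_ (exp2_target hB hE hM (hσ a (h, w)) hσp (hwf a (h, w) hp hpW)
              ⟨hW0, hH0, hc⟩ hh hu hsu hq hqW (by change (W \ B.W0).card + 1 ≤ _; omega)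
              (by change (H \ B.H0).card + 2 ≤ _; omega) hI hD h𝒮)
            refine Ex_mono hM fun ω => le_of_eq ?_
            by_cases hl : lab ω (insert w h) = a <;> simp [ind, hl, exp2_mix]
          · rw [if_neg has]
            exact (exp2_T_off u I w has hM).le
        · rw [exp2_T_zero hhe u I hqW s hM]
          split_ifs
          · exact hX0
          · exact le_rfl
          · exact le_rfl
      · rw [if_pos (show (e, w).2 ≠ q from hw)]
        refine (exp2_T_other hM a (hwf a (e, w) hp hpW) hh hu hI hq hqW (Ne.symm hw) s).trans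
          (le_add_of_nonneg_left ?_)
        split_ifs
        · exact hX0
        · exact le_rfl
        · exact le_rfl
    have h2 : ∑ a ∈ range M, ∑ p ∈ (Tg G).filter (fun p => σf a p p.1 p.2 = a ∧ p.2 ∉ W),
        (if a = s then if p = (h, q) then X else 0 else 0) ≤ X := by
      refine (sum_le_sum (g := fun a => if a = s then X else 0) fun a _ => ?_).trans ?_
      · split_ifs
        · rw [sum_ite_eq']
          split_ifs
          · exact le_rfl
          · exact hX0
        · simp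
      · rw [sum_ite_eq', if_pos (mem_range.2 hsM)]
    have h3 : ∀ x ∈ h, ∑ a ∈ range M,
        ∑ p ∈ (Tg G).filter (fun p => σf a p p.1 p.2 = a ∧ p.2 ∉ insert q W), Y a p x ≤
        Ex G M I * K * (pt s ^ 2 / M * (qq * Z ^ 2 * Phi D M pt η s ^ 2 / D +
          g1 (Fintype.card V) (Phi D M pt η) d s)) := by
      intro x hx
      have hnew := exp2_new hHW hqW x
      have hBP : B.Le (⟨W, H, c, 𝔄 0 (h, q)⟩ : Pat V M) := ⟨hW0, hH0, hc⟩
      have hBP' : B.Le (P' 0 (h, q) x) := Pat.step_le hBP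
      have hcn : ({x, q} : Finset V) ∈ (P' 0 (h, q) x).H ∧ (P' 0 (h, q) x).c {x, q} = s :=
        Pat.step_c_new hx hnew
      have h4 := ih (insert q W) (P' 0 (h, q) x).H (P' 0 (h, q) x).c (fun a p => (P' a p x).A)
        {x, q} s (fun ω => I ω * ind ω (insert q h) s) (𝒮 ∪ {insert q h})
        (fun a p hp hpW => ?_) (fun f hf => ?_) hBP'.W hBP'.H hBP'.c hcn.1 hcn.2
        (by
          have : (insert q W \ B.W0).card ≤ (W \ B.W0).card + 1 :=
            Pat.step_card_W (P := ⟨W, H, c, 𝔄 0 (h, q)⟩) (h := h) (own := True) (q := q) (s := s)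
              (C := fun _ _ => 0) (fam := fun _ _ _ => 0) B
          omega)
        (by
          have : ((P' 0 (h, q) x).H \ B.H0).card ≤ (H \ B.H0).card + 2 := Pat.step_card_H B he
          omega)
        (fun ω => mul_nonneg (hI ω) (ind_nn _ _ _)) (hD.mul (depTri_ind _ s)) (by
          rintro T (hT | rfl)
          · exact (h𝒮 T hT).trans (subset_insert _ _)
          · exact insert_subset_insert q hhW)
      · refine h4.trans (le_of_eq ?_)
        have h5 : B.K * ∏ f ∈ (P' 0 (h, q) x).H \ B.H0, pt ((P' 0 (h, q) x).c f) = K * pt s ^ 2 :=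
          exp2_step_wgt hBP he hq hHW hqW _ s _
        rw [h5, Ex_mul_ind hD (fun h6 => hqW (h𝒮 _ h6 (mem_insert_self _ _))) hsM]
        ring
      · have hpW' : p.2 ∉ W := fun h5 => hpW (mem_insert_of_mem h5)
        have hP : (⟨W, H, c, 𝔄 a p⟩ : Pat V M).WFx G (σf a p) B.ctop (drp True h)
            (insert p.2 p.1) := by
          rw [exp2_drp_true]; exact hwf a p hp hpW'
        have hsub : W ⊆ insert q W ∪ insert p.2 p.1 := (subset_insert _ _).trans subset_union_left
        refine Pat.step_wf hP hhW hq (by omega)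
          (fun _ => (val_canF_noOv hsub he).mixA
            (exp2_valB hp a hsub subset_union_right he) q)
          (disjoint_singleton_left.2 hnew) fun y hy _ => ?_
        unfold exp2_fam
        split_ifs
        · exact val_canF_noOv subset_union_left (isEdge_free hq hy)
        · exact exp2_valB hp a subset_union_left subset_union_right (isEdge_free hq hy)
      · change f ∈ H ∪ h.image (fun x => ({x, q} : Finset V)) at hf
        change _ ∧ _ ∧ (if f ∈ H then c f else s) ≤ _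
        by_cases hfH : f ∈ H
        · rw [if_pos hfH]
          exact ⟨(hH f hfH).1, (hHW f hfH).trans (subset_insert _ _), (hH f hfH).2.2⟩
        · rw [if_neg hfH]
          obtain ⟨y, hy, rfl⟩ := mem_image.1 ((mem_union.1 hf).resolve_left hfH)
          exact ⟨isEdge_free hq hy, insert_subset (mem_insert_of_mem (hhW hy))
            (singleton_subset_iff.2 (mem_insert_self _ _)), by omega⟩
    refine (sum_le_sum fun a _ => sum_le_sum (h1 a)).trans ?_
    simp only [sum_add_distrib]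
    have h5 : ∀ a, ∑ p ∈ (Tg G).filter (fun p => σf a p p.1 p.2 = a ∧ p.2 ∉ W),
        (if p.2 ≠ q then ∑ x ∈ h, Y a p x else 0) = ∑ x ∈ h,
          ∑ p ∈ (Tg G).filter (fun p => σf a p p.1 p.2 = a ∧ p.2 ∉ insert q W), Y a p x := by
      intro a
      rw [← sum_filter, filter_filter, sum_comm]
      refine sum_congr rfl fun x _ => sum_congr (filter_congr fun p _ => ?_) fun _ _ => rfl
      simp only [mem_insert, not_or, ne_eq]
      tauto
    rw [sum_congr rfl fun a _ => h5 a, sum_comm (s := range M) (t := h)]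
    refine (add_le_add h2 (sum_le_sum h3)).trans (le_of_eq ?_)
    simp only [hX, U1E, mul_sum, ← sum_add_distrib]
    exact sum_congr rfl fun x _ => by ring

theorem exp2 (hN : NumOK G M pt D qq η Z L) (hB : BaseOK G M B Z L)
    (hE : Ext G M B pt (8 * L + 10)) (σf : ℕ → Finset V × V → Thr V)
    (hσ : ∀ a p, ∀ p' ∈ Tg G, a ≤ σf a p p'.1 p'.2) (I : Om V M → ℝ)
    (hI : ∀ ω, 0 ≤ I ω) (hD : DepTri I {T | T ⊆ B.W0}) :
    ∑ a ∈ range M, ∑ p ∈ (Tg G).filter (fun p => σf a p p.1 p.2 = a),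
        Ex G M (fun ω => I ω * (ind ω (insert p.2 p.1) a *
          |Fcan G (σf a p) noOv B ω - Fcan G (σf a p) (ovT p.1 p.2 (XX G p.1 p.2 a ω) false) B ω|))
      ≤ Ex G M I * B.K * (2 * qq * Z ^ 4) := by
  have hM := hN.Mpos
  have hEI : 0 ≤ Ex G M I := Ex_nn hM hI
  set 𝔄 : Finset V → ℕ → Finset V × V → Finset V → V → Om V M → ℝ := fun h a p f =>
    if sel h f then canF G (σf a p) (fun _ => noOv) B.W0 f
    else canF G (σf a p) (fun ω => ovT p.1 p.2 (XX G p.1 p.2 a ω) false) B.W0 f with h𝔄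
  have hwf : ∀ h a, ∀ p ∈ Tg G, (⟨B.W0, B.H0, B.c0, 𝔄 h a p⟩ : Pat V M).WFx G (σf a p) B.ctop {h}
      (insert p.2 p.1) := fun h a p hp => ⟨hB.edge, hB.sub, hB.time, fun f hf _ => by
    simp only [h𝔄]
    split_ifs
    · exact val_canF_noOv subset_union_left (hB.edge f hf)
    · exact exp2_valB hp a subset_union_left subset_union_right (hB.edge f hf)⟩
  set Y : ℕ → Finset V × V → Finset V → ℝ := fun a p h =>
    Ex G M (fun ω => I ω * (ind ω (insert p.2 p.1) a *
      (|alive G h (B.c0 h) (canF G (σf a p) (fun _ => noOv) B.W0 h) ∅ ω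
        - alive G h (B.c0 h)
          (canF G (σf a p) (fun ω => ovT p.1 p.2 (XX G p.1 p.2 a ω) false) B.W0 h) ∅ ω|
      * (⟨B.W0, B.H0, B.c0, 𝔄 h a p⟩ : Pat V M).Fx G {h} ω))) with hY
  have h1 : ∀ a, ∀ p ∈ (Tg G).filter (fun p => σf a p p.1 p.2 = a),
      Ex G M (fun ω => I ω * (ind ω (insert p.2 p.1) a *
        |Fcan G (σf a p) noOv B ω - Fcan G (σf a p) (ovT p.1 p.2 (XX G p.1 p.2 a ω) false) B ω|))
      ≤ if p.2 ∉ B.W0 then ∑ h ∈ B.H0, Y a p h else 0 := by
    intro a p hp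
    split_ifs with hw
    · rw [← Ex_const (G := G) hM 0]
      refine Ex_mono hM fun ω => le_of_eq ?_
      have : Fcan G (σf a p) (ovT p.1 p.2 (XX G p.1 p.2 a ω) false) B ω =
          Fcan G (σf a p) noOv B ω :=
        prod_congr rfl fun h _ => alive_congr fun q _ _ => by
          unfold canF
          rw [can_ovT_false_of_mem hw]
      simp [this]
    · simp only [hY, ← Ex_sum]
      refine Ex_mono hM fun ω => ?_
      simp only [← mul_sum]
      refine mul_le_mul_of_nonneg_left (mul_le_mul_of_nonneg_left ?_ (ind_nn _ _ _)) (hI ω)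
      refine (exp2_abs_prod B.H0
        (fun h => alive G h (B.c0 h) (canF G (σf a p) (fun _ => noOv) B.W0 h) ∅ ω)
        (fun h => alive G h (B.c0 h)
          (canF G (σf a p) (fun ω => ovT p.1 p.2 (XX G p.1 p.2 a ω) false) B.W0 h) ∅ ω)
        (fun h => alive_nn (exp2_bdA _ _ _) _ _ _ _)
        fun h => alive_nn (exp2_bdB _ _ _ _ _ _) _ _ _ _).trans (sum_le_sum fun h _ => ?_)
      refine mul_le_mul_of_nonneg_left ?_ (abs_nonneg _)
      rw [Pat.Fx, sdiff_singleton_eq_erase]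
      refine prod_le_prod (fun f _ => ?_) fun f _ => ?_
      · split_ifs
        · exact alive_nn (exp2_bdA _ _ _) _ _ _ _
        · exact alive_nn (exp2_bdB _ _ _ _ _ _) _ _ _ _
      · simp only [h𝔄]
        split_ifs
        · exact alive_mono_skip (exp2_bdA _ _ _) _ _ (empty_subset _) _
        · exact alive_mono_skip (exp2_bdB _ _ _ _ _ _) _ _ (empty_subset _) _
  have hZ := hN.Z_ge
  have hq := hN.qq_nn
  have hD1 := hN.D_ge
  have h2 : ∀ h ∈ B.H0, ∑ a ∈ range M,
      ∑ p ∈ (Tg G).filter (fun p => σf a p p.1 p.2 = a ∧ p.2 ∉ B.W0), Y a p h ≤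
      Ex G M I * B.K * (2 * qq * Z ^ 3) := by
    intro h hh
    refine (exp2_aux hN hB hE σf hσ L B.W0 B.H0 B.c0 (𝔄 h) h (B.c0 h) I _
      (fun a p hp _ => hwf h a p hp) (fun f hf => ⟨hB.edge f hf, hB.sub f hf, hB.time f hf⟩)
      subset_rfl subset_rfl (fun _ _ => rfl) hh rfl (by simp) (by simp) hI hD
      fun T hT => hT).trans ?_
    rw [sdiff_self, bot_eq_empty, prod_empty, mul_one]
    refine mul_le_mul_of_nonneg_left ?_ (mul_nonneg hEI hB.K_nn)
    have huM : B.c0 h ≤ M := (hB.time h hh).trans hB.top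
    have h3 := hN.g1_le huM
    have h4 : qq * Z ^ 2 * Phi D M pt η (B.c0 h) ^ 2 / D ≤ qq * Z ^ 3 := by
      rw [div_le_iff₀ (by linarith)]
      calc qq * Z ^ 2 * Phi D M pt η (B.c0 h) ^ 2 ≤ qq * Z ^ 2 * (Z * D) :=
            mul_le_mul_of_nonneg_left (hN.Phi_sq_le huM) (by positivity)
        _ = _ := by ring
    have h5 : qq * 1 ≤ qq * Z ^ 3 := mul_le_mul_of_nonneg_left (one_le_pow₀ (by linarith)) hq
    linarith
  refine (sum_le_sum fun a _ => sum_le_sum (h1 a)).trans ?_
  rw [sum_congr rfl fun a _ => by rw [← sum_filter, filter_filter, sum_comm], sum_comm]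
  refine (sum_le_sum h2).trans ?_
  rw [sum_const, nsmul_eq_mul]
  have h6 : (B.H0.card : ℝ) ≤ Z := by
    have h3 : (0 : ℝ) ≤ L := by positivity
    linarith [hB.H_Z]
  have hK := hB.K_nn
  calc (B.H0.card : ℝ) * (Ex G M I * B.K * (2 * qq * Z ^ 3))
      ≤ Z * (Ex G M I * B.K * (2 * qq * Z ^ 3)) := by gcongr
    _ = _ := by ring

end Crest.Agent.R030
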