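import Crest.Agent.R030.G1Defs

/-! # Row 30: the first particle, pointwise expansion and the fuel term -/

set_option autoImplicit false
set_option linter.unusedSectionVars false

namespace Crest.Agent.R030
open Finset
open scoped Classical

variable {V : Type} [Fintype V] [DecidableEq V] {G : SimpleGraph V} {M : ℕ}
variable {pt : ℕ → ℝ} {D qq η Z : ℝ} {L : ℕ} {B : Base V}

theorem gam1a_not_mem {S : S1 V} {d : ℕ} (hS : S.OK G B L d) {q : V} (hqW : q ∉ S.W) (y : V) :
    ({y, q} : Finset V) ∉ S.H := fun hh => hqW ((hS.edge _ hh).2.1 (by simp))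

/-- the unmarked roots after a step -/
theorem gam1a_rest {S : S1 V} {d : ℕ} (hS : S.OK G B L d) (σ : Thr V) (e : Finset V) (w : V)
    {q : V} (hqW : q ∉ S.W) (t : ℕ) (x : V) (j : Bool) (ω : Om V M) :
    (S.step q t x).Rest G σ e w j ω =
      (∏ y ∈ S.h.erase x, if sel x y then
          alive G {y, q} t (canF G σ (fun _ => ovT e w 1 j) (insert q S.W) {y, q}) ∅ ω
        else alive G {y, q} t (canF G σ (fun _ => ovT e w 0 j) (insert q S.W) {y, q}) ∅ ω)
      * (alive G S.h (S.c S.h) (mixA (canF G σ (fun _ => ovT e w 1 j) S.W S.h)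
          (canF G σ (fun _ => ovT e w 0 j) S.W S.h) q) (insert q ∅) ω * S.Rest G σ e w j ω) := by
  have hqh : q ∉ S.h := fun hh => hqW ((hS.edge _ hS.mark).2.1 hh)
  have hn := gam1a_not_mem hS hqW
  have hset : (S.step q t x).H.erase (S.step q t x).h =
      ((S.h.erase x).image fun y => ({y, q} : Finset V)) ∪ S.H := by
    ext f
    simp only [S1.step, mem_erase, mem_union, mem_image]
    constructor
    · rintro ⟨h1, h2 | ⟨y, hy, rfl⟩⟩
      · exact .inr h2
      · exact .inl ⟨y, ⟨fun e => h1 (by rw [e]), hy⟩, rfl⟩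
    · rintro (⟨y, ⟨hy, hy'⟩, rfl⟩ | h2)
      · exact ⟨fun e => hy (pair_inj_of_not_mem hqh hy' e), .inr ⟨y, hy', rfl⟩⟩
      · exact ⟨fun e => hn x (e ▸ h2), .inl h2⟩
  rw [S1.Rest, hset, prod_union, prod_image, ← mul_prod_erase _ _ hS.mark]
  · congr 1
    · refine prod_congr rfl fun y hy => ?_
      have hy' := (mem_erase.1 hy).2
      have h1 : ({y, q} : Finset V) ≠ S.h := fun e => hn y (e ▸ hS.mark)
      have h2 : (∃ y' ∈ S.h, ({y, q} : Finset V) = {y', q} ∧ sel x y') ↔ sel x y :=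
        ⟨fun ⟨y', _, e, hs⟩ => pair_inj_of_not_mem hqh hy' e ▸ hs, fun hs => ⟨y, hy', rfl, hs⟩⟩
      simp only [S1.step, if_neg h1, if_neg (hn y), h2]
      split_ifs <;> rfl
    · congr 1
      · simp only [S1.step, if_pos hS.mark, if_true, insert_empty_eq]
        congr 1
        funext q' ω'
        simp only [mixA]
        split_ifs <;> rfl
      · refine prod_congr rfl fun ρ hρ => ?_
        simp only [S1.step, if_neg (mem_erase.1 hρ).1, if_pos (mem_erase.1 hρ).2]
  · intro y hy y' _ e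
    exact pair_inj_of_not_mem hqh (mem_erase.1 (mem_coe.1 hy)).2 e
  · rw [disjoint_left]
    intro f hf
    obtain ⟨y, _, rfl⟩ := mem_image.1 hf
    exact hn y

/-- the contribution of the apex `q` -/
noncomputable def gam1aTerm (G : SimpleGraph V) (σ : Thr V) (e : Finset V) (w : V) (S : S1 V)
    (j : Bool) (q : V) (ω : Om V M) : ℝ :=
  (canF G σ (fun _ => ovT e w 1 j) S.W S.h q ω - canF G σ (fun _ => ovT e w 0 j) S.W S.h q ω)
    * (alive G S.h (S.c S.h) (mixA (canF G σ (fun _ => ovT e w 1 j) S.W S.h)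
        (canF G σ (fun _ => ovT e w 0 j) S.W S.h) q) (insert q ∅) ω * S.Rest G σ e w j ω)

theorem gam1a_Mix (S : S1 V) (σ : Thr V) (e : Finset V) (w : V) (ω : Om V M) :
    S.Mix G σ e w ω = -∑ q ∈ cn G S.h, act ω (insert q S.h) (S.c S.h) *
      (gam1aTerm G σ e w S false q ω - gam1aTerm G σ e w S true q ω) := by
  simp only [S1.Mix, S1.Dif, alive_sub, sdiff_empty, gam1aTerm, neg_mul, sum_mul]
  rw [neg_sub_neg, ← sum_sub_distrib, ← sum_neg_distrib]
  exact sum_congr rfl fun q _ => by ring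

theorem gam1a_step {S : S1 V} {d : ℕ} (hS : S.OK G B L d) (σ : Thr V) (e : Finset V) {w : V}
    (hwW : w ∉ S.W) {q : V} (hqW : q ∉ S.W) (hqw : q ≠ w) (ω : Om V M) :
    |gam1aTerm G σ e w S false q ω - gam1aTerm G σ e w S true q ω| ≤
      ∑ x ∈ S.h, |(S.step q (lab ω (insert q S.h)) x).Mix G σ e w ω| := by
  have ho : ∀ α j, ovT e w α j S.h q = none := fun α j => by
    unfold ovT
    rw [if_neg fun h => hqw h.2, if_neg]
    rintro ⟨-, hw', -⟩
    exact hwW ((hS.edge _ hS.mark).2.1 ((mem_insert.1 hw').resolve_left hqw.symm))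
  have hc : ∀ α j, canF G σ (fun _ => ovT e w α j) S.W S.h q ω = _ := fun α j =>
    can_of_none (ovf := fun _ => ovT e w α j) hqW (ho α j)
  by_cases hl : lab ω (insert q S.h) < σ S.h q
  · simp only [gam1aTerm, hc, if_pos hl, sub_self, zero_mul, abs_zero]
    exact sum_nonneg fun x _ => abs_nonneg _
  · refine le_trans (le_of_eq ?_) (abs_sum_le_sum_abs _ _)
    congr 1
    simp only [gam1aTerm, hc, if_neg hl, prod_sub_prod_sel, sum_mul, ← sum_sub_distrib]
    refine sum_congr rfl fun x _ => ?_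
    rw [S1.Mix, gam1a_rest hS σ e w hqW, gam1a_rest hS σ e w hqW]
    simp only [S1.Dif, S1.step, if_neg (gam1a_not_mem hS hqW x), mul_assoc]

/-- pointwise expansion of the mixed difference (uses `alive_sub`, `prod_sub_prod_sel`; apexes in `W`
vanish; the apex `w` contributes only if `S.h = e` by `can_ovT_of_mem`; nodes below the threshold have equal bits) -/
theorem S1.abs_Mix_le {S : S1 V} {d : ℕ} (hS : S.OK G B L d) (σ : Thr V) {e : Finset V} {w : V}
    (he : IsEdge G e) (hw : w ∈ cn G e) (hwW : w ∉ S.W) (ω : Om V M) :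
    |S.Mix G σ e w ω|
      ≤ (if S.h = e then act ω (insert w e) (S.c S.h)
            * |S.Full G σ w false ω - S.Full G σ w true ω| else 0)
        + ∑ q ∈ (cn G S.h \ S.W).erase w, ∑ t ∈ range (S.c S.h), ind ω (insert q S.h) t *
            ∑ x ∈ S.h, |(S.step q t x).Mix G σ e w ω| := by
  rw [gam1a_Mix, abs_neg]
  refine (abs_sum_le_sum_abs _ _).trans ?_
  simp only [abs_mul, abs_of_nonneg (act_nn _ _ _)]
  set f : V → ℝ := fun q => act ω (insert q S.h) (S.c S.h) *
    |gam1aTerm G σ e w S false q ω - gam1aTerm G σ e w S true q ω| with hf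
  have h1 : ∑ q ∈ cn G S.h, f q = ∑ q ∈ cn G S.h \ S.W, f q := by
    refine (sum_subset sdiff_subset fun q hq hq' => ?_).symm
    have hqW : q ∈ S.W := by
      by_contra hh
      exact hq' (mem_sdiff.2 ⟨hq, hh⟩)
    simp [hf, gam1aTerm, canF, can_of_mem hqW]
  have h2 : ∑ q ∈ cn G S.h \ S.W, f q ≤ f w + ∑ q ∈ (cn G S.h \ S.W).erase w, f q := by
    by_cases hh : w ∈ cn G S.h \ S.W
    · rw [add_sum_erase _ _ hh]
    · rw [erase_eq_of_notMem hh]
      exact le_add_of_nonneg_left (mul_nonneg (act_nn _ _ _) (abs_nonneg _))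
  refine h1.trans_le (h2.trans (add_le_add (le_of_eq ?_) (sum_le_sum fun q hq => ?_)))
  · split_ifs with hh
    · subst hh
      have hc : ∀ α j, canF G σ (fun _ => ovT S.h w α j) S.W S.h w ω = α := fun α j =>
        can_of_some hwW (by simp [ovT])
      have hm : ∀ j, mixA (canF (M := M) G σ (fun _ => ovT S.h w 1 j) S.W S.h)
          (canF G σ (fun _ => ovT S.h w 0 j) S.W S.h) w =
          fun q ω => can G σ (ovT S.h w (if sel w q then 1 else 0) j) ω S.W S.h q := fun j => by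
        funext q' ω'
        simp only [mixA]
        split_ifs <;> rfl
      simp only [hf, gam1aTerm, hc, hm, S1.Full, sub_zero, one_mul, insert_empty_eq]
    · have hc : ∀ j, canF G σ (fun _ => ovT e w 1 j) S.W S.h w ω =
          canF G σ (fun _ => ovT e w 0 j) S.W S.h w ω := fun j => by
        by_cases hX : j = true ∧ Xi e w (insert w S.h)
        · rw [canF, canF, can_of_some hwW (α := 0) (by simp [ovT, hh, hX]),
            can_of_some hwW (α := 0) (by simp [ovT, hh, hX])]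
        · rw [canF, canF, can_none hwW (by rw [ovT, if_neg fun h => hh h.1, if_neg hX]),
            can_none hwW (by rw [ovT, if_neg fun h => hh h.1, if_neg hX])]
          simp only [can_ovT_of_mem (mem_insert_self w S.W) 1 0]
      simp [hf, gam1aTerm, hc]
  · obtain ⟨hqw, hq⟩ := mem_erase.1 hq
    simp only [hf, act_eq_sum_ind, sum_mul]
    refine sum_le_sum fun t _ => ?_
    unfold ind
    split_ifs with ht
    · rw [one_mul, one_mul, ← ht]
      exact gam1a_step hS σ e hwW (mem_sdiff.1 hq).2 hqw ω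
    · simp

theorem S1.Mix_of_mem (S : S1 V) (σ : Thr V) (e : Finset V) {w : V} (hw : w ∈ S.W) (ω : Om V M) :
    S.Mix G σ e w ω = 0 := by
  have : ∀ j, canF (M := M) G σ (fun _ => ovT e w 1 j) S.W S.h =
      canF G σ (fun _ => ovT e w 0 j) S.W S.h := fun j =>
    funext fun q => funext fun ω => can_ovT_of_mem hw 1 0 j ω S.h q
  simp [S1.Mix, S1.Dif, this]

theorem gam1a_sub {S : S1 V} {d : ℕ} (hS : S.OK G B L d) {T : Finset V}
    (hT : T ⊆ B.W0 ∨ T ∈ S.J) : T ⊆ S.W := by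
  rcases hT with hT | hT
  · exact hT.trans hS.W0
  · intro x hx
    obtain ⟨y, hy, hyx⟩ := exists_mem_ne (by rw [hS.path.card3 T hT]; norm_num : 1 < T.card) x
    exact (hS.edge _ (hS.path.edges T hT x hx y hy hyx.symm)).2.1 (by simp)

theorem gam1a_rest_nn {S : S1 V} {d : ℕ} (hS : S.OK G B L d) (σ : Thr V) (e : Finset V) (w : V)
    (j : Bool) (ω : Om V M) : 0 ≤ S.Rest G σ e w j ω :=
  prod_nonneg fun ρ hρ => alive_nn (fun q ω => can_bd (ovBd_ovT e w
    ((hS.root ρ (mem_erase.1 hρ).2 (mem_erase.1 hρ).1).2.2.2.2.1 q).1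
    ((hS.root ρ (mem_erase.1 hρ).2 (mem_erase.1 hρ).1).2.2.2.2.1 q).2 j) ω _ _ q) _ _ _ _

theorem gam1a_one (hN : NumOK G M pt D qq η Z L)
    (hE : Ext G M B pt (8 * L + 10)) {S : S1 V} {d : ℕ} (hS : S.OK G B L d) (σ : Thr V)
    {e : Finset V} {w : V} {a : ℕ} (he : IsEdge G e) (hw : w ∈ cn G e) (hwW : w ∉ S.W) (ha : a < M)
    {I : Om V M → ℝ} {𝒮 : Set (Finset V)} (hI : ∀ ω, 0 ≤ I ω)
    (hD : DepTri I 𝒮) (h𝒮 : ∀ T ∈ 𝒮, T ⊆ B.W0 ∨ T ∈ S.J) {α : ℝ} (h0 : 0 ≤ α) (h1 : α ≤ 1)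
    (j : Bool) :
    Ex G M (fun ω => I ω * ind ω (insert w e) a *
        (alive G S.h (S.c S.h) (canF G σ (fun _ => ovT e w α j) S.W S.h) ∅ ω * S.Rest G σ e w j ω))
      ≤ Ex G M I / M * (B.K * ∏ f ∈ S.H \ B.H0, pt (S.c f)) := by
  let P : Pat V M := ⟨S.W ∪ insert w e, S.H, S.c, fun ρ =>
    if ρ = S.h then canF G σ (fun _ => ovT e w α j) S.W S.h
    else fun q ω => can G σ (ovT e w (S.al ρ q) j) ω (S.Wr ρ) ρ q⟩
  have hwe := not_mem_of_mem_cn hw
  have hP : P.WFx G σ B.ctop ∅ ∅ := by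
    refine ⟨fun ρ hρ => (hS.edge ρ hρ).1, fun ρ hρ => (hS.edge ρ hρ).2.1.trans subset_union_left,
      fun ρ hρ => (hS.edge ρ hρ).2.2, fun ρ hρ _ => ?_⟩
    have hj : j = true → ¬ (ρ ⊆ insert w e ∧ w ∈ ρ) := fun _ h => hwW ((hS.edge ρ hρ).2.1 h.2)
    simp only [P, union_empty]
    split_ifs with hh
    · subst hh
      exact val_canF_ovT (α := fun _ => α) he hwe (fun _ => h0) (fun _ => h1) subset_union_left
        subset_union_right (hS.edge _ hρ).1 hj
    · obtain ⟨-, -, h3, -, h5, -⟩ := hS.root ρ hρ hh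
      exact val_can_ovT_al he hwe (fun q => (h5 q).1) (fun q => (h5 q).2)
        (h3.trans subset_union_left) subset_union_right (hS.edge _ hρ).1 hj
  have hT : insert w e ∉ 𝒮 := fun hh => hwW (gam1a_sub hS (h𝒮 _ hh) (by simp))
  have hcW : (P.W \ B.W0).card ≤ 8 * L + 10 := by
    have h2 : P.W \ B.W0 ⊆ (S.W \ B.W0) ∪ insert w e := fun x hx => by
      simp only [P, mem_sdiff, mem_union] at hx ⊢
      tauto
    have h3 := (card_le_card h2).trans (card_union_le _ _)
    rw [card_insert_cn he hw] at h3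
    have := hS.cardW
    omega
  have := hE σ P hP ⟨hS.W0.trans subset_union_left, hS.H0, hS.c0⟩
    (fun hh => hwW (hS.W0 (hh ▸ (by simp [P] : w ∈ P.W)))) hcW
    (by have := hS.cardH; simp only [P]; omega) (fun ω => I ω * ind ω (insert w e) a)
    (fun ω => mul_nonneg (hI ω) (ind_nn _ _ _))
    ((hD.mul (depTri_ind _ a)).mono (by
      rintro T (hT | rfl)
      · exact (gam1a_sub hS (h𝒮 T hT)).trans subset_union_left
      · exact subset_union_right))
  rw [Ex_mul_ind hD hT ha] at this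
  refine le_trans (Ex_mono hN.Mpos fun ω => mul_le_mul_of_nonneg_left ?_
    (mul_nonneg (hI ω) (ind_nn _ _ _))) this
  rw [Pat.Fx, sdiff_empty, ← mul_prod_erase _ _ hS.mark]
  have hb := canF_bd (G := G) (σ := σ) (M := M) (ovf := fun _ => ovT e w α j)
    (fun _ => ovBd_ovT e w h0 h1 j) S.W S.h
  refine mul_le_mul ?_ ?_ (gam1a_rest_nn hS σ e w j ω) (alive_nn (hP.val _ hS.mark (by simp)).bd _ _ _ _)
  · simp only [P, if_true]
    exact alive_mono_skip hb _ _ (empty_subset _) ω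
  · refine prod_le_prod (fun ρ hρ => ?_) fun ρ hρ => ?_
    all_goals
      obtain ⟨hρ1, hρ2⟩ := mem_erase.1 hρ
      obtain ⟨-, -, -, h4, h5, -⟩ := hS.root ρ hρ2 hρ1
      have hb' : Bd fun q (ω : Om V M) => can G σ (ovT e w (S.al ρ q) j) ω (S.Wr ρ) ρ q :=
        fun q ω => can_bd (ovBd_ovT e w (h5 q).1 (h5 q).2 j) ω _ _ q
    · exact alive_nn hb' _ _ _ _
    · simp only [P, if_neg hρ1]
      exact alive_mono_skip hb' _ _ (h4.trans subset_union_left) ω

/-- fuel exhausted: four terms, each bounded through `Ext` with `W ∪ insert w e` -/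
theorem gam1_zero (hN : NumOK G M pt D qq η Z L) (hB : BaseOK G M B Z L)
    (hE : Ext G M B pt (8 * L + 10)) {S : S1 V} {d : ℕ} (hS : S.OK G B L d) (σ : Thr V)
    {e : Finset V} {w : V} {a : ℕ} (he : IsEdge G e) (hw : w ∈ cn G e) (ha : a < M)
    {I : Om V M → ℝ} {𝒮 : Set (Finset V)} (hI : ∀ ω, 0 ≤ I ω)
    (hD : DepTri I 𝒮) (h𝒮 : ∀ T ∈ 𝒮, T ⊆ B.W0 ∨ T ∈ S.J) :
    Ex G M (fun ω => I ω * (ind ω (insert w e) a * ((XX G e w a ω + mu G M a e w)
        * |S.Mix G σ e w ω|)))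
      ≤ Ex G M I * (B.K * ∏ f ∈ S.H \ B.H0, pt (S.c f)) * (8 / M) := by
  have hM := hN.Mpos'
  by_cases hwW : w ∈ S.W
  · simp only [S.Mix_of_mem σ e hwW, abs_zero, mul_zero, Ex_const hN.Mpos]
    have := Ex_nn (G := G) hN.Mpos hI
    have := hB.K_nn
    have : 0 ≤ ∏ f ∈ S.H \ B.H0, pt (S.c f) := prod_nonneg fun f _ => hN.pt_nn _
    positivity
  have key := fun α h0 h1 j => gam1a_one hN hE hS σ he hw hwW ha hI hD h𝒮 (α := α) h0 h1 j
  have h1 := key 1 zero_le_one le_rfl false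
  have h2 := key 0 le_rfl zero_le_one false
  have h3 := key 1 zero_le_one le_rfl true
  have h4 := key 0 le_rfl zero_le_one true
  have h5 := add_le_add (add_le_add h1 h2) (add_le_add h3 h4)
  rw [← Ex_add, ← Ex_add, ← Ex_add] at h5
  have h6 := mul_le_mul_of_nonneg_left h5 zero_le_two
  rw [← Ex_const_mul] at h6
  refine le_trans (Ex_mono hN.Mpos fun ω => ?_) (h6.trans_eq (by ring))
  have hb : ∀ α, 0 ≤ α → α ≤ 1 → ∀ j, 0 ≤ alive G S.h (S.c S.h)
      (canF G σ (fun _ => ovT e w α j) S.W S.h) ∅ ω * S.Rest G σ e w j ω := fun α h0 h1 j =>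
    mul_nonneg (alive_nn (canF_bd (fun _ => ovBd_ovT e w h0 h1 j) _ _) _ _ _ _)
      (gam1a_rest_nn hS σ e w j ω)
  have b1 := hb 1 zero_le_one le_rfl false
  have b2 := hb 0 le_rfl zero_le_one false
  have b3 := hb 1 zero_le_one le_rfl true
  have b4 := hb 0 le_rfl zero_le_one true
  have hX : XX G e w a ω + mu G M a e w ≤ 2 := by
    have := mu_le_one (G := G) ha.le e w
    rcases XX_cases (G := G) e w a ω with h | h <;> linarith
  have hm : ∀ x y z u : ℝ, 0 ≤ x → 0 ≤ y → 0 ≤ z → 0 ≤ u → |x - y - (z - u)| ≤ x + y + (z + u) :=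
    fun x y z u _ _ _ _ => abs_le.2 ⟨by linarith, by linarith⟩
  have hI' := mul_nonneg (hI ω) (ind_nn ω (insert w e) a)
  have := mul_le_mul_of_nonneg_left (mul_le_mul hX (hm _ _ _ _ b1 b2 b3 b4) (abs_nonneg _)
    zero_le_two) hI'
  rw [S1.Mix, S1.Dif, S1.Dif, sub_mul, sub_mul]
  linarith

end Crest.Agent.R030
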