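import Crest.Agent.R030.G2Num

/-! # Row 30: the second particle

`gam2`: strong induction on `#(univ \ W2)` (`card_compl_insert_lt`).
* `d = 0`: `|x-y| ≤ x+y`, `Pat.close` (`Y = ∅`), `Term` twice, `U2_zero`.
* `d+1`: `abs_alive_sub_le` (apexes in `W2` have value 0 on both sides), `act = ∑ ind`, bound the term of
  `(q,t)` by `term2 … q t` and finish with `U2_step`.  The node `(h,q) = (e,w)` has value `al q` on both sides.
  `Xi` node: right value `0` (`can_ovT_true_Xi`), left value is the bit (`t < σ`; `Pat.close` with `Y = {q}`,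
  `Ex_mul_ind_bit`, `mu ≤ pt²`) or the product over the free edges (`Pat.step_Fx_all`); then `Term` (the
  triangle contains exactly one of the two free edges of `insert w e`).  Other nodes: same bit if `t < σ`, else
  `t ≥ a`, telescope over `x ∈ h` (`prod_sub_prod_sel`), `Pat.step_Fx`, induction hypothesis with
  `own := {x,q} ∉ P.H`, `al := fun _ => al q`, `Sk := ∅`, `st := False`.  If `insert q h ∈ J` keep `I` (on `I ≠ 0` the label
  is `s (insert q h)`), else use `I * ind` (`Ex_mul_ind`).  For `q ∉ W2`: `{x,q} ∈ P.H ↔ {x,q} ∈ H1`.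
-/

set_option autoImplicit false
set_option linter.unusedSectionVars false

namespace Crest.Agent.R030
open Finset
open scoped Classical

variable {V : Type} [Fintype V] [DecidableEq V] {G : SimpleGraph V} {M : ℕ}
variable {pt : ℕ → ℝ} {D qq η Z : ℝ} {L : ℕ} {B : Base V}

/-- `XX ≤ alive {x,w} a (canF noOv P.W) P.W` (`alive_can_ideal`): add the root `{x,w}` at time `a` -/
theorem term_XX (hN : NumOK G M pt D qq η Z L) (hB : BaseOK G M B Z L) {cap : ℕ}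
    (hE : Ext G M B pt cap) {σ : Thr V} {e : Finset V} {w : V} {a : ℕ} (he : IsEdge G e)
    (hw : w ∈ cn G e) (hwW : w ∉ B.W0) (ha : a ≤ B.ctop) (hσ : ∀ p ∈ Tg G, a ≤ σ p.1 p.2) :
    Term G M B pt cap σ e w a (XX G e w a) := by
  intro P I hP hle hT hcW hcH hx hI hD
  obtain ⟨x, hxe, hxH⟩ := hx
  have hwP : w ∈ P.W := hT (mem_insert_self _ _)
  have hxP : x ∈ P.W := hT (mem_insert_of_mem hxe)
  have hxw : IsEdge G {x, w} := isEdge_free hw hxe
  let C : V → Om V M → ℝ := canF G σ (fun _ => noOv) P.W {x, w}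
  let P' : Pat V M :=
    { W := P.W
      H := insert {x, w} P.H
      c := fun f => if f = {x, w} then a else P.c f
      A := fun f => if f = {x, w} then C else P.A f }
  have hP' : P'.WFx G σ B.ctop ∅ ∅ := by
    refine ⟨?_, ?_, ?_, ?_⟩
    · intro f hf
      rcases mem_insert.1 hf with rfl | hf
      · exact hxw
      · exact hP.edge f hf
    · intro f hf
      rcases mem_insert.1 hf with rfl | hf
      · exact insert_subset hxP (singleton_subset_iff.2 hwP)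
      · exact hP.sub f hf
    · intro f hf
      by_cases hfe : f = {x, w}
      · simp only [P', if_pos hfe]; exact ha
      · simp only [P', if_neg hfe]
        exact hP.time f ((mem_insert.1 hf).resolve_left hfe)
    · intro f hf hf'
      by_cases hfe : f = {x, w}
      · simp only [P', if_pos hfe]
        rw [hfe]
        exact val_canF_noOv subset_union_left hxw
      · simp only [P', if_neg hfe]
        exact hP.val f ((mem_insert.1 hf).resolve_left hfe) hf'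
  have hle' : B.Le P' := by
    refine ⟨hle.W, hle.H.trans (subset_insert _ _), fun f hf => ?_⟩
    have hfe : f ≠ {x, w} := fun hh => hxH (hh ▸ hle.H hf)
    simp only [P', if_neg hfe]
    exact hle.c f hf
  have hH0 : ({x, w} : Finset V) ∉ B.H0 := fun hh => hxH (hle.H hh)
  have hsd : P'.H \ B.H0 = insert {x, w} (P.H \ B.H0) := insert_sdiff_of_notMem _ hH0
  have hnm : ({x, w} : Finset V) ∉ P.H \ B.H0 := fun hh => hxH (mem_sdiff.1 hh).1
  have hwgt : B.wgt pt P' = pt a * B.wgt pt P := by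
    unfold Base.wgt
    rw [hsd, prod_insert hnm]
    have : ∏ f ∈ P.H \ B.H0, pt (P'.c f) = ∏ f ∈ P.H \ B.H0, pt (P.c f) := by
      refine prod_congr rfl fun f hf => ?_
      have hfe : f ≠ {x, w} := fun hh => hnm (hh ▸ hf)
      simp only [P', if_neg hfe]
    rw [this]
    simp only [P', if_true]
    ring
  have hFx : ∀ ω, P'.Fx G ∅ ω = alive G {x, w} a C P.W ω * P.Fx G ∅ ω := by
    intro ω
    unfold Pat.Fx
    rw [sdiff_empty, sdiff_empty]
    change ∏ f ∈ insert {x, w} P.H, alive G f (P'.c f) (P'.A f) P.W ω = _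
    rw [prod_insert hxH]
    congr 1
    · simp only [P', if_true]
    · refine prod_congr rfl fun f hf => ?_
      have hfe : f ≠ {x, w} := fun hh => hxH (hh ▸ hf)
      simp only [P', if_neg hfe]
  have hfac0 : ∀ (ω : Om V M) (f : Finset V) (q : V),
      0 ≤ 1 - act ω (insert q f) a * bit ω f q := fun ω f q => by
    have := mul_le_one₀ (act_le_one ω (insert q f) a) (bit_nn ω f q) (bit_le_one ω f q)
    linarith
  have hfac1 : ∀ (ω : Om V M) (f : Finset V) (q : V),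
      1 - act ω (insert q f) a * bit ω f q ≤ 1 := fun ω f q => by
    have := mul_nonneg (act_nn ω (insert q f) a) (bit_nn ω f q)
    linarith
  have hXX : ∀ ω, XX G e w a ω ≤ alive G {x, w} a C P.W ω := by
    intro ω
    refine le_trans ?_ (alive_mono_skip (canF_bd (fun _ => ovBd_noOv) _ _) _ _ (empty_subset _) ω)
    rw [alive_can_ideal hxw hσ]
    unfold XX
    rw [← mul_prod_erase _ _ hxe]
    refine le_trans (mul_le_of_le_one_right (prod_nonneg fun q _ => hfac0 ω _ q)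
      (prod_le_one (fun y _ => prod_nonneg fun q _ => hfac0 ω _ q)
        fun y _ => prod_le_one (fun q _ => hfac0 ω _ q) fun q _ => hfac1 ω _ q)) ?_
    refine prod_le_prod_of_subset_of_le_one ?_ (fun q _ => hfac0 ω _ q) fun q _ _ => hfac1 ω _ q
    intro q hq
    rw [mem_sdiff] at hq
    refine mem_filter.2 ⟨hq.1, fun hh => hq.2 (hT ?_)⟩
    rw [← hh]; exact mem_insert_self _ _
  have key := hE σ P' hP' hle' (fun hh => hwW (hh ▸ hwP)) hcW
    (by rw [hsd, card_insert_of_notMem hnm]; exact hcH) I hI hD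
  calc Ex G M (fun ω => XX G e w a ω * (I ω * P.Fx G ∅ ω))
      ≤ Ex G M (fun ω => I ω * P'.Fx G ∅ ω) := by
        refine Ex_mono hN.Mpos fun ω => ?_
        rw [hFx]
        have h1 := mul_le_mul_of_nonneg_right (hXX ω) (mul_nonneg (hI ω) (hP.Fx_nn ω))
        linarith
    _ ≤ Ex G M I * B.wgt pt P' := key
    _ = pt a * (Ex G M I * B.wgt pt P) := by rw [hwgt]; ring

theorem term_mu (hN : NumOK G M pt D qq η Z L) (hB : BaseOK G M B Z L) {cap : ℕ}
    (hE : Ext G M B pt cap) {σ : Thr V} {e : Finset V} {w : V} {a : ℕ} (he : IsEdge G e)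
    (hw : w ∈ cn G e) (hwW : w ∉ B.W0) (ha : a < M) :
    Term G M B pt cap σ e w a (fun _ => mu G M a e w) := by
  intro P I hP hle hT hcW hcH _ hI hD
  have hwP : w ∈ P.W := hT (mem_insert_self _ _)
  have key := hE σ P hP hle (fun hh => hwW (hh ▸ hwP)) hcW (by omega) I hI hD
  rw [Ex_const_mul]
  exact mul_le_mul (hN.mu_le' ha he hw) key
    (Ex_nn hN.Mpos fun ω => mul_nonneg (hI ω) (hP.Fx_nn ω)) (hN.pt_nn a)

/-- the hypotheses of `gam2` on the state -/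
structure G2H (G : SimpleGraph V) (B : Base V) (L : ℕ) (𝒟 : D2 V) (σ : Thr V)
    (d : ℕ) (h W2 Sk : Finset V) (st : Prop) (u : ℕ) (al : V → ℝ) (P : Pat V M) (own : Prop)
    (I : Om V M → ℝ) (𝒮 : Set (Finset V)) : Prop where
  hS : St2OK G 𝒟 h W2 Sk st
  hal : ∀ q, 0 ≤ al q ∧ al q ≤ 1
  hP : P.WFx G σ B.ctop (drp own h) ∅
  hle : B.Le P
  hown : own → h ∈ P.H ∧ P.c h = u
  hu : u ≤ B.ctop
  hO : 𝒟.O ⊆ P.W
  hW2 : W2 ⊆ P.W
  hSk : Sk ⊆ P.W
  hH1 : 𝒟.H1 ⊆ P.H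
  hHo : ∀ f ∈ P.H, f ∉ 𝒟.H1 → f ⊆ W2 ∧ ¬ (f ⊆ insert 𝒟.w 𝒟.e ∧ 𝒟.w ∈ f)
  hcW : (P.W \ B.W0).card + d ≤ 2 * L + 1
  hcH : (P.H \ B.H0).card + 2 * (d + (𝒟.O \ W2).card) + 3 ≤ 8 * L + 10
  hI : ∀ ω, 0 ≤ I ω
  hD : DepTri I 𝒮
  h𝒮 : ∀ T ∈ 𝒮, T ⊆ W2 ∨ T ∈ 𝒟.J ∨ T = insert 𝒟.w 𝒟.e
  hJ : ∀ ω, I ω ≠ 0 → ∀ T ∈ 𝒟.J, lab ω T = 𝒟.s T

/-- the family at the root of the second particle -/
noncomputable abbrev g2A (G : SimpleGraph V) (σ : Thr V) (𝒟 : D2 V) (al : V → ℝ) (j : Bool)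
    (W2 h : Finset V) : V → Om V M → ℝ :=
  fun q ω => can G σ (ovT 𝒟.e 𝒟.w (al q) j) ω W2 h q

/-- the family below a node -/
noncomputable abbrev g2F (G : SimpleGraph V) (σ : Thr V) (𝒟 : D2 V) (α : ℝ) (j : Bool)
    (W : Finset V) : Finset V → V → Om V M → ℝ :=
  canF G σ (fun _ => ovT 𝒟.e 𝒟.w α j) W

section aux
variable {𝒟 : D2 V} {σ : Thr V} {d : ℕ} {h W2 Sk : Finset V} {st : Prop} {u : ℕ} {al : V → ℝ}
  {P : Pat V M} {own : Prop} {I : Om V M → ℝ} {𝒮 : Set (Finset V)} {Pre : Om V M → ℝ}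

theorem g2_J_edge (h𝒟 : 𝒟.OK G L) {T : Finset V} (hT : T ∈ 𝒟.J) {x : V} (hx : x ∈ T) :
    ∃ y, ({x, y} : Finset V) ∈ 𝒟.H1 := by
  obtain ⟨y, hy, hyx⟩ := exists_mem_ne (s := T) (by rw [h𝒟.path.card3 T hT]; norm_num) x
  exact ⟨y, h𝒟.path.edges T hT x hx y hy hyx.symm⟩

theorem g2_J_sub (h𝒟 : 𝒟.OK G L) {T : Finset V} (hT : T ∈ 𝒟.J) : T ⊆ 𝒟.O := by
  intro x hx
  obtain ⟨y, hy⟩ := g2_J_edge h𝒟 hT hx
  exact (h𝒟.H1e _ hy).2.1 (mem_insert_self _ _)

theorem g2_J_w (h𝒟 : 𝒟.OK G L) {T : Finset V} (hT : T ∈ 𝒟.J) : 𝒟.w ∉ T := by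
  intro hx
  obtain ⟨y, hy⟩ := g2_J_edge h𝒟 hT hx
  exact (h𝒟.H1e _ hy).2.2 (mem_insert_self _ _)

theorem G2H.TP (H : G2H G B L 𝒟 σ d h W2 Sk st u al P own I 𝒮) (h𝒟 : 𝒟.OK G L) :
    insert 𝒟.w 𝒟.e ⊆ P.W := h𝒟.TO.trans H.hO

theorem G2H.hW (H : G2H G B L 𝒟 σ d h W2 Sk st u al P own I 𝒮) : h ⊆ P.W := H.hS.sub.trans H.hW2

theorem G2H.free (H : G2H G B L 𝒟 σ d h W2 Sk st u al P own I 𝒮) (h𝒟 : 𝒟.OK G L) {x : V}
    (hx : x ∈ 𝒟.e) : ({x, 𝒟.w} : Finset V) ∉ P.H := by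
  intro hh
  by_cases h1 : ({x, 𝒟.w} : Finset V) ∈ 𝒟.H1
  · exact (h𝒟.H1e _ h1).2.2 (by simp)
  · refine (H.hHo _ hh h1).2 ⟨?_, by simp⟩
    exact insert_subset (mem_insert_of_mem hx) (singleton_subset_iff.2 (mem_insert_self _ _))

theorem G2H.exfree (H : G2H G B L 𝒟 σ d h W2 Sk st u al P own I 𝒮) (h𝒟 : 𝒟.OK G L) :
    ∃ x ∈ 𝒟.e, ({x, 𝒟.w} : Finset V) ∉ P.H := by
  obtain ⟨x, hx⟩ : 𝒟.e.Nonempty := card_pos.1 (by rw [h𝒟.he.card]; norm_num)
  exact ⟨x, hx, H.free h𝒟 hx⟩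

theorem G2H.dep (H : G2H G B L 𝒟 σ d h W2 Sk st u al P own I 𝒮) (h𝒟 : 𝒟.OK G L) {W' : Finset V}
    (hW' : P.W ⊆ W') : DepTri I {T | T ⊆ W'} := by
  refine H.hD.mono fun T hT => ?_
  rcases H.h𝒮 T hT with h1 | h1 | h1
  · exact h1.trans (H.hW2.trans hW')
  · exact (g2_J_sub h𝒟 h1).trans (H.hO.trans hW')
  · rw [h1]; exact (H.TP h𝒟).trans hW'

theorem G2H.valA (H : G2H G B L 𝒟 σ d h W2 Sk st u al P own I 𝒮) (h𝒟 : 𝒟.OK G L) {W' : Finset V}
    (hW' : P.W ⊆ W') (j : Bool) : Val G σ W' h (g2A (M := M) G σ 𝒟 al j W2 h) :=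
  val_can_ovT_al h𝒟.he (not_mem_of_mem_cn h𝒟.hw) (fun q => (H.hal q).1) (fun q => (H.hal q).2) (H.hW2.trans hW')
    ((H.TP h𝒟).trans hW') H.hS.edge (fun _ => H.hS.nf)

theorem G2H.bdA (H : G2H G B L 𝒟 σ d h W2 Sk st u al P own I 𝒮) (h𝒟 : 𝒟.OK G L) (j : Bool) :
    Bd (g2A (M := M) G σ 𝒟 al j W2 h) := (H.valA h𝒟 subset_rfl j).bd

theorem G2H.bdF (H : G2H G B L 𝒟 σ d h W2 Sk st u al P own I 𝒮) (q : V) (j : Bool)
    (W f : Finset V) : Bd (g2F (M := M) G σ 𝒟 (al q) j W f) :=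
  canF_bd (fun _ => ovBd_ovT _ _ (H.hal q).1 (H.hal q).2 j) _ _

theorem G2H.nnew_eq (H : G2H G B L 𝒟 σ d h W2 Sk st u al P own I 𝒮) {q : V} (hq : q ∉ W2) :
    (h.filter fun x => ({x, q} : Finset V) ∉ P.H).card = nnew 𝒟 h q := by
  unfold nnew
  congr 1
  refine filter_congr fun x _ => not_congr ⟨fun hh => ?_, fun hh => H.hH1 hh⟩
  by_contra h1
  exact hq ((H.hHo _ hh h1).1 (by simp))

theorem G2H.c_nn (hN : NumOK G M pt D qq η Z L) (hB : BaseOK G M B Z L)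
    (H : G2H G B L 𝒟 σ d h W2 Sk st u al P own I 𝒮) :
    0 ≤ pt 𝒟.a * (Ex G M I * B.wgt pt P) :=
  mul_nonneg (hN.pt_nn _) (mul_nonneg (Ex_nn hN.Mpos H.hI) (Base.wgt_nn hB.K_nn hN.pt_nn P))

/-- `Term` after closing the root -/
theorem G2H.term_close (hN : NumOK G M pt D qq η Z L) (h𝒟 : 𝒟.OK G L) (hPre : ∀ ω, 0 ≤ Pre ω)
    (hT : Term G M B pt (8 * L + 10) σ 𝒟.e 𝒟.w 𝒟.a Pre)
    (H : G2H G B L 𝒟 σ d h W2 Sk st u al P own I 𝒮) {C : V → Om V M → ℝ} {Y S : Finset V}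
    (hC : Val G σ (P.W ∪ Y) h C) (hY : Y.card ≤ 1) (hS : S ⊆ P.W ∪ Y) {I' : Om V M → ℝ}
    (hI' : ∀ ω, 0 ≤ I' ω) (hD' : DepTri I' {T | T ⊆ P.W ∪ Y}) :
    Ex G M (fun ω => Pre ω * (I' ω * (alive G h u C S ω * P.Fx G (drp own h) ω)))
      ≤ pt 𝒟.a * (Ex G M I' * B.wgt pt P) := by
  have hcW := H.hcW
  have hcH := H.hcH
  have key := hT (P.close h own C Y) I' (Pat.close_wf H.hP (empty_subset _) fun _ => hC)
    (Pat.close_le H.hle C Y) ((H.TP h𝒟).trans subset_union_left)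
    (by
      change ((P.W ∪ Y) \ B.W0).card ≤ _
      rw [union_sdiff_distrib]
      have h1 := card_union_le (P.W \ B.W0) (Y \ B.W0)
      have h2 : (Y \ B.W0).card ≤ Y.card := card_le_card sdiff_subset
      omega)
    (by change (P.H \ B.H0).card + 1 ≤ _; omega) (H.exfree h𝒟) hI' hD'
  rw [Pat.close_wgt] at key
  refine le_trans (Ex_mono hN.Mpos fun ω => ?_) key
  exact mul_le_mul_of_nonneg_left (mul_le_mul_of_nonneg_left
    (Pat.close_Fx H.hP H.hown hC.bd hS ω) (hI' ω)) (hPre ω)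

/-- no fuel -/
theorem g2_zero (hN : NumOK G M pt D qq η Z L) (hB : BaseOK G M B Z L) (h𝒟 : 𝒟.OK G L)
    (hPre : ∀ ω, 0 ≤ Pre ω) (hT : Term G M B pt (8 * L + 10) σ 𝒟.e 𝒟.w 𝒟.a Pre)
    (H : G2H G B L 𝒟 σ 0 h W2 Sk st u al P own I 𝒮) :
    Ex G M (fun ω => Pre ω * (I ω *
        (|alive G h u (g2A G σ 𝒟 al false W2 h) Sk ω - alive G h u (g2A G σ 𝒟 al true W2 h) Sk ω|
          * P.Fx G (drp own h) ω)))
      ≤ pt 𝒟.a * (Ex G M I * B.wgt pt P) * U2 G M pt D qq η Z 𝒟 0 h W2 Sk st u := by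
  have key := fun j => H.term_close hN h𝒟 hPre hT (Y := ∅) (S := Sk)
    (H.valA h𝒟 subset_union_left j) (by simp) (H.hSk.trans subset_union_left) H.hI
    (H.dep h𝒟 subset_union_left)
  have hc := H.c_nn hN hB
  have hU := U2_zero (𝒟 := 𝒟) hN h W2 Sk st u
  calc _ ≤ Ex G M (fun ω =>
        Pre ω * (I ω * (alive G h u (g2A G σ 𝒟 al false W2 h) Sk ω * P.Fx G (drp own h) ω)) +
        Pre ω * (I ω * (alive G h u (g2A G σ 𝒟 al true W2 h) Sk ω * P.Fx G (drp own h) ω))) := by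
        refine Ex_mono hN.Mpos fun ω => ?_
        rw [← mul_add, ← mul_add, ← add_mul]
        refine mul_le_mul_of_nonneg_left (mul_le_mul_of_nonneg_left
          (mul_le_mul_of_nonneg_right ?_ (H.hP.Fx_nn ω)) (H.hI ω)) (hPre ω)
        have h1 := alive_nn (G := G) (H.bdA h𝒟 false) h u Sk ω
        have h2 := alive_nn (G := G) (H.bdA h𝒟 true) h u Sk ω
        rw [abs_le]
        constructor <;> linarith
    _ ≤ pt 𝒟.a * (Ex G M I * B.wgt pt P) * 2 := by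
        rw [Ex_add]
        linarith [key false, key true]
    _ ≤ _ := mul_le_mul_of_nonneg_left hU hc

theorem g2_ind_cases (ω : Om V M) (T : Finset V) (t : ℕ) :
    (lab ω T = t ∧ ind ω T t = 1) ∨ (lab ω T ≠ t ∧ ind ω T t = 0) := by
  unfold ind
  by_cases hl : lab ω T = t
  · exact Or.inl ⟨hl, if_pos hl⟩
  · exact Or.inr ⟨hl, if_neg hl⟩

theorem g2_A_none {q : V} (hq : q ∉ W2) {j : Bool} (ho : ovT 𝒟.e 𝒟.w (al q) j h q = none)
    (ω : Om V M) :
    g2A G σ 𝒟 al j W2 h q ω = if lab ω (insert q h) < σ h q then bit ω h q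
      else ∏ x ∈ h, alive G {x, q} (lab ω (insert q h))
        (g2F G σ 𝒟 (al q) j (insert q W2) {x, q}) ∅ ω :=
  can_of_none (ovf := fun _ => ovT 𝒟.e 𝒟.w (al q) j) hq ho

/-- a completion: the triangle of the node is in `Xi e w` -/
theorem g2_xi (hN : NumOK G M pt D qq η Z L) (hB : BaseOK G M B Z L) (h𝒟 : 𝒟.OK G L)
    (hPre : ∀ ω, 0 ≤ Pre ω) (hT : Term G M B pt (8 * L + 10) σ 𝒟.e 𝒟.w 𝒟.a Pre)
    (H : G2H G B L 𝒟 σ (d + 1) h W2 Sk st u al P own I 𝒮) {q : V} (hq : q ∈ cn G h)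
    (hqW : q ∉ W2) {t : ℕ} (ht : t < u) (hne : ¬ (h = 𝒟.e ∧ q = 𝒟.w))
    (hX : Xi 𝒟.e 𝒟.w (insert q h)) :
    Ex G M (fun ω => Pre ω * (I ω * (ind ω (insert q h) t *
        |g2A G σ 𝒟 al false W2 h q ω - g2A G σ 𝒟 al true W2 h q ω| *
        alive G h u (mixA (g2A G σ 𝒟 al false W2 h) (g2A G σ 𝒟 al true W2 h) q) (insert q Sk) ω *
        P.Fx G (drp own h) ω)))
      ≤ pt 𝒟.a * (Ex G M I * B.wgt pt P) *
        ((if nnew 𝒟 h q = 2 then pt t ^ 2 else Z * pt t) / M) := by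
  set C := mixA (g2A (M := M) G σ 𝒟 al false W2 h) (g2A G σ 𝒟 al true W2 h) q with hC
  have htc : t ≤ B.ctop := ht.le.trans H.hu
  have htM : t < M := lt_of_lt_of_le ht (H.hu.trans hB.top)
  have hMr := hN.Mpos'
  have hZ := hN.Z_ge
  have hptt := hN.pt_nn t
  have hc := H.c_nn hN hB
  have hval : ∀ W', P.W ⊆ W' → Val G σ W' h C := fun W' hW' =>
    (H.valA h𝒟 hW' false).mixA (H.valA h𝒟 hW' true) q
  have hnot : insert q h ∉ 𝒮 := by
    intro hh
    rcases H.h𝒮 _ hh with h1 | h1 | h1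
    · exact hqW (h1 (mem_insert_self _ _))
    · exact g2_J_w h𝒟 h1 hX.1
    · exact hX.2.2 h1
  have hnone : ovT 𝒟.e 𝒟.w (al q) false h q = none := by simp [ovT, hne]
  have hA0 : ∀ ω : Om V M, g2A G σ 𝒟 al true W2 h q ω = 0 := fun ω =>
    can_ovT_true_Xi _ ω W2 hX
  have hqh : insert q h ⊆ insert q P.W := insert_subset_insert _ H.hW
  by_cases hts : t < σ h q
  · have hins : insert q P.W = P.W ∪ {q} := by rw [union_comm]; rfl
    have key := H.term_close hN h𝒟 hPre hT (Y := {q}) (S := insert q Sk)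
      (hval _ subset_union_left) (by simp) (by rw [← hins]; exact insert_subset_insert _ H.hSk)
      (I' := fun ω => I ω * (ind ω (insert q h) t * bit ω h q))
      (fun ω => mul_nonneg (H.hI ω) (mul_nonneg (ind_nn _ _ _) (bit_nn _ _ _)))
      (((H.dep h𝒟 (W' := P.W ∪ {q}) subset_union_left).mul
        ((depTri_ind (insert q h) t).mul (depTri_bit h q))).mono (by
          intro T hT
          rcases hT with hT | hT | hT
          · exact hT
          · rw [Set.mem_singleton_iff.1 hT, Set.mem_setOf_eq, ← hins]; exact hqh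
          · rw [Set.mem_singleton_iff.1 hT, Set.mem_setOf_eq, ← hins]; exact hqh))
    rw [Ex_mul_ind_bit H.hD hnot htM] at key
    have hmu : mu G M t h q ≤ if nnew 𝒟 h q = 2 then pt t ^ 2 else Z * pt t := by
      split_ifs
      · exact hN.mu_le t htM h q H.hS.edge hq
      · have := hN.mu_le' htM H.hS.edge hq
        nlinarith
    calc _ = Ex G M (fun ω => Pre ω * (I ω * (ind ω (insert q h) t * bit ω h q) *
          (alive G h u C (insert q Sk) ω * P.Fx G (drp own h) ω))) := by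
          congr 1
          funext ω
          rcases g2_ind_cases ω (insert q h) t with ⟨h1, h2⟩ | ⟨_, h2⟩
          · rw [hA0, g2_A_none hqW hnone, h1, if_pos hts, sub_zero, abs_of_nonneg (bit_nn _ _ _)]
            ring
          · rw [h2]; ring
      _ ≤ _ := key
      _ = pt 𝒟.a * (Ex G M I * B.wgt pt P) * (mu G M t h q / M) := by ring
      _ ≤ _ := mul_le_mul_of_nonneg_left (div_le_div_of_nonneg_right hmu hMr.le) hc
  · set fam := g2F (M := M) G σ 𝒟 (al q) false (insert q W2) with hfam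
    have hsub : P.W ⊆ insert q P.W ∪ ∅ := (subset_insert _ _).trans subset_union_left
    have hwf : (P.step h own C q t fam).WFx G σ B.ctop ∅ ∅ :=
      Pat.step_wf H.hP H.hW hq htc (fun _ => hval _ hsub) (disjoint_empty_left _)
        fun x hx _ => val_canF_ovT h𝒟.he (not_mem_of_mem_cn h𝒟.hw)
        (fun _ => (H.hal q).1) (fun _ => (H.hal q).2)
          ((insert_subset_insert _ H.hW2).trans subset_union_left) ((H.TP h𝒟).trans hsub)
          (isEdge_free hq hx) (by simp)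
    have hcW := H.hcW
    have hcH := H.hcH
    have hcW' := Pat.step_card_W (P := P) (h := h) (own := own) (C := C) (q := q) (s := t)
      (fam := fam) B
    have hcH' := Pat.step_card_H (P := P) (own := own) (C := C) (q := q) (s := t)
      (fam := fam) B H.hS.edge
    have hfree : ∃ x ∈ 𝒟.e, ({x, 𝒟.w} : Finset V) ∉ (P.step h own C q t fam).H := by
      by_contra hcon
      push Not at hcon
      apply hX.2.2
      symm
      refine eq_of_subset_of_card_le ?_ (by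
        rw [card_insert_cn H.hS.edge hq, card_insert_cn h𝒟.he h𝒟.hw])
      refine insert_subset hX.1 fun x hx => ?_
      rcases mem_union.1 (hcon x hx) with h1 | h1
      · exact absurd h1 (H.free h𝒟 hx)
      · obtain ⟨y, hy, hyx⟩ := mem_image.1 h1
        have : x ∈ ({y, q} : Finset V) := by rw [hyx]; simp
        rcases mem_insert.1 this with rfl | h2
        · exact mem_insert_of_mem hy
        · rw [mem_singleton.1 h2]; exact mem_insert_self _ _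
    have key := hT (P.step h own C q t fam) (fun ω => I ω * ind ω (insert q h) t) hwf
      (Pat.step_le H.hle) ((H.TP h𝒟).trans (subset_insert _ _)) (by omega) (by omega) hfree
      (fun ω => mul_nonneg (H.hI ω) (ind_nn _ _ _))
      (((H.dep h𝒟 (W' := insert q P.W) (subset_insert _ _)).mul
        (depTri_ind (insert q h) t)).mono (by
          intro T hT
          rcases hT with hT | hT
          · exact hT
          · rw [Set.mem_singleton_iff.1 hT]; exact hqh))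
    rw [Ex_mul_ind H.hD hnot htM, Pat.step_wgt H.hle pt (not_mem_of_mem_cn hq),
      H.nnew_eq hqW] at key
    have hn2 : nnew 𝒟 h q ≤ 2 := by
      unfold nnew
      exact (card_filter_le _ _).trans H.hS.edge.card.le
    have hn1 : 1 ≤ nnew 𝒟 h q := by
      unfold nnew
      refine card_pos.2 ?_
      rcases mem_insert.1 hX.1 with h1 | h1
      · obtain ⟨x, hx⟩ : h.Nonempty := card_pos.1 (by rw [H.hS.edge.card]; norm_num)
        exact ⟨x, mem_filter.2 ⟨hx, fun hh => (h𝒟.H1e _ hh).2.2 (by simp [h1])⟩⟩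
      · exact ⟨𝒟.w, mem_filter.2 ⟨h1, fun hh => (h𝒟.H1e _ hh).2.2 (by simp)⟩⟩
    have hpow : pt t ^ nnew 𝒟 h q ≤ if nnew 𝒟 h q = 2 then pt t ^ 2 else Z * pt t := by
      split_ifs with h2
      · rw [h2]
      · have : nnew 𝒟 h q = 1 := by omega
        rw [this, pow_one]
        nlinarith
    calc _ ≤ Ex G M (fun ω => Pre ω * (I ω * ind ω (insert q h) t *
          (P.step h own C q t fam).Fx G ∅ ω)) := by
          refine Ex_mono hN.Mpos fun ω => mul_le_mul_of_nonneg_left ?_ (hPre ω)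
          rw [mul_assoc (I ω)]
          refine mul_le_mul_of_nonneg_left ?_ (H.hI ω)
          rcases g2_ind_cases ω (insert q h) t with ⟨h1, h2⟩ | ⟨_, h2⟩
          · rw [hA0, g2_A_none hqW hnone, h1, if_neg hts, sub_zero, h2, one_mul, one_mul,
              abs_of_nonneg (prod_nonneg fun x _ => alive_nn (H.bdF q false _ _) _ _ _ _),
              mul_comm (∏ x ∈ h, _)]
            exact Pat.step_Fx_all H.hP H.hown hq (hval _ subset_rfl).bd
              (fun y _ => H.bdF q false _ _) (insert_subset_insert _ H.hSk) (S' := fun _ => ∅)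
              (fun _ _ => empty_subset _) ω
          · rw [h2]; simp
      _ ≤ _ := key
      _ = pt 𝒟.a * (Ex G M I * B.wgt pt P) * (pt t ^ nnew 𝒟 h q / M) := by ring
      _ ≤ _ := mul_le_mul_of_nonneg_left (div_le_div_of_nonneg_right hpow hMr.le) hc

theorem G2H.neT (H : G2H G B L 𝒟 σ d h W2 Sk st u al P own I 𝒮) (h𝒟 : 𝒟.OK G L) {q : V}
    (hq : q ∈ cn G h) (hne : ¬ (h = 𝒟.e ∧ q = 𝒟.w)) : insert q h ≠ insert 𝒟.w 𝒟.e := by
  intro hh
  by_cases hqw : q = 𝒟.w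
  · apply hne
    refine ⟨?_, hqw⟩
    rw [← erase_insert (not_mem_of_mem_cn hq), hh, hqw, erase_insert (not_mem_of_mem_cn h𝒟.hw)]
  · refine H.hS.nf ⟨by rw [← hh]; exact subset_insert _ _, ?_⟩
    have : 𝒟.w ∈ insert q h := by rw [hh]; exact mem_insert_self _ _
    exact (mem_insert.1 this).resolve_left fun h1 => hqw h1.symm

theorem G2H.nf' (H : G2H G B L 𝒟 σ d h W2 Sk st u al P own I 𝒮) (h𝒟 : 𝒟.OK G L) {q : V}
    (hq : q ∈ cn G h) (hne : ¬ (h = 𝒟.e ∧ q = 𝒟.w)) (hX : ¬ Xi 𝒟.e 𝒟.w (insert q h)) {y : V}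
    (hy : y ∈ h) : ¬ (({y, q} : Finset V) ⊆ insert 𝒟.w 𝒟.e ∧ 𝒟.w ∈ ({y, q} : Finset V)) := by
  rintro ⟨h1, h2⟩
  have hsub : ({y, q} : Finset V) ⊆ insert q h :=
    insert_subset (mem_insert_of_mem hy) (singleton_subset_iff.2 (mem_insert_self _ _))
  obtain ⟨v, hv, hvw⟩ := exists_mem_ne (s := ({y, q} : Finset V))
    (by rw [(isEdge_free hq hy).card]; norm_num) 𝒟.w
  exact hX ⟨hsub h2, ⟨v, (mem_insert.1 (h1 hv)).resolve_left hvw, hsub hv⟩, H.neT h𝒟 hq hne⟩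

/-- the state after an ordinary step -/
theorem G2H.next (H : G2H G B L 𝒟 σ (d + 1) h W2 Sk st u al P own I 𝒮) (h𝒟 : 𝒟.OK G L) {q : V}
    (hq : q ∈ cn G h) (hqW : q ∉ W2) {t : ℕ} (ht : t < u) (hne : ¬ (h = 𝒟.e ∧ q = 𝒟.w))
    (hX : ¬ Xi 𝒟.e 𝒟.w (insert q h)) {x : V} (hx : x ∈ h) (j : Bool) {I' : Om V M → ℝ}
    (hI' : ∀ ω, 0 ≤ I' ω) (hD' : DepTri I' (𝒮 ∪ {insert q h})) (hII : ∀ ω, I' ω ≠ 0 → I ω ≠ 0) :
    G2H G B L 𝒟 σ (if q ∈ 𝒟.O then d + 1 else d) {x, q} (insert q W2) ∅ False t (fun _ => al q)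
      (P.step h own (mixA (g2A G σ 𝒟 al false W2 h) (g2A G σ 𝒟 al true W2 h) q) q t
        (g2F G σ 𝒟 (al q) j (insert q W2)))
      (({x, q} : Finset V) ∉ P.H) I' (𝒮 ∪ {insert q h}) := by
  have htc : t ≤ B.ctop := ht.le.trans H.hu
  have hsub : P.W ⊆ insert q P.W ∪ ∅ := (subset_insert _ _).trans subset_union_left
  have hpair : ∀ y ∈ h, ({y, q} : Finset V) ⊆ insert q W2 := fun y hy =>
    insert_subset (mem_insert_of_mem (H.hS.sub hy)) (singleton_subset_iff.2 (mem_insert_self _ _))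
  refine ⟨⟨isEdge_free hq hx, hpair x hx, H.hS.W0.trans (subset_insert _ _),
    H.nf' h𝒟 hq hne hX hx, False.elim, fun _ => rfl⟩, fun _ => H.hal q, ?_, Pat.step_le H.hle,
    fun hn => Pat.step_c_new hx hn, htc, H.hO.trans (subset_insert _ _),
    insert_subset_insert _ H.hW2, empty_subset _, H.hH1.trans subset_union_left, ?_, ?_, ?_,
    hI', hD', ?_, fun ω hω => H.hJ ω (hII ω hω)⟩
  · refine Pat.step_wf H.hP H.hW hq htc
      (fun _ => (H.valA h𝒟 hsub false).mixA (H.valA h𝒟 hsub true) q) ?_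
      fun y hy _ => val_canF_ovT h𝒟.he (not_mem_of_mem_cn h𝒟.hw)
        (fun _ => (H.hal q).1) (fun _ => (H.hal q).2)
        ((insert_subset_insert _ H.hW2).trans subset_union_left) ((H.TP h𝒟).trans hsub)
        (isEdge_free hq hy) (fun _ => H.nf' h𝒟 hq hne hX hy)
    unfold drp
    split_ifs with hn
    · exact disjoint_empty_left _
    · exact disjoint_singleton_left.2 hn
  · intro f hf hf1
    rcases mem_union.1 hf with h1 | h1
    · exact ⟨(H.hHo f h1 hf1).1.trans (subset_insert _ _), (H.hHo f h1 hf1).2⟩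
    · obtain ⟨y, hy, rfl⟩ := mem_image.1 h1
      exact ⟨hpair y hy, H.nf' h𝒟 hq hne hX hy⟩
  · have hcW := H.hcW
    change (insert q P.W \ B.W0).card + _ ≤ _
    split_ifs with hqO
    · rw [insert_eq_of_mem (H.hO hqO)]; exact hcW
    · have : (insert q P.W \ B.W0).card ≤ (P.W \ B.W0).card + 1 := by
        refine (card_le_card ?_).trans (card_insert_le q _)
        intro z hz
        rw [mem_sdiff, mem_insert] at hz
        rw [mem_insert, mem_sdiff]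
        tauto
      omega
  · have hcH := H.hcH
    have hcH' := Pat.step_card_H (P := P) (own := own)
      (C := mixA (g2A G σ 𝒟 al false W2 h) (g2A G σ 𝒟 al true W2 h) q) (q := q) (s := t)
      (fam := g2F G σ 𝒟 (al q) j (insert q W2)) B H.hS.edge
    split_ifs with hqO
    · have : (𝒟.O \ insert q W2).card + 1 = (𝒟.O \ W2).card := by
        rw [sdiff_insert, card_erase_add_one (mem_sdiff.2 ⟨hqO, hqW⟩)]
      omega
    · have : (𝒟.O \ insert q W2).card ≤ (𝒟.O \ W2).card :=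
        card_le_card (sdiff_subset_sdiff subset_rfl (subset_insert _ _))
      omega
  · intro T hT
    rcases hT with hT | hT
    · rcases H.h𝒮 T hT with h1 | h1
      · exact Or.inl (h1.trans (subset_insert _ _))
      · exact Or.inr h1
    · rw [Set.mem_singleton_iff.1 hT]
      exact Or.inl (insert_subset_insert _ H.hS.sub)

/-- pointwise telescoping over the two free edges of an ordinary node -/
theorem G2H.tele (H : G2H G B L 𝒟 σ d h W2 Sk st u al P own I 𝒮) (h𝒟 : 𝒟.OK G L) {q : V}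
    (hq : q ∈ cn G h) (t : ℕ) :
    ∃ j : V → Bool, ∀ ω : Om V M,
      |∏ x ∈ h, alive G {x, q} t (g2F G σ 𝒟 (al q) false (insert q W2) {x, q}) ∅ ω
        - ∏ x ∈ h, alive G {x, q} t (g2F G σ 𝒟 (al q) true (insert q W2) {x, q}) ∅ ω| *
        alive G h u (mixA (g2A G σ 𝒟 al false W2 h) (g2A G σ 𝒟 al true W2 h) q) (insert q Sk) ω *
        P.Fx G (drp own h) ω
      ≤ ∑ x ∈ h, |alive G {x, q} t (g2A G σ 𝒟 (fun _ => al q) false (insert q W2) {x, q}) ∅ ω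
          - alive G {x, q} t (g2A G σ 𝒟 (fun _ => al q) true (insert q W2) {x, q}) ∅ ω| *
        (P.step h own (mixA (g2A G σ 𝒟 al false W2 h) (g2A G σ 𝒟 al true W2 h) q) q t
          (g2F G σ 𝒟 (al q) (j x) (insert q W2))).Fx G
            (drp (({x, q} : Finset V) ∉ P.H) {x, q}) ω := by
  refine ⟨fun x => decide (¬ ∃ y ∈ h.erase x, sel x y), fun ω => ?_⟩
  have hbdC := (H.bdA h𝒟 false).mixA (H.bdA h𝒟 true) q
  rw [prod_sub_prod_sel, mul_assoc]
  refine le_trans (mul_le_mul_of_nonneg_right (abs_sum_le_sum_abs _ _)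
    (mul_nonneg (alive_nn hbdC _ _ _ _) (H.hP.Fx_nn ω))) ?_
  rw [sum_mul]
  refine sum_le_sum fun x hx => ?_
  rw [abs_mul, mul_assoc]
  refine mul_le_mul_of_nonneg_left ?_ (abs_nonneg _)
  obtain ⟨y, _, _, hy⟩ := H.hS.edge.exists_other hx
  have hprod : (∏ z ∈ h.erase x, if sel x z then
        alive G {z, q} t (g2F G σ 𝒟 (al q) false (insert q W2) {z, q}) ∅ ω
      else alive G {z, q} t (g2F G σ 𝒟 (al q) true (insert q W2) {z, q}) ∅ ω) =
      ∏ z ∈ h.erase x, alive G {z, q} t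
        (g2F G σ 𝒟 (al q) (decide (¬ ∃ y ∈ h.erase x, sel x y)) (insert q W2) {z, q}) ∅ ω := by
    rw [hy, prod_singleton, prod_singleton]
    by_cases hs : sel x y
    · simp [hs]
    · simp [hs]
  rw [hprod, abs_of_nonneg (prod_nonneg fun z _ => alive_nn (H.bdF q _ _ _) _ _ _ _),
    ← mul_assoc, mul_comm (∏ z ∈ h.erase x, _)]
  exact Pat.step_Fx H.hP H.hown hq hbdC (fun y _ => H.bdF q _ _ _) (insert_subset_insert _ H.hSk)
    (S' := fun _ => ∅) (fun _ _ => empty_subset _) hx ω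

/-- the statement proved by induction -/
def G2Goal (G : SimpleGraph V) (M : ℕ) (pt : ℕ → ℝ) (D qq η Z : ℝ) (L : ℕ) (B : Base V) (𝒟 : D2 V)
    (σ : Thr V) (Pre : Om V M → ℝ) (n : ℕ) : Prop :=
  ∀ (d : ℕ) (h W2 Sk : Finset V) (st : Prop) (u : ℕ) (al : V → ℝ) (P : Pat V M) (own : Prop)
    (I : Om V M → ℝ) (𝒮 : Set (Finset V)), (univ \ W2).card ≤ n →
    G2H G B L 𝒟 σ d h W2 Sk st u al P own I 𝒮 →
    Ex G M (fun ω => Pre ω * (I ω *
        (|alive G h u (g2A G σ 𝒟 al false W2 h) Sk ω - alive G h u (g2A G σ 𝒟 al true W2 h) Sk ω|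
          * P.Fx G (drp own h) ω)))
      ≤ pt 𝒟.a * (Ex G M I * B.wgt pt P) * U2 G M pt D qq η Z 𝒟 d h W2 Sk st u

/-- an ordinary step, for a prefactor `I'` dominating `I * ind` -/
theorem g2_ord_aux (hN : NumOK G M pt D qq η Z L) (h𝒟 : 𝒟.OK G L) (hPre : ∀ ω, 0 ≤ Pre ω)
    (H : G2H G B L 𝒟 σ (d + 1) h W2 Sk st u al P own I 𝒮) {q : V} (hq : q ∈ cn G h)
    (hqW : q ∉ W2) {t : ℕ} (ht : t < u) (hne : ¬ (h = 𝒟.e ∧ q = 𝒟.w))
    (hX : ¬ Xi 𝒟.e 𝒟.w (insert q h)) (hts : ¬ t < σ h q)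
    (ih : G2Goal G M pt D qq η Z L B 𝒟 σ Pre (univ \ insert q W2).card) {I' : Om V M → ℝ}
    (hI' : ∀ ω, 0 ≤ I' ω) (hD' : DepTri I' (𝒮 ∪ {insert q h})) (hII : ∀ ω, I' ω ≠ 0 → I ω ≠ 0)
    (hdom : ∀ ω, I ω * ind ω (insert q h) t ≤ I' ω) :
    Ex G M (fun ω => Pre ω * (I ω * (ind ω (insert q h) t *
        |g2A G σ 𝒟 al false W2 h q ω - g2A G σ 𝒟 al true W2 h q ω| *
        alive G h u (mixA (g2A G σ 𝒟 al false W2 h) (g2A G σ 𝒟 al true W2 h) q) (insert q Sk) ω *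
        P.Fx G (drp own h) ω)))
      ≤ pt 𝒟.a * (Ex G M I' * (B.wgt pt P * pt t ^ nnew 𝒟 h q)) *
        ∑ x ∈ h, U2 G M pt D qq η Z 𝒟 (if q ∈ 𝒟.O then d + 1 else d) {x, q} (insert q W2) ∅
          False t := by
  obtain ⟨j, hj⟩ := H.tele h𝒟 hq t
  have hnone : ∀ j', ovT 𝒟.e 𝒟.w (al q) j' h q = none := fun j' => by simp [ovT, hne, hX]
  have key := fun x (hx : x ∈ h) =>
    ih _ _ _ _ _ _ _ _ _ _ _ le_rfl (H.next h𝒟 hq hqW ht hne hX hx (j x) hI' hD' hII)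
  simp only [Pat.step_wgt H.hle pt (not_mem_of_mem_cn hq), H.nnew_eq hqW] at key
  rw [mul_sum]
  refine le_trans ?_ (sum_le_sum key)
  rw [← Ex_sum]
  refine Ex_mono hN.Mpos fun ω => ?_
  rw [← mul_sum, ← mul_sum]
  refine mul_le_mul_of_nonneg_left ?_ (hPre ω)
  have hj' := hj ω
  have hbdC := (H.bdA h𝒟 false).mixA (H.bdA h𝒟 true) q
  rcases g2_ind_cases ω (insert q h) t with ⟨h1, h2⟩ | ⟨_, h2⟩
  · have hd := hdom ω
    rw [h2, mul_one] at hd
    rw [g2_A_none hqW (hnone false), g2_A_none hqW (hnone true), h1, if_neg hts, if_neg hts, h2,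
      one_mul]
    exact mul_le_mul hd hj' (mul_nonneg (mul_nonneg (abs_nonneg _) (alive_nn hbdC _ _ _ _))
      (H.hP.Fx_nn ω)) (hI' ω)
  · rw [h2, zero_mul, zero_mul, zero_mul, mul_zero]
    exact mul_nonneg (hI' ω) (le_trans (mul_nonneg (mul_nonneg (abs_nonneg _)
      (alive_nn hbdC _ _ _ _)) (H.hP.Fx_nn ω)) hj')

/-- the term of the apex `q` at time `t` -/
theorem g2_node (hN : NumOK G M pt D qq η Z L) (hB : BaseOK G M B Z L) (h𝒟 : 𝒟.OK G L)
    (hσ : ∀ p ∈ Tg G, 𝒟.a ≤ σ p.1 p.2) (hPre : ∀ ω, 0 ≤ Pre ω)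
    (hT : Term G M B pt (8 * L + 10) σ 𝒟.e 𝒟.w 𝒟.a Pre)
    (H : G2H G B L 𝒟 σ (d + 1) h W2 Sk st u al P own I 𝒮) {q : V} (hq : q ∈ cn G h)
    (hqW : q ∉ W2) {t : ℕ} (ht : t < u)
    (ih : G2Goal G M pt D qq η Z L B 𝒟 σ Pre (univ \ insert q W2).card) :
    Ex G M (fun ω => Pre ω * (I ω * (ind ω (insert q h) t *
        |g2A G σ 𝒟 al false W2 h q ω - g2A G σ 𝒟 al true W2 h q ω| *
        alive G h u (mixA (g2A G σ 𝒟 al false W2 h) (g2A G σ 𝒟 al true W2 h) q) (insert q Sk) ω *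
        P.Fx G (drp own h) ω)))
      ≤ pt 𝒟.a * (Ex G M I * B.wgt pt P) * term2 G M pt D qq η Z 𝒟 d h W2 q t := by
  have hc := H.c_nn hN hB
  have htM : t < M := lt_of_lt_of_le ht (H.hu.trans hB.top)
  have hzero : (∀ ω : Om V M, I ω * (ind ω (insert q h) t *
      |g2A G σ 𝒟 al false W2 h q ω - g2A G σ 𝒟 al true W2 h q ω|) = 0) →
      Ex G M (fun ω => Pre ω * (I ω * (ind ω (insert q h) t *
        |g2A G σ 𝒟 al false W2 h q ω - g2A G σ 𝒟 al true W2 h q ω| *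
        alive G h u (mixA (g2A G σ 𝒟 al false W2 h) (g2A G σ 𝒟 al true W2 h) q) (insert q Sk) ω *
        P.Fx G (drp own h) ω)))
      ≤ pt 𝒟.a * (Ex G M I * B.wgt pt P) * term2 G M pt D qq η Z 𝒟 d h W2 q t := by
    intro h0
    refine le_trans (le_of_eq ?_) (mul_nonneg hc (term2_nn hN d h W2 q t))
    rw [← Ex_const (G := G) hN.Mpos 0]
    congr 1
    funext ω
    rw [mul_assoc (ind _ _ _ * _), ← mul_assoc (I ω), h0 ω, zero_mul, mul_zero]
  by_cases hne : h = 𝒟.e ∧ q = 𝒟.w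
  · refine hzero fun ω => ?_
    have : ∀ j, g2A G σ 𝒟 al j W2 h q ω = al q := fun j =>
      can_of_some hqW (by simp [ovT, hne])
    rw [this, this, sub_self, abs_zero, mul_zero, mul_zero]
  by_cases hX : Xi 𝒟.e 𝒟.w (insert q h)
  · have := g2_xi hN hB h𝒟 hPre hT H hq hqW ht hne hX
    unfold term2
    rw [if_neg hne, if_pos hX]
    exact this
  have hnone : ∀ j', ovT 𝒟.e 𝒟.w (al q) j' h q = none := fun j' => by simp [ovT, hne, hX]
  by_cases hts : t < σ h q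
  · refine hzero fun ω => ?_
    rcases g2_ind_cases ω (insert q h) t with ⟨h1, _⟩ | ⟨_, h2⟩
    · rw [g2_A_none hqW (hnone false), g2_A_none hqW (hnone true), h1, if_pos hts, if_pos hts,
        sub_self, abs_zero, mul_zero, mul_zero]
    · rw [h2, zero_mul, mul_zero]
  have hat : ¬ t < 𝒟.a := by
    have := hσ (h, q) (mem_Tg.2 ⟨H.hS.edge, hq⟩)
    simp only at this
    omega
  by_cases hJ : insert q h ∈ 𝒟.J
  · by_cases hs : t = 𝒟.s (insert q h)
    · have key := g2_ord_aux hN h𝒟 hPre H hq hqW ht hne hX hts ih (I' := I) H.hI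
        (H.hD.mono Set.subset_union_left) (fun _ hh => hh)
        (fun ω => mul_le_of_le_one_right (H.hI ω) (ind_le_one _ _ _))
      have hqO : q ∈ 𝒟.O := g2_J_sub h𝒟 hJ (mem_insert_self _ _)
      have hn0 : nnew 𝒟 h q = 0 := by
        unfold nnew
        rw [card_eq_zero, filter_eq_empty_iff]
        intro x hx hh
        exact hh (h𝒟.path.edges _ hJ x (mem_insert_of_mem hx) q (mem_insert_self _ _)
          fun hxq => not_mem_of_mem_cn hq (hxq ▸ hx))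
      rw [hn0, pow_zero, mul_one, if_pos hqO] at key
      unfold term2
      rw [if_neg hne, if_neg hX, if_neg hat, if_pos hJ, if_pos hs]
      exact key
    · refine hzero fun ω => ?_
      by_cases hI0 : I ω = 0
      · rw [hI0, zero_mul]
      · rcases g2_ind_cases ω (insert q h) t with ⟨h1, _⟩ | ⟨_, h2⟩
        · exact absurd (h1.symm.trans (H.hJ ω hI0 _ hJ)) hs
        · rw [h2, zero_mul, mul_zero]
  · have key := g2_ord_aux hN h𝒟 hPre H hq hqW ht hne hX hts ih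
      (I' := fun ω => I ω * ind ω (insert q h) t)
      (fun ω => mul_nonneg (H.hI ω) (ind_nn _ _ _)) (H.hD.mul (depTri_ind _ t))
      (fun ω hh => left_ne_zero_of_mul hh) (fun _ => le_rfl)
    have hnot : insert q h ∉ 𝒮 := by
      intro hh
      rcases H.h𝒮 _ hh with h1 | h1 | h1
      · exact hqW (h1 (mem_insert_self _ _))
      · exact hJ h1
      · exact H.neT h𝒟 hq hne h1
    rw [Ex_mul_ind H.hD hnot htM] at key
    unfold term2
    rw [if_neg hne, if_neg hX, if_neg hat, if_neg hJ]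
    refine le_trans key (le_of_eq ?_)
    ring

theorem g2_main (hN : NumOK G M pt D qq η Z L) (hB : BaseOK G M B Z L) (h𝒟 : 𝒟.OK G L)
    (hσ : ∀ p ∈ Tg G, 𝒟.a ≤ σ p.1 p.2) (hPre : ∀ ω, 0 ≤ Pre ω)
    (hT : Term G M B pt (8 * L + 10) σ 𝒟.e 𝒟.w 𝒟.a Pre) (n : ℕ) :
    G2Goal G M pt D qq η Z L B 𝒟 σ Pre n := by
  induction n using Nat.strong_induction_on with
  | _ n ih =>
  intro d h W2 Sk st u al P own I 𝒮 hn H
  rcases d with _ | d
  · exact g2_zero hN hB h𝒟 hPre hT H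
  have hc := H.c_nn hN hB
  refine le_trans ?_ (mul_le_mul_of_nonneg_left (U2_step hN h𝒟 H.hS d (H.hu.trans hB.top)) hc)
  rw [mul_sum]
  have key : ∀ q ∈ cn G h \ (W2 ∪ Sk), ∑ t ∈ range u,
      Ex G M (fun ω => Pre ω * (I ω * (ind ω (insert q h) t *
        |g2A G σ 𝒟 al false W2 h q ω - g2A G σ 𝒟 al true W2 h q ω| *
        alive G h u (mixA (g2A G σ 𝒟 al false W2 h) (g2A G σ 𝒟 al true W2 h) q) (insert q Sk) ω *
        P.Fx G (drp own h) ω)))
      ≤ pt 𝒟.a * (Ex G M I * B.wgt pt P) *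
        ∑ t ∈ range u, term2 G M pt D qq η Z 𝒟 d h W2 q t := by
    intro q hq
    rw [mem_sdiff, mem_union, not_or] at hq
    rw [mul_sum]
    refine sum_le_sum fun t ht => ?_
    exact g2_node hN hB h𝒟 hσ hPre hT H hq.1 hq.2.1 (mem_range.1 ht)
      (ih _ (lt_of_lt_of_le (card_compl_insert_lt hq.2.1) hn))
  refine le_trans ?_ (sum_le_sum key)
  simp_rw [← Ex_sum]
  refine Ex_mono hN.Mpos fun ω => ?_
  simp_rw [← mul_sum, ← sum_mul]
  refine mul_le_mul_of_nonneg_left (mul_le_mul_of_nonneg_left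
    (mul_le_mul_of_nonneg_right ?_ (H.hP.Fx_nn ω)) (H.hI ω)) (hPre ω)
  refine le_trans (abs_alive_sub_le (H.bdA h𝒟 false) (H.bdA h𝒟 true) h u Sk ω) (le_of_eq ?_)
  simp_rw [← act_eq_sum_ind]
  symm
  refine sum_subset (sdiff_subset_sdiff subset_rfl subset_union_right) fun q hq hq' => ?_
  have hqW : q ∈ W2 := by
    by_contra hcon
    rw [mem_sdiff] at hq
    exact hq' (mem_sdiff.2 ⟨hq.1, fun hh => (mem_union.1 hh).elim hcon hq.2⟩)
  have : ∀ j, g2A G σ 𝒟 al j W2 h q ω = 0 := fun j => can_of_mem hqW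
  rw [this, this, sub_self, abs_zero, mul_zero, zero_mul]

end aux

theorem gam2 (hN : NumOK G M pt D qq η Z L) (hB : BaseOK G M B Z L) {𝒟 : D2 V} (h𝒟 : 𝒟.OK G L)
    (hW0 : 𝒟.W0 = B.W0) {σ : Thr V} (hσ : ∀ p ∈ Tg G, 𝒟.a ≤ σ p.1 p.2) {Pre : Om V M → ℝ}
    (hPre : ∀ ω, 0 ≤ Pre ω) (hT : Term G M B pt (8 * L + 10) σ 𝒟.e 𝒟.w 𝒟.a Pre)
    (d : ℕ) (h W2 Sk : Finset V) (st : Prop) (u : ℕ) (al : V → ℝ) (P : Pat V M) (own : Prop)
    (I : Om V M → ℝ) (𝒮 : Set (Finset V))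
    (hS : St2OK G 𝒟 h W2 Sk st) (hal : ∀ q, 0 ≤ al q ∧ al q ≤ 1)
    (hP : P.WFx G σ B.ctop (drp own h) ∅) (hle : B.Le P) (hown : own → h ∈ P.H ∧ P.c h = u)
    (hu : u ≤ B.ctop) (hO : 𝒟.O ⊆ P.W) (hW2 : W2 ⊆ P.W) (hSk : Sk ⊆ P.W) (hH1 : 𝒟.H1 ⊆ P.H)
    (hHo : ∀ f ∈ P.H, f ∉ 𝒟.H1 → f ⊆ W2 ∧ ¬ (f ⊆ insert 𝒟.w 𝒟.e ∧ 𝒟.w ∈ f))
    (hcW : (P.W \ B.W0).card + d ≤ 2 * L + 1)
    (hcH : (P.H \ B.H0).card + 2 * (d + (𝒟.O \ W2).card) + 3 ≤ 8 * L + 10)
    (hI : ∀ ω, 0 ≤ I ω) (hD : DepTri I 𝒮)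
    (h𝒮 : ∀ T ∈ 𝒮, T ⊆ W2 ∨ T ∈ 𝒟.J ∨ T = insert 𝒟.w 𝒟.e)
    (hJ : ∀ ω, I ω ≠ 0 → ∀ T ∈ 𝒟.J, lab ω T = 𝒟.s T) :
    Ex G M (fun ω => Pre ω * (I ω *
        (|alive G h u (fun q ω => can G σ (ovT 𝒟.e 𝒟.w (al q) false) ω W2 h q) Sk ω
          - alive G h u (fun q ω => can G σ (ovT 𝒟.e 𝒟.w (al q) true) ω W2 h q) Sk ω|
          * P.Fx G (drp own h) ω)))
      ≤ pt 𝒟.a * (Ex G M I * B.wgt pt P) * U2 G M pt D qq η Z 𝒟 d h W2 Sk st u := by
  exact g2_main hN hB h𝒟 hσ hPre hT _ d h W2 Sk st u al P own I 𝒮 le_rfl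
    ⟨hS, hal, hP, hle, hown, hu, hO, hW2, hSk, hH1, hHo, hcW, hcH, hI, hD, h𝒮, hJ⟩

end Crest.Agent.R030
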