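import Crest.Agent.R030.G1Defs
import Crest.Agent.R030.Gam2

/-! # Row 30: the first particle reaches the target -/

set_option autoImplicit false
set_option linter.unusedSectionVars false

namespace Crest.Agent.R030
open Finset
open scoped Classical

variable {V : Type} [Fintype V] [DecidableEq V] {G : SimpleGraph V} {M : ℕ}
variable {pt : ℕ → ℝ} {D qq η Z : ℝ} {L : ℕ} {B : Base V}

/-- uniform root data -/
noncomputable def g1bWr (S : S1 V) (ρ : Finset V) : Finset V := if ρ = S.h then S.W else S.Wr ρ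
/-- uniform root data -/
noncomputable def g1bSk (S : S1 V) (w : V) (ρ : Finset V) : Finset V :=
  if ρ = S.h then {w} else S.Sk ρ
/-- uniform root data -/
noncomputable def g1bAl (S : S1 V) (w : V) (ρ : Finset V) : V → ℝ :=
  if ρ = S.h then (fun q => if sel w q then 1 else 0) else S.al ρ
/-- uniform root valuation -/
noncomputable def g1bA (G : SimpleGraph V) (σ : Thr V) (S : S1 V) (w : V) (j : Bool)
    (ρ : Finset V) : V → Om V M → ℝ :=
  fun q ω => can G σ (ovT S.h w (g1bAl S w ρ q) j) ω (g1bWr S ρ) ρ q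
/-- the data seen by the second particle -/
def g1bD (B : Base V) (S : S1 V) (w : V) (a : ℕ) : D2 V :=
  ⟨B.W0, insert w S.W, S.H, S.J, S.s, S.h, w, a⟩
/-- the pattern used when telescoping at `ρ` -/
noncomputable def g1bP (G : SimpleGraph V) (σ : Thr V) (S : S1 V) (w : V) (ρ : Finset V) :
    Pat V M :=
  ⟨insert w S.W, S.H, S.c, fun ρ' => g1bA G σ S w (if sel ρ ρ' then false else true) ρ'⟩

theorem g1b_full {S : S1 V} {d : ℕ} (hS : S.OK G B L d) (σ : Thr V) (w : V) (j : Bool)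
    (ω : Om V M) : S.Full G σ w j ω =
      ∏ ρ ∈ S.H, alive G ρ (S.c ρ) (g1bA G σ S w j ρ) (g1bSk S w ρ) ω := by
  rw [← mul_prod_erase _ _ hS.mark, S1.Full, S1.Rest]
  congr 1
  · unfold g1bA g1bSk g1bAl g1bWr
    simp only [if_true]
  · refine prod_congr rfl fun ρ hρ => ?_
    unfold g1bA g1bSk g1bAl g1bWr
    simp only [if_neg (mem_erase.1 hρ).1]

theorem g1b_data {S : S1 V} {d : ℕ} (hS : S.OK G B L d) (w : V) {ρ : Finset V} (hρ : ρ ∈ S.H) :
    B.W0 ⊆ g1bWr S ρ ∧ ρ ⊆ g1bWr S ρ ∧ g1bWr S ρ ⊆ S.W ∧ g1bSk S w ρ ⊆ insert w S.W ∧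
    (∀ q, 0 ≤ g1bAl S w ρ q ∧ g1bAl S w ρ q ≤ 1) ∧
    ∀ q ∈ cn G ρ, q ∉ g1bWr S ρ → q ∉ g1bSk S w ρ → ∃ x ∈ ρ, ({x, q} : Finset V) ∉ S.H := by
  unfold g1bWr g1bSk g1bAl
  by_cases h : ρ = S.h
  · simp only [if_pos h]
    refine ⟨hS.W0, (hS.edge ρ hρ).2.1, Subset.rfl, by simp, fun q => ?_, fun q _ hq _ => ?_⟩
    · split_ifs <;> norm_num
    · obtain ⟨x, y, -, hxy⟩ := (hS.edge ρ hρ).1
      exact ⟨x, by simp [hxy], fun hh => hq ((hS.edge _ hh).2.1 (by simp))⟩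
  · simp only [if_neg h]
    obtain ⟨h1, h2, h3, h4, h5, h6⟩ := hS.root ρ hρ h
    exact ⟨h1, h2, h3, h4.trans (subset_insert _ _), h5, h6⟩

theorem g1b_cardO {S : S1 V} {d : ℕ} (hS : S.OK G B L d) (w : V) :
    (insert w S.W \ B.W0).card ≤ L + 1 := by
  have h1 : insert w S.W \ B.W0 ⊆ insert w (S.W \ B.W0) := by
    intro x hx
    simp only [mem_sdiff, mem_insert] at hx ⊢
    tauto
  have h2 := (card_le_card h1).trans (card_insert_le _ _)
  have := hS.cardW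
  omega

theorem g1b_DOK {S : S1 V} {d : ℕ} (hS : S.OK G B L d) {w : V} (hw : w ∈ cn G S.h)
    (hwW : w ∉ S.W) (a : ℕ) : (g1bD B S w a).OK G L where
  he := (hS.edge _ hS.mark).1
  hw := hw
  TO := insert_subset_insert _ (hS.edge _ hS.mark).2.1
  W0O := hS.W0.trans (subset_insert _ _)
  wW0 := fun h => hwW (hS.W0 h)
  H1e := fun f hf => ⟨(hS.edge f hf).1, (hS.edge f hf).2.1.trans (subset_insert _ _),
    fun h => hwW ((hS.edge f hf).2.1 h)⟩
  path := hS.path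
  cardO := g1b_cardO hS w
  cardJ := le_trans (Nat.le_add_right _ _) hS.cardJ

theorem g1b_St {S : S1 V} {d : ℕ} (hS : S.OK G B L d) {w : V} (hwW : w ∉ S.W) (a : ℕ)
    {ρ : Finset V} (hρ : ρ ∈ S.H) : St2OK G (g1bD B S w a) ρ (g1bWr S ρ) (g1bSk S w ρ) True where
  edge := (hS.edge ρ hρ).1
  sub := (g1b_data hS w hρ).2.1
  W0 := (g1b_data hS w hρ).1
  nf := fun h => hwW ((hS.edge ρ hρ).2.1 h.2)
  start := fun _ => ⟨(hS.edge ρ hρ).2.1.trans (subset_insert _ _),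
    fun h => hwW ((hS.edge ρ hρ).2.1 h), (g1b_data hS w hρ).2.2.2.2.2⟩
  nstart := fun h => absurd trivial h

theorem g1b_val {S : S1 V} {d : ℕ} (hS : S.OK G B L d) (σ : Thr V) {w : V} (hw : w ∈ cn G S.h)
    (hwW : w ∉ S.W) (j : Bool) {ρ : Finset V} (hρ : ρ ∈ S.H) :
    Val G σ (insert w S.W) ρ (g1bA (M := M) G σ S w j ρ) :=
  val_can_ovT_al (hS.edge _ hS.mark).1 (not_mem_of_mem_cn hw)
    (fun q => ((g1b_data hS w hρ).2.2.2.2.1 q).1) (fun q => ((g1b_data hS w hρ).2.2.2.2.1 q).2)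
    ((g1b_data hS w hρ).2.2.1.trans (subset_insert _ _))
    (insert_subset_insert _ (hS.edge _ hS.mark).2.1) (hS.edge ρ hρ).1
    fun _ h => hwW ((hS.edge ρ hρ).2.1 h.2)

theorem g1b_tele {S : S1 V} {d : ℕ} (hS : S.OK G B L d) (σ : Thr V) {w : V} (hw : w ∈ cn G S.h)
    (hwW : w ∉ S.W) (ω : Om V M) : |S.Full G σ w false ω - S.Full G σ w true ω| ≤
      ∑ ρ ∈ S.H, |alive G ρ (S.c ρ) (g1bA G σ S w false ρ) (g1bSk S w ρ) ω -
        alive G ρ (S.c ρ) (g1bA G σ S w true ρ) (g1bSk S w ρ) ω| *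
          (g1bP G σ S w ρ).Fx G (drp True ρ) ω := by
  rw [g1b_full hS, g1b_full hS, prod_sub_prod_sel]
  refine (abs_sum_le_sum_abs _ _).trans (sum_le_sum fun ρ _ => ?_)
  rw [abs_mul]
  refine mul_le_mul_of_nonneg_left ?_ (abs_nonneg _)
  have e : ∀ ρ', (if sel ρ ρ' then alive G ρ' (S.c ρ') (g1bA G σ S w false ρ') (g1bSk S w ρ') ω
      else alive G ρ' (S.c ρ') (g1bA G σ S w true ρ') (g1bSk S w ρ') ω) =
      alive G ρ' (S.c ρ') (g1bA G σ S w (if sel ρ ρ' then false else true) ρ') (g1bSk S w ρ') ω :=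
    fun ρ' => by split_ifs <;> rfl
  simp only [e]
  rw [abs_of_nonneg (prod_nonneg fun ρ' h' =>
    alive_nn (g1b_val hS σ hw hwW _ (mem_of_mem_erase h')).bd _ _ _ _)]
  unfold Pat.Fx drp
  rw [if_pos trivial, sdiff_singleton_eq_erase]
  exact prod_le_prod (fun ρ' h' => alive_nn (g1b_val hS σ hw hwW _ (mem_of_mem_erase h')).bd _ _ _ _)
    fun ρ' h' => alive_mono_skip (g1b_val hS σ hw hwW _ (mem_of_mem_erase h')).bd _ _
      (g1b_data hS w (mem_of_mem_erase h')).2.2.2.1 _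

theorem g1b_sum (hN : NumOK G M pt D qq η Z L) (hB : BaseOK G M B Z L) {S : S1 V} {d : ℕ}
    (hS : S.OK G B L d) {w : V} {a : ℕ} (hw : w ∈ cn G S.h) (hwW : w ∉ S.W) (ha : a < S.c S.h) :
    ∑ ρ ∈ S.H, U2 G M pt D qq η Z (g1bD B S w a) L ρ (g1bWr S ρ) (g1bSk S w ρ) True (S.c ρ) ≤
      fin1 G M pt D qq η Z L S w a := by
  have hZ := hN.Z_ge
  have hD := hN.D_ge
  have hq := hN.qq_nn
  have hΦ := hN.Phi_pos a
  refine (sum_le_sum fun ρ hρ => U2_start hN (g1b_DOK hS hw hwW a) (g1b_St hS hwW a hρ)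
    ((hS.edge ρ hρ).2.2.trans hB.top)).trans ?_
  rw [sum_add_distrib, sum_add_distrib, ← sum_mul, ← mul_sum, sum_const, nsmul_eq_mul, fin1]
  refine add_le_add (add_le_add (mul_le_mul_of_nonneg_right ?_ (by positivity))
    (mul_le_mul_of_nonneg_right ?_ (by positivity))) (mul_le_mul_of_nonneg_left ?_ (by positivity))
  · rw [← add_sum_erase _ _ hS.mark]
    have h0 : adj2 G (g1bD B S w a) S.h (g1bWr S S.h) (g1bSk S w S.h) = 0 := by
      unfold adj2 g1bD g1bWr g1bSk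
      simp only [if_true, Nat.cast_eq_zero, card_eq_zero, sdiff_eq_empty_iff_subset]
      intro x hx
      have := (mem_inter.1 hx).2
      simp only [mem_insert, mem_union, mem_singleton] at this ⊢
      exact this.symm
    rw [h0, zero_add, S1.acc, card_filter]
    push_cast
    rw [← sum_add_distrib]
    refine sum_le_sum fun ρ hρ => ?_
    unfold adj2 g1bD g1bWr g1bSk
    simp only [if_neg (mem_erase.1 hρ).1]
    split_ifs with h
    · have h1 : (cn G ρ ∩ insert w S.W) \ (S.Wr ρ ∪ S.Sk ρ) ⊆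
          insert w ((cn G ρ ∩ S.W) \ (S.Wr ρ ∪ S.Sk ρ)) := by
        intro x hx
        simp only [mem_sdiff, mem_inter, mem_insert] at hx ⊢
        rcases hx.1.2 with h2 | h2
        · exact Or.inl h2
        · exact Or.inr ⟨⟨hx.1.1, h2⟩, hx.2⟩
      exact_mod_cast (card_le_card h1).trans (card_insert_le _ _)
    · rw [inter_insert_of_notMem h, add_zero]
  · have h1 : S.H.card ≤ B.H0.card + (S.H \ B.H0).card := by
      rw [add_comm]; exact card_le_card_sdiff_add_card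
    have h2 := hS.cardH
    have h3 := hB.H_Z
    have h4 : (S.H.card : ℝ) ≤ B.H0.card + 2 * L := by exact_mod_cast (by omega)
    have h5 : (0 : ℝ) ≤ L := Nat.cast_nonneg _
    linarith
  · rw [S1.hold, sum_div]
    refine sum_le_sum fun ρ _ => div_le_div_of_nonneg_right ?_ hΦ.le
    exact mul_le_mul_of_nonneg_left (hN.Phi_mono (max_le_max le_rfl ha.le)) (Nat.cast_nonneg _)

theorem g1b_pre (hN : NumOK G M pt D qq η Z L) (hB : BaseOK G M B Z L)
    {S : S1 V} {d : ℕ} (hS : S.OK G B L d) {σ : Thr V} {w : V}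
    {a : ℕ} (hw : w ∈ cn G S.h) (hwW : w ∉ S.W) (ha : a < S.c S.h)
    (hσ : ∀ p ∈ Tg G, a ≤ σ p.1 p.2) {I : Om V M → ℝ} {𝒮 : Set (Finset V)} (hI : ∀ ω, 0 ≤ I ω)
    (hD : DepTri I 𝒮) (h𝒮 : ∀ T ∈ 𝒮, T ⊆ B.W0 ∨ T ∈ S.J)
    (hJ : ∀ ω, I ω ≠ 0 → ∀ T ∈ S.J, lab ω T = S.s T) {Pre : Om V M → ℝ} (hPre : ∀ ω, 0 ≤ Pre ω)
    (hT : Term G M B pt (8 * L + 10) σ S.h w a Pre) :
    Ex G M (fun ω => Pre ω * (I ω * ind ω (insert w S.h) a *
        |S.Full G σ w false ω - S.Full G σ w true ω|))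
      ≤ Ex G M I * (B.K * ∏ f ∈ S.H \ B.H0, pt (S.c f))
          * (pt a / M * fin1 G M pt D qq η Z L S w a) := by
  have haM : a < M := ha.trans_le ((hS.edge _ hS.mark).2.2.trans hB.top)
  have hI' : ∀ ω, 0 ≤ I ω * ind ω (insert w S.h) a := fun ω => mul_nonneg (hI ω) (ind_nn _ _ _)
  have hnot : insert w S.h ∉ 𝒮 := fun h => by
    rcases h𝒮 _ h with h | h
    · exact hwW (hS.W0 (h (mem_insert_self _ _)))
    · obtain ⟨x, y, -, hxy⟩ := (hS.edge _ hS.mark).1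
      have hx : x ∈ S.h := by simp [hxy]
      have := hS.path.edges _ h x (mem_insert_of_mem hx) w (mem_insert_self _ _)
        (fun h' => not_mem_of_mem_cn hw (h' ▸ hx))
      exact hwW ((hS.edge _ this).2.1 (by simp))
  have key : ∀ ρ ∈ S.H, Ex G M (fun ω => Pre ω * (I ω * ind ω (insert w S.h) a *
      (|alive G ρ (S.c ρ) (g1bA G σ S w false ρ) (g1bSk S w ρ) ω -
        alive G ρ (S.c ρ) (g1bA G σ S w true ρ) (g1bSk S w ρ) ω| *
          (g1bP G σ S w ρ).Fx G (drp True ρ) ω))) ≤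
      pt a * (Ex G M I / M * (B.K * ∏ f ∈ S.H \ B.H0, pt (S.c f))) *
        U2 G M pt D qq η Z (g1bD B S w a) L ρ (g1bWr S ρ) (g1bSk S w ρ) True (S.c ρ) := by
    intro ρ hρ
    obtain ⟨d1, d2, d3, d4, d5, -⟩ := g1b_data hS w hρ
    have := gam2 hN hB (g1b_DOK hS hw hwW a) rfl hσ hPre hT L ρ (g1bWr S ρ) (g1bSk S w ρ) True
      (S.c ρ) (g1bAl S w ρ) (g1bP G σ S w ρ) True (fun ω => I ω * ind ω (insert w S.h) a)
      (𝒮 ∪ {insert w S.h}) (g1b_St hS hwW a hρ) d5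
      ⟨fun f hf => (hS.edge f hf).1, fun f hf => (hS.edge f hf).2.1.trans (subset_insert _ _),
        fun f hf => (hS.edge f hf).2.2, fun f hf _ => by
          rw [union_empty]
          exact g1b_val hS σ hw hwW _ hf⟩
      ⟨hS.W0.trans (subset_insert _ _), hS.H0, hS.c0⟩ (fun _ => ⟨hρ, rfl⟩) (hS.edge ρ hρ).2.2
      Subset.rfl (d3.trans (subset_insert _ _)) d4 Subset.rfl (fun f hf hf' => absurd hf hf')
      (by
        have := g1b_cardO hS w
        change (insert w S.W \ B.W0).card + L ≤ _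
        omega)
      (by
        have h1 := g1b_cardO hS w
        have h2 : (insert w S.W \ g1bWr S ρ).card ≤ (insert w S.W \ B.W0).card :=
          card_le_card (sdiff_subset_sdiff Subset.rfl d1)
        have h3 := hS.cardH
        change (S.H \ B.H0).card + 2 * (L + (insert w S.W \ g1bWr S ρ).card) + 3 ≤ _
        omega)
      hI' (hD.mul (depTri_ind _ _))
      (by
        rintro T (hT | hT)
        · rcases h𝒮 T hT with h | h
          · exact Or.inl (h.trans d1)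
          · exact Or.inr (Or.inl h)
        · exact Or.inr (Or.inr hT))
      (fun ω hω => hJ ω (left_ne_zero_of_mul hω))
    rw [Ex_mul_ind hD hnot haM] at this
    exact this
  refine (Ex_mono hN.Mpos fun ω => mul_le_mul_of_nonneg_left
    (mul_le_mul_of_nonneg_left (g1b_tele hS σ hw hwW ω) (hI' ω)) (hPre ω)).trans ?_
  simp only [mul_sum]
  rw [Ex_sum]
  refine (sum_le_sum key).trans ?_
  rw [← mul_sum]
  have h1 : 0 ≤ pt a * (Ex G M I / M * (B.K * ∏ f ∈ S.H \ B.H0, pt (S.c f))) :=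
    mul_nonneg (hN.pt_nn a) (mul_nonneg (div_nonneg (Ex_nn hN.Mpos hI) hN.Mpos'.le)
      (mul_nonneg hB.K_nn (prod_nonneg fun f _ => hN.pt_nn _)))
  refine (mul_le_mul_of_nonneg_left (g1b_sum hN hB hS hw hwW ha) h1).trans (le_of_eq ?_)
  ring

/-- the path has reached the target: telescope over the roots, apply `gam2` to each root as a start state
(`𝒟 = ⟨W0, insert w W, H, J, s, h, w, a⟩`, `d = L`, `own = True`, `I * ind (insert w h) a`) with the
prefactors `XX` and `mu` (`term_XX`, `term_mu`), and bound the values by `U2_start` -/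
theorem gam1_fin (hN : NumOK G M pt D qq η Z L) (hB : BaseOK G M B Z L)
    (hE : Ext G M B pt (8 * L + 10)) {S : S1 V} {d : ℕ} (hS : S.OK G B L d) {σ : Thr V} {w : V}
    {a : ℕ} (hw : w ∈ cn G S.h) (hwW : w ∉ S.W) (ha : a < S.c S.h)
    (hσ : ∀ p ∈ Tg G, a ≤ σ p.1 p.2) {I : Om V M → ℝ} {𝒮 : Set (Finset V)} (hI : ∀ ω, 0 ≤ I ω)
    (hD : DepTri I 𝒮) (h𝒮 : ∀ T ∈ 𝒮, T ⊆ B.W0 ∨ T ∈ S.J)
    (hJ : ∀ ω, I ω ≠ 0 → ∀ T ∈ S.J, lab ω T = S.s T) :
    Ex G M (fun ω => I ω * (ind ω (insert w S.h) a * ((XX G S.h w a ω + mu G M a S.h w)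
        * |S.Full G σ w false ω - S.Full G σ w true ω|)))
      ≤ Ex G M I * (B.K * ∏ f ∈ S.H \ B.H0, pt (S.c f))
          * (2 * pt a / M * fin1 G M pt D qq η Z L S w a) := by
  have hc := (hS.edge _ hS.mark).2.2
  have haM : a < M := ha.trans_le (hc.trans hB.top)
  have he := (hS.edge _ hS.mark).1
  have hw0 : w ∉ B.W0 := fun h => hwW (hS.W0 h)
  have h1 := g1b_pre hN hB hS hw hwW ha hσ hI hD h𝒮 hJ
    (fun ω => by rcases XX_cases (G := G) S.h w a ω with h | h <;> rw [h] <;> norm_num)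
    (term_XX hN hB hE he hw hw0 (ha.le.trans hc) hσ)
  have h2 := g1b_pre hN hB hS hw hwW ha hσ hI hD h𝒮 hJ (fun _ => (mu_bd haM.le S.h w).1)
    (term_mu hN hB hE he hw hw0 haM)
  refine le_trans (le_of_eq ?_) ((add_le_add h1 h2).trans (le_of_eq (by ring)))
  rw [← Ex_add]
  congr 1
  funext ω
  ring

end Crest.Agent.R030
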