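import Crest.Agent.R030.G1Num
import Crest.Agent.R030.Gam1a
import Crest.Agent.R030.Gam1b

/-! # Row 30: the first particle and the third expansion

`gam1`: induction on `d`; `d = 0`: `gam1_zero`, `card_Tg_le`, `U1_zero`; `d+1`: `abs_Mix_le` (targets with `p.2 ∈ W`
vanish by `Mix_of_mem`), the first summand is `gam1_fin` (`ind · act` forces `a < c h`), the second the induction
hypothesis with `I * ind (insert q h) t` (`Ex_mul_ind`, `S1.step_wgt`, `S1.OK.step`); finish with `U1_step`. -/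

set_option autoImplicit false
set_option linter.unusedSectionVars false

namespace Crest.Agent.R030
open Finset
open scoped Classical

variable {V : Type} [Fintype V] [DecidableEq V] {G : SimpleGraph V} {M : ℕ}
variable {pt : ℕ → ℝ} {D qq η Z : ℝ} {L : ℕ} {B : Base V}

theorem gam1 (hN : NumOK G M pt D qq η Z L) (hB : BaseOK G M B Z L)
    (hE : Ext G M B pt (8 * L + 10)) (σf : ℕ → Finset V × V → Thr V)
    (hσ : ∀ a p, ∀ p' ∈ Tg G, a ≤ σf a p p'.1 p'.2) (d : ℕ) :
    ∀ (S : S1 V) (I : Om V M → ℝ) (𝒮 : Set (Finset V)), S.OK G B L d → (∀ ω, 0 ≤ I ω) →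
      DepTri I 𝒮 → (∀ T ∈ 𝒮, T ⊆ B.W0 ∨ T ∈ S.J) →
      (∀ ω, I ω ≠ 0 → ∀ T ∈ S.J, lab ω T = S.s T) →
      ∑ a ∈ range M, ∑ p ∈ Tg G, Ex G M (fun ω => I ω * (ind ω (insert p.2 p.1) a *
          ((XX G p.1 p.2 a ω + mu G M a p.1 p.2) * |S.Mix G (σf a p) p.1 p.2 ω|)))
        ≤ Ex G M I * (B.K * ∏ f ∈ S.H \ B.H0, pt (S.c f)) * U1 G M pt D qq η Z L d S := by
  have hM := hN.Mpos
  have hM' := hN.Mpos'
  induction d with
  | zero =>
    intro S I 𝒮 hS hI hD h𝒮 _
    have hW : 0 ≤ Ex G M I * (B.K * ∏ f ∈ S.H \ B.H0, pt (S.c f)) :=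
      mul_nonneg (Ex_nn hM hI) (mul_nonneg hB.K_nn (prod_nonneg fun f _ => hN.pt_nn _))
    refine le_trans (sum_le_sum fun a ha => sum_le_sum fun p hp =>
      gam1_zero hN hB hE hS (σf a p) (mem_Tg.1 hp).1 (mem_Tg.1 hp).2 (mem_range.1 ha) hI hD h𝒮) ?_
    simp only [sum_const, card_range, nsmul_eq_mul]
    have h1 := card_Tg_le (G := G)
    have h2 := U1_zero hN S
    generalize Ex G M I * (B.K * ∏ f ∈ S.H \ B.H0, pt (S.c f)) = Wt at hW
    have e : (M : ℝ) * (((Tg G).card : ℝ) * (Wt * (8 / M))) = Wt * (8 * (Tg G).card) := by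
      field_simp
    rw [e]
    exact mul_le_mul_of_nonneg_left (by linarith) hW
  | succ d ih =>
    intro S I 𝒮 hS hI hD h𝒮 hJ
    have hW : 0 ≤ Ex G M I * (B.K * ∏ f ∈ S.H \ B.H0, pt (S.c f)) :=
      mul_nonneg (Ex_nn hM hI) (mul_nonneg hB.K_nn (prod_nonneg fun f _ => hN.pt_nn _))
    obtain ⟨hedge, hsub, htime⟩ := hS.edge S.h hS.mark
    have hcM : S.c S.h ≤ M := htime.trans hB.top
    have hpre : ∀ a < M, ∀ (p : Finset V × V) (ω : Om V M),
        0 ≤ XX G p.1 p.2 a ω + mu G M a p.1 p.2 := by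
      intro a ha p ω
      have := mu_nn (G := G) ha.le p.1 p.2
      rcases XX_cases (G := G) p.1 p.2 a ω with h | h <;> rw [h] <;> linarith
    let F1 : ℕ → Finset V × V → Om V M → ℝ := fun a p ω =>
      if p.1 = S.h ∧ p.2 ∉ S.W ∧ a < S.c S.h then
        I ω * (ind ω (insert p.2 S.h) a * ((XX G S.h p.2 a ω + mu G M a S.h p.2) *
          |S.Full G (σf a p) p.2 false ω - S.Full G (σf a p) p.2 true ω|)) else 0
    let F2 : V → ℕ → V → ℕ → Finset V × V → Om V M → ℝ := fun q t x a p ω =>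
      (I ω * ind ω (insert q S.h) t) * (ind ω (insert p.2 p.1) a *
        ((XX G p.1 p.2 a ω + mu G M a p.1 p.2) * |(S.step q t x).Mix G (σf a p) p.1 p.2 ω|))
    have hF2 : ∀ q t x, ∀ a < M, ∀ p ω, 0 ≤ F2 q t x a p ω := fun q t x a ha p ω =>
      mul_nonneg (mul_nonneg (hI ω) (ind_nn _ _ _))
        (mul_nonneg (ind_nn _ _ _) (mul_nonneg (hpre a ha p ω) (abs_nonneg _)))
    have hpt : ∀ a < M, ∀ p ∈ Tg G, ∀ ω, I ω * (ind ω (insert p.2 p.1) a *
          ((XX G p.1 p.2 a ω + mu G M a p.1 p.2) * |S.Mix G (σf a p) p.1 p.2 ω|)) ≤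
        F1 a p ω + ∑ q ∈ cn G S.h \ S.W, ∑ t ∈ range (S.c S.h), ∑ x ∈ S.h, F2 q t x a p ω := by
      intro a ha p hp ω
      have n2 : ∀ q, 0 ≤ ∑ t ∈ range (S.c S.h), ∑ x ∈ S.h, F2 q t x a p ω := fun q =>
        sum_nonneg fun t _ => sum_nonneg fun x _ => hF2 q t x a ha p ω
      by_cases hw : p.2 ∈ S.W
      · rw [S.Mix_of_mem _ _ hw, abs_zero, mul_zero, mul_zero, mul_zero]
        simp only [F1, hw, not_true_eq_false, false_and, and_false, if_false, zero_add]
        exact sum_nonneg fun q _ => n2 q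
      · have h1 := S1.abs_Mix_le hS (σf a p) (mem_Tg.1 hp).1 (mem_Tg.1 hp).2 hw ω
        have n3 : 0 ≤ I ω * (ind ω (insert p.2 p.1) a * (XX G p.1 p.2 a ω + mu G M a p.1 p.2)) :=
          mul_nonneg (hI ω) (mul_nonneg (ind_nn _ _ _) (hpre a ha p ω))
        have h2 := mul_le_mul_of_nonneg_left h1 n3
        rw [mul_add (I ω * _)] at h2
        refine le_trans (le_of_eq (by ring)) (h2.trans (add_le_add (le_of_eq ?_) ?_))
        · simp only [F1]
          by_cases he : S.h = p.1
          · rw [if_pos he, ← he]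
            unfold ind act
            by_cases hl : lab ω (insert p.2 S.h) = a
            · rw [hl]
              by_cases hlt : a < S.c S.h
              · simp only [hlt, hw, if_true, not_false_eq_true, and_self]; ring
              · simp [hlt]
            · simp [hl]
          · rw [if_neg he, if_neg (fun h => he h.1.symm), mul_zero]
        · refine le_trans (le_of_eq ?_) (sum_le_sum_of_subset_of_nonneg (erase_subset p.2 _)
            fun q _ _ => n2 q)
          simp only [mul_sum, F2]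
          exact sum_congr rfl fun q _ => sum_congr rfl fun t _ => sum_congr rfl fun x _ => by ring
    have hA : ∑ a ∈ range M, ∑ p ∈ Tg G, Ex G M (F1 a p) ≤
        ∑ q ∈ cn G S.h \ S.W, ∑ t ∈ range (S.c S.h),
          Ex G M I * (B.K * ∏ f ∈ S.H \ B.H0, pt (S.c f)) *
            (2 * pt t / M * fin1 G M pt D qq η Z L S q t) := by
      rw [sum_comm (s := cn G S.h \ S.W)]
      have e1 : ∑ a ∈ range M, ∑ p ∈ Tg G, Ex G M (F1 a p) =
          ∑ a ∈ range (S.c S.h), ∑ p ∈ Tg G, Ex G M (F1 a p) := by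
        refine (sum_subset (range_subset_range.2 hcM) fun a _ ha => sum_eq_zero fun p _ => ?_).symm
        have : F1 a p = fun _ => 0 := by
          funext ω; simp only [F1]; rw [if_neg fun h => ha (mem_range.2 h.2.2)]
        rw [this, Ex_const hM]
      rw [e1]
      refine sum_le_sum fun a ha => ?_
      have e2 : ∑ p ∈ Tg G, Ex G M (F1 a p) =
          ∑ p ∈ (cn G S.h \ S.W).image (fun q => (S.h, q)), Ex G M (F1 a p) := by
        refine (sum_subset (fun p hp => ?_) fun p hp hp' => ?_).symm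
        · obtain ⟨q, hq, rfl⟩ := mem_image.1 hp
          exact mem_Tg.2 ⟨hedge, (mem_sdiff.1 hq).1⟩
        · have : F1 a p = fun _ => 0 := by
            funext ω; simp only [F1]
            rw [if_neg]
            rintro ⟨h1, h2, -⟩
            refine hp' (mem_image.2 ⟨p.2, mem_sdiff.2 ⟨?_, h2⟩, ?_⟩)
            · rw [← h1]; exact (mem_Tg.1 hp).2
            · rw [← h1]
          rw [this, Ex_const hM]
      rw [e2, sum_image fun q _ q' _ h => (Prod.ext_iff.1 h).2]
      refine sum_le_sum fun q hq => ?_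
      obtain ⟨hq1, hq2⟩ := mem_sdiff.1 hq
      have := gam1_fin hN hB hE hS hq1 hq2 (mem_range.1 ha) (hσ a (S.h, q)) hI hD h𝒮 hJ
      refine le_trans (le_of_eq ?_) this
      congr 1
      funext ω
      simp only [F1, hq2, mem_range.1 ha, not_false_eq_true, and_self, if_true]
    have hBB : ∀ q ∈ cn G S.h \ S.W, ∀ t ∈ range (S.c S.h), ∀ x ∈ S.h,
        ∑ a ∈ range M, ∑ p ∈ Tg G, Ex G M (F2 q t x a p) ≤
          Ex G M I * (B.K * ∏ f ∈ S.H \ B.H0, pt (S.c f)) *
            (pt t ^ 2 / M * U1 G M pt D qq η Z L d (S.step q t x)) := by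
      intro q hq t ht x hx
      obtain ⟨hq1, hq2⟩ := mem_sdiff.1 hq
      have ht' := mem_range.1 ht
      have hnot : insert q S.h ∉ 𝒮 := by
        intro h
        rcases h𝒮 _ h with h | h
        · exact hq2 (hS.W0 (h (mem_insert_self _ _)))
        · have hxq : x ≠ q := fun e => not_mem_of_mem_cn hq1 (e ▸ hx)
          have := hS.path.edges _ h x (mem_insert_of_mem hx) q (mem_insert_self _ _) hxq
          exact hq2 ((hS.edge _ this).2.1 (by simp))
      have := ih (S.step q t x) (fun ω => I ω * ind ω (insert q S.h) t) (𝒮 ∪ {insert q S.h})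
        (hS.step hq1 hq2 ht' hx) (fun ω => mul_nonneg (hI ω) (ind_nn _ _ _))
        (hD.mul (depTri_ind _ _)) (by
          rintro T (hT | hT)
          · exact (h𝒮 T hT).imp id fun h => mem_insert_of_mem h
          · right; rw [Set.mem_singleton_iff.1 hT]; exact mem_insert_self _ _) (by
          intro ω hω T hT
          have h1 : I ω ≠ 0 := left_ne_zero_of_mul hω
          have h2 : lab ω (insert q S.h) = t := by
            have := right_ne_zero_of_mul hω
            by_contra hc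
            exact this (by simp [ind, hc])
          simp only [S1.step] at hT ⊢
          split_ifs with h3
          · rw [h3, h2]
          · exact hJ ω h1 T ((mem_insert.1 hT).resolve_left h3))
      rw [Ex_mul_ind hD hnot (lt_of_lt_of_le ht' hcM), S1.step_wgt hS hq2] at this
      exact this.trans (le_of_eq (by ring))
    calc _ ≤ ∑ a ∈ range M, ∑ p ∈ Tg G, (Ex G M (F1 a p) +
            ∑ q ∈ cn G S.h \ S.W, ∑ t ∈ range (S.c S.h), ∑ x ∈ S.h, Ex G M (F2 q t x a p)) := by
          refine sum_le_sum fun a ha => sum_le_sum fun p hp =>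
            (Ex_mono hM (hpt a (mem_range.1 ha) p hp)).trans (le_of_eq ?_)
          rw [Ex_add, Ex_sum]
          simp only [Ex_sum]
      _ = ∑ a ∈ range M, ∑ p ∈ Tg G, Ex G M (F1 a p) +
            ∑ q ∈ cn G S.h \ S.W, ∑ t ∈ range (S.c S.h), ∑ x ∈ S.h,
              ∑ a ∈ range M, ∑ p ∈ Tg G, Ex G M (F2 q t x a p) := by
          simp only [sum_add_distrib]
          congr 1
          simp only [sum_comm (s := Tg G), sum_comm (s := range M) (t := cn G S.h \ S.W)]
          refine sum_congr rfl fun q _ => ?_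
          rw [sum_comm]
          refine sum_congr rfl fun t _ => ?_
          rw [sum_comm]
      _ ≤ _ := by
          refine (add_le_add hA (sum_le_sum fun q hq => sum_le_sum fun t ht => sum_le_sum
            fun x hx => hBB q hq t ht x hx)).trans ?_
          refine le_trans (le_of_eq ?_) (mul_le_mul_of_nonneg_left (U1_step hN hB hS) hW)
          simp only [mul_sum, mul_add, sum_add_distrib]
          rw [add_comm]

/-- start: telescope over the base roots; the state has `W = W0`, `H = H0`, `Wr = W0`, `Sk = ∅`, `J = ∅` -/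
theorem exp3 (hN : NumOK G M pt D qq η Z L) (hB : BaseOK G M B Z L)
    (hE : Ext G M B pt (8 * L + 10)) (σf : ℕ → Finset V × V → Thr V)
    (hσ : ∀ a p, ∀ p' ∈ Tg G, a ≤ σf a p p'.1 p'.2) (I : Om V M → ℝ)
    (hI : ∀ ω, 0 ≤ I ω) (hD : DepTri I {T | T ⊆ B.W0}) :
    ∑ a ∈ range M, ∑ p ∈ Tg G, Ex G M (fun ω => I ω * (ind ω (insert p.2 p.1) a *
        ((XX G p.1 p.2 a ω + mu G M a p.1 p.2) *
          |(Fcan G (σf a p) (ovT p.1 p.2 1 false) B ω - Fcan G (σf a p) (ovT p.1 p.2 0 false) B ω)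
            - (Fcan G (σf a p) (ovT p.1 p.2 1 true) B ω - Fcan G (σf a p) (ovT p.1 p.2 0 true) B ω)|)))
      ≤ Ex G M I * B.K * (1200 * qq * Z ^ 13) := by
  have hM := hN.Mpos
  let St : Finset V → S1 V := fun h =>
    ⟨B.W0, B.H0, B.c0, fun _ => B.W0, fun _ => ∅, fun ρ _ => if sel h ρ then 1 else 0, ∅,
      fun _ => 0, h⟩
  have hnew : ∀ ρ ∈ B.H0, ∀ q, q ∉ B.W0 → ∃ x ∈ ρ, ({x, q} : Finset V) ∉ B.H0 := by
    intro ρ hρ q hq
    obtain ⟨x, y, -, rfl⟩ := hB.edge ρ hρ
    exact ⟨x, by simp, fun h => hq (hB.sub _ h (by simp))⟩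
  have hOK : ∀ h ∈ B.H0, (St h).OK G B L L := by
    intro h hh
    refine ⟨fun f hf => ⟨hB.edge f hf, hB.sub f hf, hB.time f hf⟩, Subset.rfl, Subset.rfl,
      fun _ _ => rfl, hh, fun ρ hρ _ => ⟨Subset.rfl, hB.sub ρ hρ, Subset.rfl, empty_subset _,
        fun q => ?_, fun q _ hq _ => hnew ρ hρ q hq⟩,
      ⟨fun T hT => absurd hT (notMem_empty _), fun T hT => absurd hT (notMem_empty _),
        fun f hf q hq hall => ?_, fun T hT => absurd hT (notMem_empty _), fun T hT => ?_⟩,
      fun T hT => absurd hT (notMem_empty _), by simp [St], by simp [St], by simp [St]⟩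
    · simp only [St]; split_ifs <;> norm_num
    · obtain ⟨x, hx, hx'⟩ := hnew f hf q hq
      exact absurd (hall x hx) hx'
    · simp [St] at hT
  have htel : ∀ (σ : Thr V) (e : Finset V) (w : V) (j : Bool) (ω : Om V M),
      Fcan G σ (ovT e w 1 j) B ω - Fcan G σ (ovT e w 0 j) B ω =
        ∑ h ∈ B.H0, (St h).Dif G σ e w j ω * (St h).Rest G σ e w j ω := by
    intro σ e w j ω
    unfold Fcan
    rw [prod_sub_prod_sel]
    refine sum_congr rfl fun h _ => ?_
    simp only [S1.Dif, S1.Rest, St]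
    congr 1
    refine prod_congr rfl fun ρ _ => ?_
    split_ifs <;> rfl
  have hK : 0 ≤ Ex G M I * B.K := mul_nonneg (Ex_nn hM hI) hB.K_nn
  have hZ := hN.Z_ge
  have hq := hN.qq_nn
  calc _ ≤ ∑ a ∈ range M, ∑ p ∈ Tg G, ∑ h ∈ B.H0, Ex G M (fun ω => I ω *
          (ind ω (insert p.2 p.1) a * ((XX G p.1 p.2 a ω + mu G M a p.1 p.2) *
            |(St h).Mix G (σf a p) p.1 p.2 ω|))) := by
        refine sum_le_sum fun a ha => sum_le_sum fun p _ => ?_
        rw [← Ex_sum]
        refine Ex_mono hM fun ω => ?_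
        rw [← mul_sum, ← mul_sum, ← mul_sum, htel, htel, ← sum_sub_distrib]
        have h1 := mu_nn (G := G) (mem_range.1 ha).le p.1 p.2
        have h2 : 0 ≤ XX G p.1 p.2 a ω := by
          rcases XX_cases (G := G) p.1 p.2 a ω with h | h <;> rw [h] <;> norm_num
        exact mul_le_mul_of_nonneg_left (mul_le_mul_of_nonneg_left (mul_le_mul_of_nonneg_left
          (abs_sum_le_sum_abs _ _) (by linarith)) (ind_nn _ _ _)) (hI ω)
    _ = ∑ h ∈ B.H0, ∑ a ∈ range M, ∑ p ∈ Tg G, Ex G M (fun ω => I ω *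
          (ind ω (insert p.2 p.1) a * ((XX G p.1 p.2 a ω + mu G M a p.1 p.2) *
            |(St h).Mix G (σf a p) p.1 p.2 ω|))) := by
        simp only [sum_comm (s := Tg G) (t := B.H0)]
        rw [sum_comm]
    _ ≤ ∑ _h ∈ B.H0, Ex G M I * B.K * (1200 * qq * Z ^ 12) := by
        refine sum_le_sum fun h hh => ?_
        have h1 := gam1 hN hB hE σf hσ L (St h) I {T | T ⊆ B.W0} (hOK h hh) hI hD
          (fun T hT => Or.inl hT) (fun _ _ T hT => absurd hT (notMem_empty _))
        have h2 := U1_init hN hB (hOK h hh) (by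
          simp only [S1.acc, St, union_empty]
          exact sum_eq_zero fun x _ => by
            rw [sdiff_eq_empty_iff_subset.2 inter_subset_right]; simp)
        have h3 : ∏ f ∈ (St h).H \ B.H0, pt ((St h).c f) = 1 := by simp [St]
        rw [h3, mul_one] at h1
        exact h1.trans (mul_le_mul_of_nonneg_left h2 hK)
    _ ≤ _ := by
        rw [sum_const, nsmul_eq_mul]
        have h1 : (B.H0.card : ℝ) ≤ Z := by
          have := hB.H_Z
          have : (0 : ℝ) ≤ L := Nat.cast_nonneg _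
          linarith
        have h2 : 0 ≤ Ex G M I * B.K * (1200 * qq * Z ^ 12) :=
          mul_nonneg hK (by have : 0 ≤ Z := by linarith
                            positivity)
        exact (mul_le_mul_of_nonneg_right h1 h2).trans (le_of_eq (by ring))

end Crest.Agent.R030
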