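import Crest.Agent.R030.Tele

/-! # Row 30: one Lindeberg step and the end of the chain -/

set_option autoImplicit false
set_option linter.unusedSectionVars false

namespace Crest.Agent.R030
open Finset
open scoped Classical

variable {V : Type} [Fintype V] [DecidableEq V] {G : SimpleGraph V} {M : ℕ}
variable {pt : ℕ → ℝ} {D qq η Z : ℝ} {L : ℕ} {B : Base V}

theorem Fcan_raise_off {σ : Thr V} {e : Finset V} {w : V} {a : ℕ} (hσ : σ e w = a) {ω : Om V M}
    (hl : lab ω (insert w e) ≠ a) : Fcan G (raise σ e w a) noOv B ω = Fcan G σ noOv B ω := by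
  unfold Fcan alive canF
  simp only [can_raise_off hσ hl]

theorem Fcan_raise_on {σ : Thr V} {e : Finset V} {w : V} {a : ℕ} {ω : Om V M}
    (hl : lab ω (insert w e) = a) :
    Fcan G (raise σ e w a) noOv B ω = Fcan G σ (ovT e w (bit ω e w) false) B ω := by
  unfold Fcan alive canF
  simp only [can_raise_on hl]

theorem Fcan_false_of_mem {σ : Thr V} {e : Finset V} {w : V} (hw : w ∈ B.W0) (α : ℝ)
    (ω : Om V M) : Fcan G σ (ovT e w α false) B ω = Fcan G σ noOv B ω := by
  unfold Fcan alive canF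
  simp only [can_ovT_false_of_mem hw]

theorem dependsOn_mul' {ι : Type} {β : ι → Type} {f g : (∀ i, β i) → ℝ} {s : Set ι}
    (hf : DependsOn f s) (hg : DependsOn g s) : DependsOn (fun ω => f ω * g ω) s := by
  intro x y hxy
  show f x * g x = f y * g y
  rw [hf hxy, hg hxy]

theorem dependsOn_sub' {ι : Type} {β : ι → Type} {f g : (∀ i, β i) → ℝ} {s : Set ι}
    (hf : DependsOn f s) (hg : DependsOn g s) : DependsOn (fun ω => f ω - g ω) s := by
  intro x y hxy
  show f x - g x = f y - g y
  rw [hf hxy, hg hxy]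

/-- one Lindeberg step.  If `w ∈ W0` both sides agree.  Otherwise, with `G α j = Fcan σ (ovT e w α j)`:
off `lab = a` nothing changes (`can_raise_off`), on it the new value is `G bit false` (`can_raise_on`);
`G XX false - G bit false = (XX - bit) (G 1 false - G 0 false)`; the ideal variable of `(e,w)` is independent of
the rest (`dependsOn_Fcan_false`, `Ex_lt_tau`) so `bit` may be replaced by `mu a e w`;
`Ex (I · ind · (XX - mu) · (G 1 true - G 0 true)) = 0` by independence (`dependsOn_Fcan_true`,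
`dependsOn_XX`, `Ex_XX`). -/
theorem lind_step (hM : 0 < M) {σ : Thr V} {e : Finset V} {w : V} {a : ℕ} (he : IsEdge G e)
    (hw : w ∈ cn G e) (ha : a < M) (hσ : σ e w = a) {I : Om V M → ℝ} (hI : ∀ ω, 0 ≤ I ω)
    (hD : DepTri I {T | T ⊆ B.W0}) :
    |Ex G M (fun ω => I ω * Fcan G σ noOv B ω) - Ex G M (fun ω => I ω * Fcan G (raise σ e w a) noOv B ω)|
      ≤ Ex G M (fun ω => I ω * (ind ω (insert w e) a *
          |Fcan G σ noOv B ω - Fcan G σ (ovT e w (XX G e w a ω) false) B ω|))
        + Ex G M (fun ω => I ω * (ind ω (insert w e) a * ((XX G e w a ω + mu G M a e w) *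
          |(Fcan G σ (ovT e w 1 false) B ω - Fcan G σ (ovT e w 0 false) B ω)
            - (Fcan G σ (ovT e w 1 true) B ω - Fcan G σ (ovT e w 0 true) B ω)|))) := by
  have hmu : 0 ≤ mu G M a e w := mu_nn ha.le e w
  have hX0 : ∀ ω : Om V M, 0 ≤ XX G e w a ω := fun ω => by
    rcases XX_cases (G := G) e w a ω with h | h <;> rw [h] <;> norm_num
  by_cases hwW : w ∈ B.W0
  · have h0 : (fun ω => I ω * Fcan G (raise σ e w a) noOv B ω)
        = fun ω => I ω * Fcan G σ noOv B ω := by
      funext ω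
      by_cases hl : lab ω (insert w e) = a
      · rw [Fcan_raise_on hl, Fcan_false_of_mem hwW]
      · rw [Fcan_raise_off hσ hl]
    rw [h0, sub_self, abs_zero]
    refine add_nonneg (Ex_nn hM fun ω => ?_) (Ex_nn hM fun ω => ?_)
    · exact mul_nonneg (hI ω) (mul_nonneg (ind_nn _ _ _) (abs_nonneg _))
    · exact mul_nonneg (hI ω) (mul_nonneg (ind_nn _ _ _)
        (mul_nonneg (add_nonneg (hX0 ω) hmu) (abs_nonneg _)))
  set F0 : Om V M → ℝ := Fcan G σ noOv B with hF0
  set Df : Om V M → ℝ := fun ω =>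
    Fcan G σ (ovT e w 1 false) B ω - Fcan G σ (ovT e w 0 false) B ω with hDf
  set Dt : Om V M → ℝ := fun ω =>
    Fcan G σ (ovT e w 1 true) B ω - Fcan G σ (ovT e w 0 true) B ω with hDt
  set τ : Om V M → ℝ := fun ω => if a < (ω (Sum.inr (e, w)) : ℕ) then 1 else 0 with hτ
  set m : ℝ := mu G M a e w with hm
  set i : Om V M → ℝ := fun ω => ind ω (insert w e) a with hi
  -- pointwise decomposition
  have hpt : ∀ ω, I ω * F0 ω - I ω * Fcan G (raise σ e w a) noOv B ω
      = I ω * (i ω * (F0 ω - Fcan G σ (ovT e w (XX G e w a ω) false) B ω))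
        + I ω * (i ω * ((XX G e w a ω - m) * (Df ω - Dt ω)))
        + (I ω * i ω * Dt ω) * (XX G e w a ω - m) - (I ω * i ω * Df ω) * (τ ω - m) := by
    intro ω
    by_cases hl : lab ω (insert w e) = a
    · have h1 : i ω = 1 := by simp [hi, ind, hl]
      have h2 : τ ω = bit ω e w := by simp only [hτ, bit, hl]
      rw [Fcan_raise_on hl, h1, h2]
      have h3 : Fcan G σ (ovT e w (XX G e w a ω) false) B ω
          - Fcan G σ (ovT e w (bit ω e w) false) B ω = (XX G e w a ω - bit ω e w) * Df ω := by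
        simp only [hDf]
        rcases XX_cases (G := G) e w a ω with h | h <;> rcases bit_cases ω e w with h' | h' <;>
          rw [h, h'] <;> ring
      linear_combination I ω * h3
    · have h1 : i ω = 0 := by simp [hi, ind, hl]
      rw [Fcan_raise_off hσ hl, h1]
      ring
  have hTW : ¬ insert w e ⊆ B.W0 := fun hh => hwW (hh (mem_insert_self _ _))
  -- the two vanishing terms
  have hz1 : Ex G M (fun ω => (I ω * i ω * Df ω) * (τ ω - m)) = 0 := by
    rw [Ex_mul_of_indep hM (s := {j | j ≠ Sum.inr (e, w)}) (t := {Sum.inr (e, w)}), Ex_sub,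
      Ex_const hM, Ex_lt_tau ha, sub_self, mul_zero]
    · refine dependsOn_mul' (dependsOn_mul' (DependsOn.mono ?_ hD) ?_)
        (dependsOn_sub' (dependsOn_Fcan_false e w 1 B) (dependsOn_Fcan_false e w 0 B))
      · rintro j hj rfl
        exact hTW hj
      · intro x y hxy
        have hl : lab x (insert w e) = lab y (insert w e) :=
          congrArg Fin.val (hxy (Sum.inl (insert w e)) (by simp))
        show ind x _ a = ind y _ a
        unfold ind
        rw [hl]
    · intro x y hxy
      show τ x - m = τ y - m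
      simp only [hτ]
      rw [hxy _ (Set.mem_singleton _)]
    · rw [Set.disjoint_singleton_right]
      simp
  have hz2 : Ex G M (fun ω => (I ω * i ω * Dt ω) * (XX G e w a ω - m)) = 0 := by
    rw [Ex_mul_of_indep hM (s := {j | ¬ Xi e w (tri j)}) (t := {j | Xi e w (tri j)}), Ex_sub,
      Ex_const hM, Ex_XX hM he hw ha.le, sub_self, mul_zero]
    · refine dependsOn_mul' (dependsOn_mul' (DependsOn.mono ?_ hD)
        (DependsOn.mono ?_ (depTri_ind (insert w e) a)))
        (dependsOn_sub' (DependsOn.mono ?_ (dependsOn_Fcan_true e w 1 B))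
          (DependsOn.mono ?_ (dependsOn_Fcan_true e w 0 B)))
      · intro j hj hX
        exact hwW (hj hX.1)
      · intro j hj hX
        exact hX.2.2 hj
      · exact fun j hj => hj.2
      · exact fun j hj => hj.2
    · exact dependsOn_sub' (dependsOn_XX e w a) fun _ _ _ => rfl
    · rw [Set.disjoint_left]
      exact fun j hj hj' => hj hj'
  rw [← Ex_sub]
  simp only [hpt]
  rw [Ex_sub, Ex_add, hz1, hz2, Ex_add, add_zero, sub_zero]
  refine (abs_add_le _ _).trans (add_le_add ?_ ?_)
  · refine (abs_Ex_le hM _).trans (Ex_mono hM fun ω => le_of_eq ?_)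
    rw [abs_mul, abs_mul, abs_of_nonneg (hI ω), abs_of_nonneg (ind_nn _ _ _)]
  · refine (abs_Ex_le hM _).trans (Ex_mono hM fun ω => ?_)
    rw [abs_mul, abs_mul, abs_mul, abs_of_nonneg (hI ω), abs_of_nonneg (ind_nn _ _ _)]
    refine mul_le_mul_of_nonneg_left (mul_le_mul_of_nonneg_left
      (mul_le_mul_of_nonneg_right ?_ (abs_nonneg _)) (ind_nn _ _ _)) (hI ω)
    rw [abs_le]
    constructor <;> linarith [hX0 ω]

/-- the end of the chain (`alive_can_ideal`, `Ex_prod_of_indep`, `Ex_act_bit`; a triangle with apex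
outside `W0` contains only one edge inside `W0`) -/
theorem Ex_Fcan_top (hM : 0 < M) (hB : BaseOK G M B Z L) {σ : Thr V}
    (hσ : ∀ p ∈ Tg G, M ≤ σ p.1 p.2) {I : Om V M → ℝ} (hD : DepTri I {T | T ⊆ B.W0}) :
    Ex G M (fun ω => I ω * Fcan G σ noOv B ω) = Ex G M I * Vdrop G M B := by
  set s : Finset (Finset V × V) := univ.filter fun p => p.1 ∈ B.H0 ∧ p.2 ∈ cn G p.1 \ B.W0 with hs
  have hprod : ∀ F : Finset V → V → ℝ, ∏ h ∈ B.H0, ∏ q ∈ cn G h \ B.W0, F h q
      = ∏ p ∈ s, F p.1 p.2 := by
    intro F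
    symm
    apply prod_finset_product' s B.H0 (fun h => cn G h \ B.W0)
    intro p
    simp only [hs, mem_filter, mem_univ, true_and]
  have hc : ∀ h ∈ B.H0, B.c0 h ≤ M := fun h hh => (hB.time h hh).trans hB.top
  have h1 : Fcan (M := M) G σ noOv B = fun ω => ∏ p ∈ s,
      (1 - act ω (insert p.2 p.1) (B.c0 p.1) * bit ω p.1 p.2) := by
    funext ω
    unfold Fcan
    rw [← hprod fun h q => 1 - act ω (insert q h) (B.c0 h) * bit ω h q]
    exact prod_congr rfl fun h hh => alive_can_ideal (hB.edge h hh)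
      (fun p hp => (hc h hh).trans (hσ p hp)) _ _
  have h2 : Vdrop G M B = ∏ p ∈ s, (1 - abar G M (B.c0 p.1) p.1 p.2) :=
    hprod fun h q => 1 - abar G M (B.c0 h) h q
  have hdep : ∀ p : Finset V × V, DepTri (fun ω : Om V M =>
      1 - act ω (insert p.2 p.1) (B.c0 p.1) * bit ω p.1 p.2) {insert p.2 p.1} := fun p =>
    dependsOn_sub' (fun _ _ _ => rfl)
      (((depTri_act (insert p.2 p.1) (B.c0 p.1)).mul (depTri_bit p.1 p.2)).mono (by simp))
  have hmem : ∀ p ∈ s, p.1 ∈ B.H0 ∧ p.2 ∈ cn G p.1 ∧ p.2 ∉ B.W0 := by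
    intro p hp
    simpa only [hs, mem_filter, mem_univ, true_and, mem_sdiff] using hp
  rw [h1, h2, Ex_mul_of_depTri hM hD (𝒮' := {T | ¬ T ⊆ B.W0}), Ex_prod_of_indep hM s
    (fun p ω => 1 - act ω (insert p.2 p.1) (B.c0 p.1) * bit ω p.1 p.2)
    (fun p => {i | tri i ∈ ({insert p.2 p.1} : Set (Finset V))}) (fun p _ => hdep p)]
  · congr 1
    refine prod_congr rfl fun p hp => ?_
    rw [Ex_sub, Ex_const hM, Ex_act_bit hM (hc _ (hmem p hp).1)]
  · rintro ⟨h, q⟩ hp ⟨h', q'⟩ hp' hne
    rw [Set.disjoint_left]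
    intro i hi hi'
    have hi1 : tri i = insert q h := hi
    have hi2 : tri i = insert q' h' := hi'
    have heq : (insert q h : Finset V) = insert q' h' := hi1.symm.trans hi2
    obtain ⟨hh, hq, hqW⟩ := hmem _ hp
    obtain ⟨hh', hq', hqW'⟩ := hmem _ hp'
    have hqq : q = q' := by
      have : q ∈ (insert q' h' : Finset V) := by rw [← heq]; simp
      rcases mem_insert.1 this with h0 | h0
      · exact h0
      · exact absurd (hB.sub _ hh' h0) hqW
    subst hqq
    apply hne
    have := congrArg (fun T => Finset.erase T q) heq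
    simp only [erase_insert (not_mem_of_mem_cn hq), erase_insert (not_mem_of_mem_cn hq')] at this
    rw [this]
  · intro x y hxy
    refine prod_congr rfl fun p hp => hdep p fun i hi => hxy i ?_
    have hi1 : tri i = insert p.2 p.1 := hi
    show ¬ tri i ⊆ B.W0
    rw [hi1]
    exact fun hh => (hmem p hp).2.2 (hh (mem_insert_self _ _))
  · rw [Set.disjoint_left]
    exact fun T hT hT' => hT' hT

end Crest.Agent.R030
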