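import Crest.Agent.R030.Exp2
import Crest.Agent.R030.Gam1
import Crest.Agent.R030.Lind

/-! # Row 30: the expansion theorem

Raise the thresholds one pair at a time.  With an enumeration `k : Tg G ≃ Fin N` put
`σ a j := fun h q => max (σ0 h q) (if (h,q) ∈ Tg ∧ index < j then a+1 else a)`; `σ 0 0 = σ0`, `σ a N = σ (a+1) 0` on `Tg`,
`σ M 0 ≥ M`. -/

set_option autoImplicit false
set_option linter.unusedSectionVars false

namespace Crest.Agent.R030
open Finset
open scoped Classical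

variable {V : Type} [Fintype V] [DecidableEq V] {G : SimpleGraph V} {M : ℕ}
variable {pt : ℕ → ℝ} {D qq η Z : ℝ} {L : ℕ} {B : Base V}

theorem expand_exists_idx {α : Type} (s : Finset α) :
    ∃ idx : α → ℕ, Set.InjOn idx s ∧ (∀ p ∈ s, idx p < s.card) ∧
      ∀ f : ℕ → ℝ, ∑ p ∈ s, f (idx p) = ∑ j ∈ range s.card, f j := by
  refine ⟨fun p => if hp : p ∈ s then (s.equivFin ⟨p, hp⟩ : ℕ) else 0, ?_, ?_, ?_⟩
  · intro p hp p' hp' h
    have hp1 : p ∈ s := hp
    have hp2 : p' ∈ s := hp'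
    simp only [dif_pos hp1, dif_pos hp2] at h
    exact congrArg Subtype.val (s.equivFin.injective (Fin.ext h))
  · intro p hp
    simp only [dif_pos hp]
    exact (s.equivFin ⟨p, hp⟩).2
  · intro f
    rw [← sum_coe_sort s, ← Fin.sum_univ_eq_sum_range, ← s.equivFin.sum_comp]
    refine sum_congr rfl fun p _ => ?_
    simp only [dif_pos p.2]

theorem expand_tele (φ : ℕ → ℝ) (n : ℕ) : |φ 0 - φ n| ≤ ∑ j ∈ range n, |φ j - φ (j + 1)| := by
  rw [← sum_range_sub']
  exact abs_sum_le_sum_abs _ _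

theorem expand_Fcan_congr (hB : BaseOK G M B Z L) {σ σ' : Thr V}
    (hσ : ∀ p ∈ Tg G, σ p.1 p.2 = σ' p.1 p.2) (ov : Ov V) (ω : Om V M) :
    Fcan G σ ov B ω = Fcan G σ' ov B ω := by
  unfold Fcan
  refine prod_congr rfl fun h hh => alive_congr fun q hq _ => ?_
  unfold canF
  rw [can_congr_thr hσ ov ω B.W0 (hB.edge h hh) hq]

/-- `exp1`, the chain (`lind_step`, `can_congr_thr`), `exp2`, `exp3`, `Ex_Fcan_top` -/
theorem expansion (hN : NumOK G M pt D qq η Z L) (hB : BaseOK G M B Z L)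
    (hE : Ext G M B pt (8 * L + 10)) (σ : Thr V) (P : Pat V M) (hW : P.W = B.W0) (hH : P.H = B.H0)
    (hc : ∀ h ∈ B.H0, P.c h = B.c0 h) (hP : P.WFx G σ B.ctop ∅ ∅) (I : Om V M → ℝ)
    (hI : ∀ ω, 0 ≤ I ω) (hD : DepTri I {T | T ⊆ B.W0}) :
    |Ex G M (fun ω => I ω * P.Fx G ∅ ω) - Ex G M I * Vdrop G M B|
      ≤ Ex G M I * B.K * (2000 * qq * Z ^ 13) := by
  have hM := hN.Mpos
  obtain ⟨idx, hinj, hlt, hsum⟩ := expand_exists_idx (Tg G)
  set N := (Tg G).card with hNdef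
  let τ : ℕ → ℕ → Thr V := fun a j h q => max (σ h q) (if idx (h, q) < j then a + 1 else a)
  let φ : Thr V → ℝ := fun θ => Ex G M (fun ω => I ω * Fcan G θ noOv B ω)
  have hφ : ∀ θ θ' : Thr V, (∀ p ∈ Tg G, θ p.1 p.2 = θ' p.1 p.2) → φ θ = φ θ' := by
    intro θ θ' h
    simp only [φ, expand_Fcan_congr hB h]
  let σf : ℕ → Finset V × V → Thr V := fun a p => τ a (idx p)
  have hσf : ∀ a p, ∀ p' ∈ Tg G, a ≤ σf a p p'.1 p'.2 := by
    intro a p p' _
    simp only [σf, τ]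
    refine le_max_of_le_right ?_
    split_ifs <;> omega
  let E2 : ℕ → Finset V × V → ℝ := fun a p =>
    Ex G M (fun ω => I ω * (ind ω (insert p.2 p.1) a *
      |Fcan G (σf a p) noOv B ω - Fcan G (σf a p) (ovT p.1 p.2 (XX G p.1 p.2 a ω) false) B ω|))
  let E3 : ℕ → Finset V × V → ℝ := fun a p =>
    Ex G M (fun ω => I ω * (ind ω (insert p.2 p.1) a *
        ((XX G p.1 p.2 a ω + mu G M a p.1 p.2) *
          |(Fcan G (σf a p) (ovT p.1 p.2 1 false) B ω - Fcan G (σf a p) (ovT p.1 p.2 0 false) B ω)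
            - (Fcan G (σf a p) (ovT p.1 p.2 1 true) B ω
              - Fcan G (σf a p) (ovT p.1 p.2 0 true) B ω)|)))
  have hstep : ∀ a < M, ∀ p ∈ Tg G, |φ (τ a (idx p)) - φ (τ a (idx p + 1))|
      ≤ (if σf a p p.1 p.2 = a then E2 a p else 0) + E3 a p := by
    intro a ha p hp
    have hoff : ∀ p' ∈ Tg G, p' ≠ p → τ a (idx p + 1) p'.1 p'.2 = τ a (idx p) p'.1 p'.2 := by
      intro p' hp' hne
      have : idx p' ≠ idx p := fun e => hne (hinj hp' hp e)
      have h2 : idx (p'.1, p'.2) < idx p + 1 ↔ idx (p'.1, p'.2) < idx p := by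
        change idx p' < idx p + 1 ↔ idx p' < idx p
        omega
      simp only [τ, h2]
    have hon1 : τ a (idx p + 1) p.1 p.2 = max (σ p.1 p.2) (a + 1) := by
      simp only [τ]
      rw [if_pos (Nat.lt_succ_self _)]
    have hon0 : σf a p p.1 p.2 = max (σ p.1 p.2) a := by
      simp only [σf, τ]
      rw [if_neg (lt_irrefl _)]
    split_ifs with hc
    · have h1 : φ (τ a (idx p + 1)) = φ (raise (σf a p) p.1 p.2 a) := by
        refine hφ _ _ fun p' hp' => ?_
        unfold raise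
        by_cases hne : p' = p
        · subst hne
          rw [if_pos ⟨rfl, rfl⟩, hon1]
          rw [hon0] at hc
          omega
        · rw [if_neg (fun e => hne (Prod.ext e.1 e.2)), hoff p' hp' hne]
      rw [h1]
      exact lind_step hM (mem_Tg.1 hp).1 (mem_Tg.1 hp).2 ha hc hI hD
    · have h1 : φ (τ a (idx p + 1)) = φ (τ a (idx p)) := by
        refine hφ _ _ fun p' hp' => ?_
        by_cases hne : p' = p
        · subst hne
          change _ = σf a p' p'.1 p'.2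
          rw [hon1, hon0]
          rw [hon0] at hc
          omega
        · exact hoff p' hp' hne
      rw [h1, sub_self, abs_zero, zero_add]
      refine Ex_nn hM fun ω => mul_nonneg (hI ω) (mul_nonneg (ind_nn _ _ _)
        (mul_nonneg (add_nonneg ?_ (mu_nn ha.le _ _)) (abs_nonneg _)))
      rcases XX_cases (G := G) p.1 p.2 a ω with h | h <;> rw [h] <;> norm_num
  have hrow : ∀ a < M, |φ (τ a 0) - φ (τ (a + 1) 0)|
      ≤ ∑ p ∈ (Tg G).filter (fun p => σf a p p.1 p.2 = a), E2 a p + ∑ p ∈ Tg G, E3 a p := by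
    intro a ha
    have h1 : φ (τ (a + 1) 0) = φ (τ a N) := by
      refine hφ _ _ fun p hp => ?_
      simp only [τ]
      rw [if_neg (Nat.not_lt_zero _), if_pos (hlt p hp)]
    rw [h1, sum_filter, ← sum_add_distrib]
    refine (expand_tele (fun j => φ (τ a j)) N).trans ?_
    rw [← hsum fun j => |φ (τ a j) - φ (τ a (j + 1))|]
    exact sum_le_sum fun p hp => hstep a ha p hp
  have hchain : |φ (τ 0 0) - φ (τ M 0)|
      ≤ Ex G M I * B.K * (2 * qq * Z ^ 4) + Ex G M I * B.K * (1200 * qq * Z ^ 13) := by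
    refine (expand_tele (fun a => φ (τ a 0)) M).trans ?_
    refine (sum_le_sum fun a ha => hrow a (mem_range.1 ha)).trans ?_
    rw [sum_add_distrib]
    exact add_le_add (exp2 hN hB hE σf hσf I hI hD) (exp3 hN hB hE σf hσf I hI hD)
  have h0 : φ (τ 0 0) = φ σ := by
    refine hφ _ _ fun p _ => ?_
    simp [τ]
  have hTop : φ (τ M 0) = Ex G M I * Vdrop G M B := by
    refine Ex_Fcan_top hM hB (fun p _ => ?_) hD
    simp [τ]
  have h1 := exp1 hN hB hE σ P hW hH hc hP I hI hD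
  rw [h0, hTop] at hchain
  have h2 := abs_sub_le (Ex G M (fun ω => I ω * P.Fx G ∅ ω)) (φ σ) (Ex G M I * Vdrop G M B)
  have hK : 0 ≤ Ex G M I * B.K := mul_nonneg (Ex_nn hM hI) hB.K_nn
  have hZ : Z ^ 4 ≤ Z ^ 13 := pow_le_pow_right₀ (by linarith [hN.Z_ge]) (by norm_num)
  have hZ0 : 0 ≤ Z ^ 13 := pow_nonneg (by linarith [hN.Z_ge]) _
  have h3 : 2 * qq * Z ^ 4 + (2 * qq * Z ^ 4 + 1200 * qq * Z ^ 13) ≤ 2000 * qq * Z ^ 13 := by
    have := hN.qq_nn
    nlinarith [mul_le_mul_of_nonneg_left hZ this, mul_nonneg this hZ0]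
  have h4 := mul_le_mul_of_nonneg_left h3 hK
  have h5 : |Ex G M (fun ω => I ω * P.Fx G ∅ ω) - φ σ| ≤ Ex G M I * B.K * (2 * qq * Z ^ 4) := h1
  linarith

end Crest.Agent.R030
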