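import Crest.Agent.R030.ValCan
import Crest.Agent.R030.DEMStep

/-! # Row 30: the removal process as a function of iid labels

For `E ⊆ E0` and `ω` let `fin E ω = {z ∈ E | survives}`, where survival is `ral (grE E) ω M`.
1. If the labels of the triangles of `E` are pairwise different and `< M`, and `T` has the least label among
   `triangles E`, then `ral (grE E) ω c h = ral (grE (E \ T.sym2)) ω c h` for edges `h ⊄ T`, and for
   edges `h ⊆ T` it is `1` iff `c ≤ lab T` (strong induction on `c`).  If there is no triangle every edge survives.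
2. For every set `𝓕` of `ω` (labels injective on `triangles E0` and `< M`) of positive measure that is
   invariant under permuting the label coordinates of `triangles E`:
   `Ex (1_𝓕 · ψ(#survivors)) = Ex 1_𝓕 · expectFinal` (induction on `#E`: split `𝓕` by the argmin `T`; the pieces
   have equal measure by a swap and are invariant for `triangles (E \ T.sym2)`; `wt` of all label coordinates is the same).
3. `Ex 1_{injective} ≥ 1 - n⁶/M` (union bound, `Ex_mul_ind`, `Ex_ind`).
-/

set_option autoImplicit false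
set_option linter.unusedSectionVars false

namespace Crest.Agent.R030
open Finset Crest.CombinatoricsR.TriangleRemoval
open scoped Classical

theorem card_Ed_grE {n : ℕ} {E : Finset (Sym2 (Fin n))} (hE : E ⊆ allEdges n) :
    (Ed (grE E)).card = E.card := by
  symm
  apply card_bij (fun z _ => z.toFinset)
  · intro z hz
    induction z using Sym2.ind with
    | _ x y =>
      have h1 : ¬ s(x, y).IsDiag := by simpa [allEdges] using hE hz
      rw [mem_Ed, Sym2.toFinset_mk_eq]
      exact isEdge_pair ⟨by simpa using h1, hz⟩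
  · intro z _ z' _ h
    apply Sym2.ext
    intro x
    rw [← Sym2.mem_toFinset, ← Sym2.mem_toFinset, h]
  · intro h hh
    obtain ⟨x, y, hxy, rfl⟩ := mem_Ed.1 hh
    exact ⟨s(x, y), hxy.2, Sym2.toFinset_mk_eq⟩

namespace Red

variable {n M : ℕ} {E : Finset (Sym2 (Fin n))}

theorem mem_tri {T : Finset (Fin n)} :
    T ∈ triangles E ↔ T.card = 3 ∧ ∀ u ∈ T, ∀ v ∈ T, u ≠ v → s(u, v) ∈ E := by
  simp [triangles, mem_powersetCard]

theorem adj_sdiff {T : Finset (Fin n)} {x y : Fin n} :
    (grE (E \ T.sym2)).Adj x y ↔ (grE E).Adj x y ∧ ¬ (x ∈ T ∧ y ∈ T) := by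
  simp only [grE, mem_sdiff, mk_mem_sym2_iff]
  tauto

theorem tri_of_cn {h : Finset (Fin n)} {q : Fin n} (he : IsEdge (grE E) h)
    (hq : q ∈ cn (grE E) h) : insert q h ∈ triangles E := by
  refine mem_tri.2 ⟨card_insert_cn he hq, fun u hu v hv huv => ?_⟩
  rcases mem_insert.1 hu with hu' | hu' <;> rcases mem_insert.1 hv with hv' | hv'
  · exact absurd (hu'.trans hv'.symm) huv
  · rw [hu']; exact (mem_cn.1 hq v hv').symm.2
  · rw [hv']; exact (mem_cn.1 hq u hu').2
  · exact (he.adj hu' hv' huv).2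

theorem tri_sdiff {T T' : Finset (Fin n)} (h : T' ∈ triangles (E \ T.sym2)) :
    T' ∈ triangles E ∧ T' ≠ T := by
  obtain ⟨h1, h2⟩ := mem_tri.1 h
  refine ⟨mem_tri.2 ⟨h1, fun u hu v hv huv => (mem_sdiff.1 (h2 u hu v hv huv)).1⟩, ?_⟩
  rintro rfl
  obtain ⟨u, hu, v, hv, huv⟩ := one_lt_card.1 (show 1 < T'.card by omega)
  exact (mem_sdiff.1 (h2 u hu v hv huv)).2 (mk_mem_sym2_iff.2 ⟨hu, hv⟩)

theorem isEdge_sdiff {T h : Finset (Fin n)} :
    IsEdge (grE (E \ T.sym2)) h ↔ IsEdge (grE E) h ∧ ¬ h ⊆ T := by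
  constructor
  · rintro ⟨x, y, hxy, rfl⟩
    rw [adj_sdiff] at hxy
    exact ⟨isEdge_pair hxy.1, fun hs => hxy.2 ⟨hs (by simp), hs (by simp)⟩⟩
  · rintro ⟨⟨x, y, hxy, rfl⟩, hs⟩
    refine isEdge_pair (adj_sdiff.2 ⟨hxy, fun hh => hs ?_⟩)
    intro z hz
    simp only [mem_insert, mem_singleton] at hz
    rcases hz with rfl | rfl
    · exact hh.1
    · exact hh.2

/-- before the first label every edge is alive -/
theorem ral_one {ω : Om (Fin n) M} {c : ℕ} (hc : ∀ T ∈ triangles E, c ≤ lab ω T)
    {h : Finset (Fin n)} (he : IsEdge (grE E) h) : ral (grE E) ω c h = 1 := by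
  rw [ral]
  refine prod_eq_one fun q hq => ?_
  rw [dif_neg (not_lt.2 (hc _ (tri_of_cn he hq))), sub_zero]

/-- the edges of the first triangle die -/
theorem ral_zero {ω : Om (Fin n) M} {T : Finset (Fin n)} (hT : T ∈ triangles E)
    (hmin : ∀ T' ∈ triangles E, lab ω T ≤ lab ω T') {c : ℕ} (hc : lab ω T < c)
    {h : Finset (Fin n)} (he : IsEdge (grE E) h) (hs : h ⊆ T) : ral (grE E) ω c h = 0 := by
  obtain ⟨h1, h2⟩ := mem_tri.1 hT
  obtain ⟨q, hqT, hqh⟩ : ∃ q ∈ T, q ∉ h := by
    by_contra hcon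
    push Not at hcon
    have := card_le_card (show T ⊆ h from hcon)
    rw [he.card] at this
    omega
  have hq : q ∈ cn (grE E) h := mem_cn.2 fun x hx =>
    ⟨fun e => hqh (e ▸ hx), h2 x (hs hx) q hqT fun e => hqh (e ▸ hx)⟩
  have hins : insert q h = T := by
    apply eq_of_subset_of_card_le
    · exact insert_subset hqT hs
    · rw [card_insert_cn he hq, h1]
  rw [ral]
  refine prod_eq_zero hq ?_
  rw [dif_pos (by rw [hins]; exact hc), hins,
    prod_eq_one fun x hx => ral_one hmin (isEdge_free hq hx), sub_self]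

/-- the other edges do not see the first triangle -/
theorem ral_sdiff {ω : Om (Fin n) M} {T : Finset (Fin n)} (hT : T ∈ triangles E)
    (hmin : ∀ T' ∈ triangles E, T' ≠ T → lab ω T < lab ω T') (c : ℕ)
    {h : Finset (Fin n)} (he : IsEdge (grE (E \ T.sym2)) h) :
    ral (grE E) ω c h = ral (grE (E \ T.sym2)) ω c h := by
  have hmin' : ∀ T' ∈ triangles E, lab ω T ≤ lab ω T' := fun T' hT' => by
    by_cases e : T' = T
    · rw [e]
    · exact (hmin T' hT' e).le
  induction c using Nat.strong_induction_on generalizing h with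
  | _ c ih =>
    obtain ⟨he1, he2⟩ := isEdge_sdiff.1 he
    rw [ral, ral]
    have hsub : cn (grE (E \ T.sym2)) h ⊆ cn (grE E) h := fun q hq =>
      mem_cn.2 fun x hx => (adj_sdiff.1 (mem_cn.1 hq x hx)).1
    rw [← prod_subset hsub]
    · refine prod_congr rfl fun q hq => ?_
      split_ifs with hl
      · rw [prod_congr rfl fun x hx => ih _ hl (isEdge_free hq hx)]
      · rfl
    · intro q hq hq'
      split_ifs with hl
      · obtain ⟨x, hx, hxq⟩ : ∃ x ∈ h, x ∈ T ∧ q ∈ T := by
          by_contra hcon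
          push Not at hcon
          exact hq' (mem_cn.2 fun x hx => adj_sdiff.2
            ⟨mem_cn.1 hq x hx, fun hh => hcon x hx hh.1 hh.2⟩)
        have hne : insert q h ≠ T := fun e => he2 (e ▸ subset_insert q h)
        have h0 : ral (grE E) ω (lab ω (insert q h)) {x, q} = 0 :=
          ral_zero hT hmin' (hmin _ (tri_of_cn he1 hq) hne) (isEdge_free hq hx)
            (insert_subset hxq.1 (singleton_subset_iff.2 hxq.2))
        rw [prod_eq_zero hx h0, sub_zero]
      · rw [sub_zero]

/-- number of survivors -/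
noncomputable def surv (E : Finset (Sym2 (Fin n))) (ω : Om (Fin n) M) : ℝ :=
  ∑ h ∈ Ed (grE E), ral (grE E) ω M h

theorem surv_notri (hE : E ⊆ allEdges n) (h0 : (triangles E).card = 0) (ω : Om (Fin n) M) :
    surv E ω = E.card := by
  rw [card_eq_zero] at h0
  unfold surv
  rw [sum_congr rfl fun h hh => ral_one (by simp [h0]) (mem_Ed.1 hh)]
  simp [card_Ed_grE hE]

theorem surv_sdiff {ω : Om (Fin n) M} {T : Finset (Fin n)} (hT : T ∈ triangles E)
    (hmin : ∀ T' ∈ triangles E, T' ≠ T → lab ω T < lab ω T') (hl : lab ω T < M) :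
    surv E ω = surv (E \ T.sym2) ω := by
  have hmin' : ∀ T' ∈ triangles E, lab ω T ≤ lab ω T' := fun T' hT' => by
    by_cases e : T' = T
    · rw [e]
    · exact (hmin T' hT' e).le
  unfold surv
  have hsub : Ed (grE (E \ T.sym2)) ⊆ Ed (grE E) := fun h hh =>
    mem_Ed.2 (isEdge_sdiff.1 (mem_Ed.1 hh)).1
  rw [← sum_subset hsub]
  · exact sum_congr rfl fun h hh => ral_sdiff hT hmin M (mem_Ed.1 hh)
  · intro h hh hh'
    refine ral_zero hT hmin' hl (mem_Ed.1 hh) ?_
    by_contra hcon
    exact hh' (mem_Ed.2 (isEdge_sdiff.2 ⟨mem_Ed.1 hh, hcon⟩))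

/-- swapping the labels of two triangles -/
noncomputable def sw (T T' : Finset (Fin n)) (ω : Om (Fin n) M) : Om (Fin n) M :=
  fun i => ω (Equiv.swap (Sum.inl T) (Sum.inl T') i)

theorem sw_sw (T T' : Finset (Fin n)) (ω : Om (Fin n) M) : sw T T' (sw T T' ω) = ω := by
  funext i; simp [sw]

theorem lab_sw (T T' S : Finset (Fin n)) (ω : Om (Fin n) M) :
    lab (sw T T' ω) S = lab ω (Equiv.swap T T' S) := by
  unfold lab sw
  rw [Equiv.swap_apply_def, Equiv.swap_apply_def]
  simp only [Sum.inl.injEq]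
  split_ifs <;> rfl

theorem Ex_sw (G : SimpleGraph (Fin n)) (T T' : Finset (Fin n)) (f : Om (Fin n) M → ℝ) :
    Ex G M (fun ω => f (sw T T' ω)) = Ex G M f := by
  unfold Ex
  let e : Om (Fin n) M ≃ Om (Fin n) M := ⟨sw T T', sw T T', sw_sw T T', sw_sw T T'⟩
  rw [← e.sum_comp (fun ω => (∏ i, wt G M i (ω i)) * f ω)]
  refine sum_congr rfl fun ω _ => ?_
  congr 1
  show ∏ i, wt G M i (ω i) = ∏ i, wt G M i (ω (Equiv.swap (Sum.inl T) (Sum.inl T') i))
  rw [← Equiv.prod_comp (Equiv.swap (Sum.inl T : Idx (Fin n)) (Sum.inl T'))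
    (fun i => wt G M i (ω i))]
  refine prod_congr rfl fun i _ => ?_
  have : wt G M (Equiv.swap (Sum.inl T : Idx (Fin n)) (Sum.inl T') i) = wt G M i := by
    rw [Equiv.swap_apply_def]
    split_ifs with h1 h2
    · rw [h1]; funext v; simp [wt]
    · rw [h2]; funext v; simp [wt]
    · rfl
  rw [this]

/-- indicator that `T` has the strictly least label -/
noncomputable def am (E : Finset (Sym2 (Fin n))) (T : Finset (Fin n)) (ω : Om (Fin n) M) : ℝ :=
  if ∀ T' ∈ triangles E, T' ≠ T → lab ω T < lab ω T' then 1 else 0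

/-- labels are injective on the triangles -/
def Inj (E : Finset (Sym2 (Fin n))) (ω : Om (Fin n) M) : Prop :=
  ∀ T ∈ triangles E, ∀ T' ∈ triangles E, lab ω T = lab ω T' → T = T'

theorem sum_am {ω : Om (Fin n) M} (hω : Inj E ω) (hne : (triangles E).Nonempty) :
    ∑ T ∈ triangles E, am E T ω = 1 := by
  obtain ⟨T, hT, hmin⟩ := exists_min_image (triangles E) (lab ω) hne
  have hlt : ∀ T' ∈ triangles E, T' ≠ T → lab ω T < lab ω T' := fun T' hT' hne' =>
    lt_of_le_of_ne (hmin T' hT') fun e => hne' (hω T hT T' hT' e).symm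
  rw [sum_eq_single_of_mem T hT]
  · unfold am; rw [if_pos hlt]
  · intro T' hT' hne'
    unfold am
    rw [if_neg]
    intro hh
    have h1 := hh T hT hne'.symm
    have h2 := hmin T' hT'
    omega

theorem swap_mem {s : Finset (Finset (Fin n))} {T T' : Finset (Fin n)} (hT : T ∈ s) (hT' : T' ∈ s)
    {S : Finset (Fin n)} (hS : S ∈ s) : Equiv.swap T T' S ∈ s := by
  rw [Equiv.swap_apply_def]
  split_ifs <;> assumption

theorem am_sw {T T' : Finset (Fin n)} (hT : T ∈ triangles E) (hT' : T' ∈ triangles E)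
    (S : Finset (Fin n)) (ω : Om (Fin n) M) :
    am E S (sw T T' ω) = am E (Equiv.swap T T' S) ω := by
  unfold am
  simp only [lab_sw]
  congr 1
  apply propext
  constructor
  · intro h U hU hne
    have := h (Equiv.swap T T' U) (swap_mem hT hT' hU) fun e => hne (by rw [← e]; simp)
    simpa using this
  · intro h U hU hne
    exact h _ (swap_mem hT hT' hU) fun e => hne ((Equiv.swap T T').injective e)

theorem main (G : SimpleGraph (Fin n)) (hM : 0 < M) (ψ : ℝ → ℝ) (fuel : ℕ) :
    ∀ (E : Finset (Sym2 (Fin n))), E ⊆ allEdges n → E.card ≤ 3 * fuel →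
    ∀ I : Om (Fin n) M → ℝ, (∀ ω, I ω ≠ 0 → Inj E ω) →
      (∀ T ∈ triangles E, ∀ T' ∈ triangles E, ∀ ω, I (sw T T' ω) = I ω) →
      Ex G M (fun ω => I ω * ψ (surv E ω)) = Ex G M I * expectFinal (fun k : ℕ => ψ k) fuel E := by
  have base : ∀ (E : Finset (Sym2 (Fin n))), E ⊆ allEdges n → (triangles E).card = 0 →
      ∀ I : Om (Fin n) M → ℝ, Ex G M (fun ω => I ω * ψ (surv E ω)) = Ex G M I * ψ E.card := by
    intro E hE h0 I
    simp only [surv_notri hE h0]
    rw [mul_comm, ← Ex_const_mul]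
    simp only [mul_comm]
  induction fuel with
  | zero =>
    intro E hE hf I _ _
    have : E = ∅ := card_eq_zero.1 (by omega)
    have h0 : (triangles E).card = 0 := by
      rw [card_eq_zero, eq_empty_iff_forall_notMem]
      intro T hT
      have := card_sdiff_tri hE hT
      omega
    rw [base E hE h0]
    rfl
  | succ fuel ih =>
    intro E hE hf I hI hsw
    rw [expectFinal]
    split_ifs with h0
    · exact base E hE h0 I
    have hne : (triangles E).Nonempty := card_pos.1 (Nat.pos_of_ne_zero h0)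
    have hsplit : ∀ ω, I ω = ∑ T ∈ triangles E, I ω * am E T ω := by
      intro ω
      by_cases hω : I ω = 0
      · simp [hω]
      · rw [← mul_sum, sum_am (hI ω hω) hne, mul_one]
    have heq : ∀ T ∈ triangles E, ∀ T' ∈ triangles E,
        Ex G M (fun ω => I ω * am E T ω) = Ex G M (fun ω => I ω * am E T' ω) := by
      intro T hT T' hT'
      rw [← Ex_sw G T T']
      simp only [hsw T hT T' hT', am_sw hT hT', Equiv.swap_apply_left]
    have hval : ∀ T ∈ triangles E,
        Ex G M (fun ω => I ω * am E T ω) = ((triangles E).card : ℝ)⁻¹ * Ex G M I := by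
      intro T hT
      have h1 : Ex G M I = ∑ T' ∈ triangles E, Ex G M (fun ω => I ω * am E T' ω) := by
        rw [← Ex_sum]; congr 1; funext ω; exact hsplit ω
      rw [h1, sum_congr rfl fun T' hT' => heq T' hT' T hT, sum_const, nsmul_eq_mul,
        ← mul_assoc, inv_mul_cancel₀ (by exact_mod_cast h0), one_mul]
    have h2 : Ex G M (fun ω => I ω * ψ (surv E ω))
        = ∑ T ∈ triangles E, Ex G M (fun ω => (I ω * am E T ω) * ψ (surv (E \ T.sym2) ω)) := by
      rw [← Ex_sum]
      refine Ex_congr_ae hM fun ω hω => ?_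
      conv_lhs => rw [hsplit ω, sum_mul]
      refine sum_congr rfl fun T hT => ?_
      unfold am
      split_ifs with hm
      · rw [surv_sdiff hT hm (hω T)]
      · simp
    rw [h2, mul_sum, mul_sum]
    refine sum_congr rfl fun T hT => ?_
    rw [ih (E \ T.sym2) (sdiff_subset.trans hE) (by have := card_sdiff_tri hE hT; omega), hval T hT]
    · ring
    · intro ω hω U hU U' hU' e
      exact hI ω (left_ne_zero_of_mul hω) U (tri_sdiff hU).1 U' (tri_sdiff hU').1 e
    · intro U hU U' hU' ω
      rw [hsw U (tri_sdiff hU).1 U' (tri_sdiff hU').1, am_sw (tri_sdiff hU).1 (tri_sdiff hU').1,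
        Equiv.swap_apply_of_ne_of_ne (tri_sdiff hU).2.symm (tri_sdiff hU').2.symm]

theorem expectFinal_nn (φ : ℕ → ℝ) (hφ : ∀ k, 0 ≤ φ k) (fuel : ℕ) :
    ∀ E : Finset (Sym2 (Fin n)), 0 ≤ expectFinal φ fuel E := by
  induction fuel with
  | zero => intro E; exact hφ _
  | succ fuel ih =>
    intro E
    rw [expectFinal]
    split_ifs
    · exact hφ _
    · exact mul_nonneg (by positivity) (sum_nonneg fun T _ => ih _)

theorem Ex_eq_lab (G : SimpleGraph (Fin n)) (hM : 0 < M) {T T' : Finset (Fin n)} (hne : T ≠ T') :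
    Ex G M (fun ω => if lab ω T = lab ω T' then 1 else 0) = 1 / M := by
  have h1 : Ex G M (fun ω => if lab ω T = lab ω T' then 1 else 0)
      = Ex G M (fun ω => ∑ s ∈ range M, ind ω T s * ind ω T' s) := by
    refine Ex_congr_ae hM fun ω hω => ?_
    rw [sum_eq_single_of_mem (lab ω T) (mem_range.2 (hω T))]
    · unfold ind
      simp [eq_comm]
    · intro s _ hs
      unfold ind
      rw [if_neg (Ne.symm hs), zero_mul]
  rw [h1, Ex_sum, sum_congr rfl fun s hs => Ex_mul_ind (depTri_ind T s)
    (by simpa using hne.symm) (mem_range.1 hs),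
    sum_congr rfl fun s hs => by rw [Ex_ind (mem_range.1 hs)]]
  have : (M : ℝ) ≠ 0 := by positivity
  simp only [sum_const, card_range, nsmul_eq_mul]
  field_simp

theorem card_tri_le : ((triangles E).card : ℝ) ≤ (n : ℝ) ^ 3 := by
  have h1 : (triangles E).card ≤ n.choose 3 := by
    refine (card_filter_le _ _).trans ?_
    simp
  have h2 : n.choose 3 ≤ n ^ 3 := Nat.choose_le_pow n 3
  exact_mod_cast h1.trans h2

theorem Ex_inj (G : SimpleGraph (Fin n)) (hM : 0 < M) :
    1 - (n : ℝ) ^ 6 / M ≤ Ex G M (fun ω => if Inj E ω then 1 else 0) := by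
  have h1 : Ex G M (fun ω => 1 - ∑ p ∈ (triangles E).offDiag,
      (if lab ω p.1 = lab ω p.2 then (1 : ℝ) else 0))
      ≤ Ex G M (fun ω => if Inj E ω then 1 else 0) := by
    refine Ex_mono hM fun ω => ?_
    have hnn : ∀ p ∈ (triangles E).offDiag, 0 ≤ (if lab ω p.1 = lab ω p.2 then (1 : ℝ) else 0) :=
      fun p _ => by split_ifs <;> norm_num
    split_ifs with h
    · linarith [sum_nonneg hnn]
    · unfold Inj at h
      push Not at h
      obtain ⟨T, hT, T', hT', he, hne⟩ := h
      have := single_le_sum hnn (show (T, T') ∈ (triangles E).offDiag from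
        mem_offDiag.2 ⟨hT, hT', hne⟩)
      simp only [he, if_true] at this
      linarith
  refine le_trans ?_ h1
  rw [Ex_sub, Ex_const hM, Ex_sum,
    sum_congr rfl fun p hp => Ex_eq_lab G hM (mem_offDiag.1 hp).2.2, sum_const, nsmul_eq_mul]
  have h2 : ((triangles E).offDiag.card : ℝ) ≤ (n : ℝ) ^ 6 := by
    have h3 : (triangles E).offDiag.card ≤ (triangles E).card * (triangles E).card := by
      rw [offDiag_card]; omega
    have h4 := card_tri_le (E := E)
    calc ((triangles E).offDiag.card : ℝ) ≤ (triangles E).card * (triangles E).card := by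
          exact_mod_cast h3
      _ ≤ (n : ℝ) ^ 3 * (n : ℝ) ^ 3 := by gcongr
      _ = (n : ℝ) ^ 6 := by ring
  have h5 : (0 : ℝ) < M := by exact_mod_cast hM
  rw [mul_one_div]
  gcongr

end Red

theorem reduce {n M : ℕ} (hM : 0 < M) {E : Finset (Sym2 (Fin n))} (hE : E ⊆ allEdges n)
    {fuel : ℕ} (hf : E.card ≤ 3 * fuel) (ψ : ℝ → ℝ) (hψ : ∀ x, 0 ≤ ψ x) :
    (1 - (n : ℝ) ^ 6 / M) * expectFinal (fun k : ℕ => ψ k) fuel E
      ≤ Ex (grE E) M (fun ω => ψ (∑ h ∈ Ed (grE E), ral (grE E) ω M h)) := by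
  have h1 := Red.main (grE E) hM ψ fuel E hE hf (fun ω => if Red.Inj E ω then 1 else 0)
    (fun ω hω => by by_contra h; exact hω (if_neg h))
    (fun T hT T' hT' ω => by
      congr 1
      apply propext
      unfold Red.Inj
      simp only [Red.lab_sw]
      constructor
      · intro h U hU U' hU' e
        have := h _ (Red.swap_mem hT hT' hU) _ (Red.swap_mem hT hT' hU') (by simpa using e)
        exact (Equiv.swap T T').injective this
      · intro h U hU U' hU' e
        exact (Equiv.swap T T').injective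
          (h _ (Red.swap_mem hT hT' hU) _ (Red.swap_mem hT hT' hU') e))
  refine le_trans (mul_le_mul_of_nonneg_right (Red.Ex_inj (E := E) (grE E) hM)
    (Red.expectFinal_nn _ (fun k => hψ _) fuel E)) ?_
  rw [← h1]
  refine Ex_mono hM fun ω => ?_
  have := hψ (Red.surv E ω)
  unfold Red.surv at this ⊢
  split_ifs
  · rw [one_mul]
  · rw [zero_mul]; exact this

end Crest.Agent.R030
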