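import Crest.Agent.R030.Late
import Crest.Agent.R030.DEM
import Crest.Agent.R030.Reduce

/-! # Row 30: assembly

With `F = ∑_{h ∈ Ed} ral`, `N = #E = p0 n(n-1)/2`, `P = pseq D0 M M`, `a = N P / n^(3/2)`, `c = 1/(2√2)`, `ε = n^(-1/2000)`:
`Ex F ≥ (1-ε) N P`, `Ex F² ≤ N + (1+ε) N² P²` (`ral_cases`), so
`Ex (F/n^(3/2) - c)² ≤ 1/n + (1+ε) a² - 2c(1-ε) a + c²`, and `a² = ((n-1)/n)² D0 P²/4` with
`D0 P² → 1/2` uniformly (`pseq_upper`, `pseq_lower`).  Then `reduce`, `dem` with `Bd = (√n + 1)²`.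
-/

set_option autoImplicit false
set_option linter.unusedSectionVars false

namespace Crest.Agent.R030
open Finset Filter Crest.CombinatoricsR.TriangleRemoval
open scoped Classical

theorem fin_expect_nn {n : ℕ} {φ : ℕ → ℝ} (hφ : ∀ k, 0 ≤ φ k) (fuel : ℕ)
    (E : Finset (Sym2 (Fin n))) : 0 ≤ expectFinal φ fuel E := by
  induction fuel generalizing E with
  | zero => exact hφ _
  | succ f ih =>
    unfold expectFinal
    split_ifs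
    · exact hφ _
    · exact mul_nonneg (by positivity) (sum_nonneg fun t _ => ih _)

/-- second-moment computation -/
theorem fin_second {V : Type} [Fintype V] [DecidableEq V] {G : SimpleGraph V} {M : ℕ} (hM : 0 < M)
    {P ε s c : ℝ} (hs : 0 < s) (hc : 0 ≤ c) (hε : 0 ≤ ε)
    (h1 : ∀ h, IsEdge G h → (1 - ε) * P ≤ Ex G M (fun ω => ral G ω M h))
    (h2 : ∀ h h', IsEdge G h → IsEdge G h' → h ≠ h' →
      Ex G M (fun ω => ral G ω M h * ral G ω M h') ≤ (1 + ε) * P ^ 2) :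
    Ex G M (fun ω => ((∑ h ∈ Ed G, ral G ω M h) / s - c) ^ 2) ≤
      (Ed G).card / s ^ 2 + (1 + ε) * ((Ed G).card * P / s) ^ 2
        - 2 * c * (1 - ε) * ((Ed G).card * P / s) + c ^ 2 := by
  have hF1 : ((Ed G).card : ℝ) * ((1 - ε) * P) ≤ Ex G M (fun ω => ∑ h ∈ Ed G, ral G ω M h) := by
    rw [Ex_sum]
    calc ((Ed G).card : ℝ) * ((1 - ε) * P) = ∑ _h ∈ Ed G, (1 - ε) * P := by simp
      _ ≤ _ := sum_le_sum fun h hh => h1 h (mem_Ed.1 hh)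
  have hF2 : Ex G M (fun ω => (∑ h ∈ Ed G, ral G ω M h) ^ 2) ≤
      (Ed G).card + ((Ed G).card : ℝ) ^ 2 * ((1 + ε) * P ^ 2) := by
    have e1 : (fun ω : Om V M => (∑ h ∈ Ed G, ral G ω M h) ^ 2)
        = fun ω => ∑ h ∈ Ed G, ∑ h' ∈ Ed G, ral G ω M h * ral G ω M h' := by
      funext ω; rw [sq, sum_mul_sum]
    rw [e1, Ex_sum]
    have hP : 0 ≤ (1 + ε) * P ^ 2 := by positivity
    calc ∑ h ∈ Ed G, Ex G M (fun ω => ∑ h' ∈ Ed G, ral G ω M h * ral G ω M h')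
        ≤ ∑ _h ∈ Ed G, (1 + ((Ed G).card : ℝ) * ((1 + ε) * P ^ 2)) := by
          refine sum_le_sum fun h hh => ?_
          rw [Ex_sum]
          calc ∑ h' ∈ Ed G, Ex G M (fun ω => ral G ω M h * ral G ω M h')
              ≤ ∑ h' ∈ Ed G, ((if h = h' then (1 : ℝ) else 0) + (1 + ε) * P ^ 2) := by
                refine sum_le_sum fun h' hh' => ?_
                by_cases e : h = h'
                · subst e
                  rw [if_pos rfl]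
                  have : Ex G M (fun ω => ral G ω M h * ral G ω M h) ≤ Ex G M (fun _ => 1) := by
                    refine Ex_mono hM fun ω => ?_
                    rcases ral_cases (G := G) ω M h with e | e <;> rw [e] <;> norm_num
                  rw [Ex_const hM] at this
                  linarith
                · rw [if_neg e, zero_add]
                  exact h2 h h' (mem_Ed.1 hh) (mem_Ed.1 hh') e
            _ = 1 + ((Ed G).card : ℝ) * ((1 + ε) * P ^ 2) := by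
                rw [sum_add_distrib, sum_ite_eq, if_pos hh]; simp
      _ = _ := by simp only [sum_const, nsmul_eq_mul]; ring
  have e2 : (fun ω : Om V M => ((∑ h ∈ Ed G, ral G ω M h) / s - c) ^ 2)
      = fun ω => ((1 / s ^ 2) * (∑ h ∈ Ed G, ral G ω M h) ^ 2
        - (2 * c / s) * ∑ h ∈ Ed G, ral G ω M h) + c ^ 2 := by
    funext ω; field_simp; ring
  rw [e2, Ex_add, Ex_sub, Ex_const_mul, Ex_const_mul, Ex_const hM]
  have a1 := mul_le_mul_of_nonneg_left hF2 (show 0 ≤ 1 / s ^ 2 by positivity)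
  have a2 := mul_le_mul_of_nonneg_left hF1 (show 0 ≤ 2 * c / s by positivity)
  have b1 : 1 / s ^ 2 * (((Ed G).card : ℝ) + ((Ed G).card : ℝ) ^ 2 * ((1 + ε) * P ^ 2))
      = (Ed G).card / s ^ 2 + (1 + ε) * ((Ed G).card * P / s) ^ 2 := by field_simp
  have b2 : 2 * c / s * (((Ed G).card : ℝ) * ((1 - ε) * P))
      = 2 * c * (1 - ε) * ((Ed G).card * P / s) := by field_simp
  linarith

/-- the numerical part -/
theorem fin_num {a c ε τ : ℝ} (ha : 0 ≤ a) (hc : 0 < c) (hc1 : c ≤ 1) (hε : 0 ≤ ε)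
    (h1 : a ^ 2 ≤ c ^ 2) (h2 : c ^ 2 - a ^ 2 ≤ τ) :
    (1 + ε) * a ^ 2 - 2 * c * (1 - ε) * a + c ^ 2 ≤ τ + 3 * ε := by
  have hac : a ≤ c := by nlinarith
  have h3 : (c - a) ^ 2 ≤ c ^ 2 - a ^ 2 := by nlinarith
  have h4 : a ^ 2 ≤ 1 := by nlinarith
  have h5 : c * a ≤ 1 := by nlinarith
  nlinarith [mul_le_mul_of_nonneg_left h4 hε, mul_le_mul_of_nonneg_left h5 hε]

theorem fin_c_sq : (1 / (2 * Real.sqrt 2)) ^ 2 = 1 / 8 := by
  rw [div_pow, mul_pow, Real.sq_sqrt (by norm_num)]; norm_num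

theorem fin_s_sq {n : ℝ} (hn : 0 ≤ n) : (n ^ ((3 : ℝ) / 2)) ^ 2 = n ^ 3 := by
  rw [← Real.rpow_natCast, ← Real.rpow_mul hn]
  norm_num

theorem fin_DP {D P ε κ : ℝ} (hD : 0 < D) (hε : 0 < ε) (hDε : 1 ≤ D * ε) (hκ : κ ≤ ε)
    (hup : P ^ 2 * (1 + 2 * D) ≤ 1) (hlow : 1 ≤ P ^ 2 * (1 + 2 * D * (1 + κ))) :
    D * P ^ 2 ≤ 1 / 2 ∧ 1 / 2 - ε ≤ D * P ^ 2 := by
  have hP := sq_nonneg P
  have hDP1 : D * P ^ 2 ≤ 1 / 2 := by nlinarith
  have hPε : P ^ 2 ≤ ε := by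
    have : P ^ 2 * 1 ≤ P ^ 2 * (D * ε) := mul_le_mul_of_nonneg_left hDε hP
    nlinarith
  refine ⟨hDP1, ?_⟩
  have h1 : P ^ 2 * (1 + 2 * D * (1 + κ)) ≤ P ^ 2 * (1 + 2 * D * (1 + ε)) := by gcongr
  have h2 : D * P ^ 2 * ε ≤ 1 / 2 * ε := mul_le_mul_of_nonneg_right hDP1 hε.le
  nlinarith

theorem fin_a {u x ε : ℝ} (hu0 : 0 ≤ u) (hu1 : u ≤ 1) (hu : u ≤ ε) (hx0 : 0 ≤ x)
    (h1 : x ≤ 1 / 2) (h2 : 1 / 2 - ε ≤ x) :
    (1 - u) ^ 2 * x / 4 ≤ 1 / 8 ∧ 1 / 8 - (1 - u) ^ 2 * x / 4 ≤ ε := by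
  have hq1 : (1 - u) ^ 2 ≤ 1 := by nlinarith
  have hq2 : 1 - 2 * u ≤ (1 - u) ^ 2 := by nlinarith
  have a1 := mul_le_mul_of_nonneg_right hq1 hx0
  have a2 := mul_le_mul_of_nonneg_right hq2 hx0
  have a3 := mul_le_mul_of_nonneg_left h1 hu0
  constructor <;> nlinarith

theorem fin_pow {n : ℝ} (hn : 2 ≤ n) : 256 * n ^ 2 ≤ n ^ 10 ∧ n ^ 6 / n ^ 10 ≤ 1 / 2 := by
  have hn0 : 0 < n := by linarith
  have hn8 : (256 : ℝ) ≤ n ^ 8 := by
    have := pow_le_pow_left₀ (by norm_num : (0 : ℝ) ≤ 2) hn 8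
    norm_num at this; exact this
  have h4 : (16 : ℝ) ≤ n ^ 4 := by
    have := pow_le_pow_left₀ (by norm_num : (0 : ℝ) ≤ 2) hn 4
    norm_num at this; exact this
  constructor
  · have : n ^ 10 = n ^ 8 * n ^ 2 := by ring
    rw [this]; gcongr
  · rw [div_le_iff₀ (by positivity)]
    have : n ^ 10 = n ^ 4 * n ^ 6 := by ring
    rw [this]
    nlinarith [pow_pos hn0 6]

theorem fin_Deps {n p0 : ℝ} (hn1 : 1 ≤ n) (hlo : n ^ (-(1 / 1000 : ℝ)) ≤ p0) :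
    1 ≤ n * p0 ^ 2 * n ^ (-(1 / 2000 : ℝ)) := by
  have hn0 : 0 < n := by linarith
  have e1 : n * (n ^ (-(1 / 1000 : ℝ))) ^ 2 * n ^ (-(1 / 2000 : ℝ)) = n ^ (1995 / 2000 : ℝ) := by
    rw [← Real.rpow_natCast, ← Real.rpow_mul hn0.le]
    nth_rewrite 1 [← Real.rpow_one n]
    rw [← Real.rpow_add hn0, ← Real.rpow_add hn0]
    norm_num
  have e2 : (1 : ℝ) ≤ n ^ (1995 / 2000 : ℝ) := Real.one_le_rpow hn1 (by norm_num)
  have e3 : (n ^ (-(1 / 1000 : ℝ))) ^ 2 ≤ p0 ^ 2 :=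
    pow_le_pow_left₀ (Real.rpow_pos_of_pos hn0 _).le hlo 2
  have := Real.rpow_pos_of_pos hn0 (-(1 / 2000 : ℝ))
  calc (1 : ℝ) ≤ n * (n ^ (-(1 / 1000 : ℝ))) ^ 2 * n ^ (-(1 / 2000 : ℝ)) := by rw [e1]; exact e2
    _ ≤ _ := by gcongr

/-- the mean-field value at the end -/
theorem fin_P {n : ℕ} (hn2 : 2 ≤ n) {p0 : ℝ} (hlo : (n : ℝ) ^ (-(1 / 1000 : ℝ)) ≤ p0)
    (hhi : p0 ≤ 2 * (n : ℝ) ^ (-(1 / 1000 : ℝ))) :
    0 < pseq (n * p0 ^ 2) (n ^ 10) (n ^ 10) ∧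
    n * p0 ^ 2 * pseq (n * p0 ^ 2) (n ^ 10) (n ^ 10) ^ 2 ≤ 1 / 2 ∧
    1 / 2 - (n : ℝ) ^ (-(1 / 2000 : ℝ)) ≤ n * p0 ^ 2 * pseq (n * p0 ^ 2) (n ^ 10) (n ^ 10) ^ 2 := by
  have hn : (2 : ℝ) ≤ n := by exact_mod_cast hn2
  have hn1 : (1 : ℝ) ≤ n := by linarith
  have hn0 : (0 : ℝ) < n := by linarith
  have hDε := fin_Deps hn1 hlo
  have hε : 0 < (n : ℝ) ^ (-(1 / 2000 : ℝ)) := Real.rpow_pos_of_pos hn0 _
  have hε1 : (n : ℝ) ^ (-(1 / 2000 : ℝ)) ≤ 1 :=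
    Real.rpow_le_one_of_one_le_of_nonpos hn1 (by norm_num)
  have hnε : 1 / (n : ℝ) ≤ (n : ℝ) ^ (-(1 / 2000 : ℝ)) := by
    rw [one_div, ← Real.rpow_neg_one]
    exact Real.rpow_le_rpow_of_exponent_le hn1 (by norm_num)
  have hp0pos : 0 < p0 := lt_of_lt_of_le (Real.rpow_pos_of_pos hn0 _) hlo
  have hp2 : p0 ≤ 2 := by
    have : (n : ℝ) ^ (-(1 / 1000 : ℝ)) ≤ 1 := Real.rpow_le_one_of_one_le_of_nonpos hn1 (by norm_num)
    linarith
  generalize (n : ℝ) ^ (-(1 / 2000 : ℝ)) = ε at *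
  have hDpos : 0 < (n : ℝ) * p0 ^ 2 := by positivity
  have hD4 : (n : ℝ) * p0 ^ 2 ≤ n * 2 ^ 2 := by gcongr
  generalize (n : ℝ) * p0 ^ 2 = D at *
  have hD1 : 1 ≤ D := by nlinarith
  have hMc : ((n ^ 10 : ℕ) : ℝ) = (n : ℝ) ^ 10 := by push_cast; rfl
  have hn10 := (fin_pow hn).1
  have hM10 : 10 * D ≤ ((n ^ 10 : ℕ) : ℝ) := by
    rw [hMc]; nlinarith
  have hMpos' : (0 : ℝ) < ((n ^ 10 : ℕ) : ℝ) := by positivity
  have hup := pseq_upper hD1 hM10 (n ^ 10)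
  rw [mul_div_assoc, div_self hMpos'.ne', mul_one] at hup
  have hlow := pseq_lower hD1 hM10 (n ^ 10)
  rw [mul_div_assoc, div_self hMpos'.ne', mul_one] at hlow
  have hDM : 4 * D / ((n ^ 10 : ℕ) : ℝ) ≤ ε := by
    refine le_trans ?_ hnε
    rw [div_le_div_iff₀ hMpos' hn0, hMc]
    nlinarith
  exact ⟨pseq_pos hD1 hM10 _, fin_DP hDpos hε hDε hDM hup hlow⟩

/-- the late phase from a good state -/
theorem fin_late {n : ℕ} (hn2 : 2 ≤ n) {p0 P ε s c : ℝ} (hs : 0 < s) (hs2 : s ^ 2 = (n : ℝ) ^ 3)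
    (hc : 0 < c) (hc2 : c ^ 2 = 1 / 8) (hnε : 1 / (n : ℝ) ≤ ε) (hP : 0 < P)
    (hDP1 : n * p0 ^ 2 * P ^ 2 ≤ 1 / 2) (hDP2 : 1 / 2 - ε ≤ n * p0 ^ 2 * P ^ 2)
    {E : Finset (Sym2 (Fin n))} (hE : E ⊆ allEdges n) (hEc : (E.card : ℝ) = p0 * (n * (n - 1) / 2))
    (hEn : E.card ≤ n ^ 2) {fuel : ℕ} (hfuel : E.card ≤ 3 * fuel)
    (l1 : ∀ h, IsEdge (grE E) h → (1 - ε) * P ≤ Ex (grE E) (n ^ 10) (fun ω => ral (grE E) ω (n ^ 10) h))
    (l2 : ∀ h h', IsEdge (grE E) h → IsEdge (grE E) h' → h ≠ h' →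
      Ex (grE E) (n ^ 10) (fun ω => ral (grE E) ω (n ^ 10) h * ral (grE E) ω (n ^ 10) h')
        ≤ (1 + ε) * P ^ 2) :
    expectFinal (fun e : ℕ => ((e : ℝ) / s - c) ^ 2) fuel E ≤ 10 * ε := by
  have hn : (2 : ℝ) ≤ n := by exact_mod_cast hn2
  have hn0 : (0 : ℝ) < n := by linarith
  have hu0 : 0 < 1 / (n : ℝ) := by positivity
  have hε : 0 < ε := by linarith
  have hu1 : 1 / (n : ℝ) ≤ 1 := by rw [div_le_one hn0]; linarith
  have hc1 : c ≤ 1 := by nlinarith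
  have hMpos : 0 < n ^ 10 := by positivity
  have hred := reduce hMpos hE hfuel (fun x => (x / s - c) ^ 2) (fun x => sq_nonneg _)
  have hsec := fin_second hMpos (P := P) hs hc.le hε.le l1 l2
  rw [card_Ed_grE hE] at hsec
  have hEn' : (E.card : ℝ) ≤ (n : ℝ) ^ 2 := by exact_mod_cast hEn
  have ha2 : ((E.card : ℝ) * P / s) ^ 2 = (1 - 1 / n) ^ 2 * (n * p0 ^ 2 * P ^ 2) / 4 := by
    rw [div_pow, hs2, hEc]; field_simp; ring
  have ha := fin_a hu0.le hu1 hnε (by positivity) hDP1 hDP2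
  have hnum := fin_num (a := (E.card : ℝ) * P / s) (c := c) (ε := ε) (τ := ε) (by positivity) hc hc1
    hε.le (by rw [ha2, hc2]; exact ha.1) (by rw [ha2, hc2]; exact ha.2)
  have hNs : (E.card : ℝ) / s ^ 2 ≤ ε := by
    refine le_trans ?_ hnε
    rw [hs2, div_le_div_iff₀ (by positivity) hn0]
    calc (E.card : ℝ) * n ≤ (n : ℝ) ^ 2 * n := by gcongr
      _ = 1 * (n : ℝ) ^ 3 := by ring
  have hfac : (1 : ℝ) / 2 ≤ 1 - (n : ℝ) ^ 6 / ((n ^ 10 : ℕ) : ℝ) := by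
    have := (fin_pow hn).2
    push_cast
    linarith
  have hnn := fin_expect_nn (φ := fun e : ℕ => ((e : ℝ) / s - c) ^ 2) (fun k => sq_nonneg _) fuel E
  have := mul_le_mul_of_nonneg_right hfac hnn
  linarith

/-- the bound for large `n` -/
theorem fin_bound : ∀ᶠ n : ℕ in atTop,
    expectFinal
        (fun e : ℕ => ((e : ℝ) / (n : ℝ) ^ ((3 : ℝ) / 2) - 1 / (2 * Real.sqrt 2)) ^ 2)
        (n ^ 2) (allEdges n) ≤ 12 * (n : ℝ) ^ (-(1 / 2000 : ℝ)) := by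
  filter_upwards [late, dem, eventually_ge_atTop 2] with n hl hd hn2
  obtain ⟨i0, p0, hi0, hp0, hlo, hhi, hd⟩ := hd
  have hn : (2 : ℝ) ≤ n := by exact_mod_cast hn2
  have hn1 : (1 : ℝ) ≤ n := by linarith
  have hn0 : (0 : ℝ) < n := by linarith
  have hε : 0 < (n : ℝ) ^ (-(1 / 2000 : ℝ)) := Real.rpow_pos_of_pos hn0 _
  have hs : 0 < (n : ℝ) ^ ((3 : ℝ) / 2) := Real.rpow_pos_of_pos hn0 _
  have hs2 : ((n : ℝ) ^ ((3 : ℝ) / 2)) ^ 2 = (n : ℝ) ^ 3 := fin_s_sq hn0.le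
  have hc : 0 < 1 / (2 * Real.sqrt 2) := by positivity
  have hc2 : (1 / (2 * Real.sqrt 2)) ^ 2 = 1 / 8 := fin_c_sq
  have hnε : 1 / (n : ℝ) ≤ (n : ℝ) ^ (-(1 / 2000 : ℝ)) := by
    rw [one_div, ← Real.rpow_neg_one]
    exact Real.rpow_le_rpow_of_exponent_le hn1 (by norm_num)
  obtain ⟨hP, hDP1, hDP2⟩ := fin_P hn2 hlo hhi
  generalize (n : ℝ) ^ (-(1 / 2000 : ℝ)) = ε at *
  generalize (n : ℝ) ^ ((3 : ℝ) / 2) = s at *
  generalize 1 / (2 * Real.sqrt 2) = c at *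
  have hN0 : ((allEdges n).card : ℝ) = n * (n - 1) / 2 := card_allEdges n
  have hN0' : (allEdges n).card ≤ n ^ 2 := by
    have : ((allEdges n).card : ℝ) ≤ ((n ^ 2 : ℕ) : ℝ) := by
      rw [hN0]; push_cast; nlinarith
    exact_mod_cast this
  have key := hd (fun e : ℕ => ((e : ℝ) / s - c) ^ 2) (2 * n) (10 * ε) (fun k => sq_nonneg _) ?_
    (by positivity) ?_
  · have : 2 * (n : ℝ) / (n : ℝ) ^ 2 = 2 * (1 / n) := by field_simp
    rw [this] at key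
    linarith
  · intro k hk
    have hk' : (k : ℝ) ≤ (n : ℝ) ^ 2 := by exact_mod_cast hk
    have hk0 : (0 : ℝ) ≤ k := Nat.cast_nonneg k
    have h1 : ((k : ℝ) / s) ^ 2 ≤ n := by
      rw [div_pow, hs2, div_le_iff₀ (by positivity)]
      calc (k : ℝ) ^ 2 ≤ ((n : ℝ) ^ 2) ^ 2 := by gcongr
        _ = n * (n : ℝ) ^ 3 := by ring
    have h2 : 0 ≤ (k : ℝ) / s * c := by positivity
    have h3 : ((k : ℝ) / s - c) ^ 2 = ((k : ℝ) / s) ^ 2 - 2 * ((k : ℝ) / s * c) + c ^ 2 := by ring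
    show ((k : ℝ) / s - c) ^ 2 ≤ 2 * n
    linarith
  · intro E hE hcard hPR
    obtain ⟨l1, l2⟩ := hl p0 (grE E) hlo hhi hPR
    have hEc : (E.card : ℝ) = p0 * (n * (n - 1) / 2) := by
      have : (E.card : ℝ) + 3 * i0 = (allEdges n).card := by exact_mod_cast hcard
      rw [← hN0]; linarith
    exact fin_late hn2 hs hs2 hc hc2 hnε hP hDP1 hDP2 hE hEc (by omega) (by omega) l1 l2

theorem main :
    Filter.Tendsto (fun n : ℕ =>
      expectFinal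
        (fun e : ℕ => ((e : ℝ) / (n : ℝ) ^ ((3 : ℝ) / 2) - 1 / (2 * Real.sqrt 2)) ^ 2)
        (n ^ 2) (allEdges n))
      Filter.atTop (nhds 0) := by
  have h0 : Tendsto (fun n : ℕ => 12 * (n : ℝ) ^ (-(1 / 2000 : ℝ))) atTop (nhds 0) := by
    have := ((tendsto_rpow_neg_atTop (y := 1 / 2000) (by norm_num)).comp
      tendsto_natCast_atTop_atTop).const_mul 12
    simpa using this
  exact squeeze_zero' (Eventually.of_forall fun n => fin_expect_nn (fun k => sq_nonneg _) _ _)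
    fin_bound h0

end Crest.Agent.R030
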