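import Crest.Agent.R030.G2Defs

/-! # Row 30: state and value function of the first particle -/

set_option autoImplicit false
set_option linter.unusedSectionVars false

namespace Crest.Agent.R030
open Finset
open scoped Classical

variable {V : Type} [Fintype V] [DecidableEq V]

/-- state of the first particle: vertex set `W`, roots `H` with times `c`; an unmarked root `ρ` is evaluated
canonically relative to `Wr ρ`, skipping `Sk ρ`, with target value `al ρ q` below the apex `q`;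
`J`, `s` are the nodes of the path and their labels; `h` is the marked root -/
structure S1 (V : Type) where
  W : Finset V
  H : Finset (Finset V)
  c : Finset V → ℕ
  Wr : Finset V → Finset V
  Sk : Finset V → Finset V
  al : Finset V → V → ℝ
  J : Finset (Finset V)
  s : Finset V → ℕ
  h : Finset V

structure S1.OK (G : SimpleGraph V) (B : Base V) (L d : ℕ) (S : S1 V) : Prop where
  edge : ∀ f ∈ S.H, IsEdge G f ∧ f ⊆ S.W ∧ S.c f ≤ B.ctop
  W0 : B.W0 ⊆ S.W
  H0 : B.H0 ⊆ S.H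
  c0 : ∀ f ∈ B.H0, S.c f = B.c0 f
  mark : S.h ∈ S.H
  root : ∀ ρ ∈ S.H, ρ ≠ S.h → B.W0 ⊆ S.Wr ρ ∧ ρ ⊆ S.Wr ρ ∧ S.Wr ρ ⊆ S.W ∧ S.Sk ρ ⊆ S.W ∧
    (∀ q, 0 ≤ S.al ρ q ∧ S.al ρ q ≤ 1) ∧
    ∀ q ∈ cn G ρ, q ∉ S.Wr ρ → q ∉ S.Sk ρ → ∃ x ∈ ρ, ({x, q} : Finset V) ∉ S.H
  path : PathOK B.W0 S.H S.J S.s
  last : ∀ T ∈ S.J, S.c S.h ≤ S.s T ∧ (S.h ⊆ T → S.s T = S.c S.h)
  cardW : (S.W \ B.W0).card + d ≤ L
  cardH : (S.H \ B.H0).card + 2 * d ≤ 2 * L
  cardJ : S.J.card + d ≤ L

/-- the step through the apex `q` at time `t`, continuing along the free edge `{x,q}` -/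
noncomputable def S1.step (S : S1 V) (q : V) (t : ℕ) (x : V) : S1 V where
  W := insert q S.W
  H := S.H ∪ S.h.image fun y => {y, q}
  c := fun f => if f ∈ S.H then S.c f else t
  Wr := fun f => if f = S.h then S.W else if f ∈ S.H then S.Wr f else insert q S.W
  Sk := fun f => if f = S.h then {q} else if f ∈ S.H then S.Sk f else ∅
  al := fun f => if f = S.h then (fun q' => if sel q q' then 1 else 0)
    else if f ∈ S.H then S.al f else fun _ => if ∃ y ∈ S.h, f = {y, q} ∧ sel x y then 1 else 0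
  J := insert (insert q S.h) S.J
  s := fun T => if T = insert q S.h then t else S.s T
  h := {x, q}

section
variable (G : SimpleGraph V) {M : ℕ} (σ : Thr V) (e : Finset V) (w : V) (S : S1 V)

/-- product over the unmarked roots -/
noncomputable def S1.Rest (j : Bool) (ω : Om V M) : ℝ :=
  ∏ ρ ∈ S.H.erase S.h, alive G ρ (S.c ρ)
    (fun q ω => can G σ (ovT e w (S.al ρ q) j) ω (S.Wr ρ) ρ q) (S.Sk ρ) ω

/-- effect of the target value on the marked root -/
noncomputable def S1.Dif (j : Bool) (ω : Om V M) : ℝ :=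
  alive G S.h (S.c S.h) (canF G σ (fun _ => ovT e w 1 j) S.W S.h) ∅ ω
    - alive G S.h (S.c S.h) (canF G σ (fun _ => ovT e w 0 j) S.W S.h) ∅ ω

/-- the mixed difference -/
noncomputable def S1.Mix (ω : Om V M) : ℝ :=
  S.Dif G σ e w false ω * S.Rest G σ e w false ω - S.Dif G σ e w true ω * S.Rest G σ e w true ω

end

section
variable (G : SimpleGraph V) (M : ℕ) (pt : ℕ → ℝ) (D qq η Z : ℝ) (L : ℕ)

/-- accumulated number of old apexes adjacent to unmarked roots -/
noncomputable def S1.acc (S : S1 V) : ℝ :=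
  ∑ ρ ∈ S.H.erase S.h, (((cn G ρ ∩ S.W) \ (S.Wr ρ ∪ S.Sk ρ)).card : ℝ)

/-- weight of the roots that share a vertex with the marked edge -/
noncomputable def S1.hold (S : S1 V) : ℝ :=
  ∑ ρ ∈ S.H, ((ρ ∩ S.h).card : ℝ) * Phi D M pt η (max (S.c ρ) (S.c S.h))

/-- the value function of the first particle -/
noncomputable def U1 (d : ℕ) (S : S1 V) : ℝ :=
  Z * Phi D M pt η (S.c S.h) ^ 2 * (S.acc G * (182 * Z ^ 8 / D)
      + Z * (720 * qq * Z ^ 9 / D + 6 * Z ^ 2 * D ^ 2 / 2 ^ L))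
    + 2 * Z ^ 2 * Phi D M pt η (S.c S.h) ^ 2 * (qq * Z * (182 * Z ^ 8 / D))
    + qq * Z ^ 3 / D * (S.hold M pt D η * (2 * Z * Phi D M pt η (S.c S.h))
      + 6 * Z ^ 2 * Phi D M pt η (S.c S.h) ^ 2)
    + g1 (Fintype.card V) (Phi D M pt η) d (S.c S.h)

/-- bound for the second-particle values when the path ends at the target `(S.h, q)` at time `a` -/
noncomputable def fin1 (S : S1 V) (q : V) (a : ℕ) : ℝ :=
  (S.acc G + (((S.H.erase S.h).filter fun ρ => q ∈ cn G ρ).card : ℝ)) * (182 * Z ^ 8 / D)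
    + Z * (720 * qq * Z ^ 9 / D + 6 * Z ^ 2 * D ^ 2 / 2 ^ L)
    + qq * Z ^ 3 / D * (S.hold M pt D η / Phi D M pt η a)

end

/-- product over all roots when the path has reached the target `(S.h, w)`: the marked root skips `w` -/
noncomputable def S1.Full {M : ℕ} (G : SimpleGraph V) (σ : Thr V) (w : V) (S : S1 V) (j : Bool)
    (ω : Om V M) : ℝ :=
  alive G S.h (S.c S.h)
      (fun q ω => can G σ (ovT S.h w (if sel w q then 1 else 0) j) ω S.W S.h q) {w} ω
    * S.Rest G σ S.h w j ω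

end Crest.Agent.R030
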