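import Crest.Agent.R030.G1Defs

/-! # Row 30: invariants and value function of the first particle

`U1_step`: `acc (step) = acc + #{ρ ∈ H.erase h | q ∈ cn ρ}` at most (the old marked root skips `q`, the new root
has `Wr = W'`), summed over `q` by `gain2` (`#H ≤ Z` from `BaseOK.H_Z`, `cardH`);
`∑_{x∈h} hold (step q t x) ≤ hold + 6 Φ t` (`q` lies in no old root, `max (c ρ) t ≤ max (c ρ) u`);
then `sum_le_of_incr` with `Phi_pow_incr` (k = 1,2,4), `pt_le_rho_Phi`, `1 ≤ η Z`, `1 ≤ Φ`.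
-/

set_option autoImplicit false
set_option linter.unusedSectionVars false

namespace Crest.Agent.R030
open Finset
open scoped Classical

variable {V : Type} [Fintype V] [DecidableEq V] {G : SimpleGraph V} {M : ℕ}
variable {pt : ℕ → ℝ} {D qq η Z : ℝ} {L : ℕ} {B : Base V}

theorem S1.mem_step_H {S : S1 V} {q x : V} {t : ℕ} {f : Finset V} :
    f ∈ (S.step q t x).H ↔ f ∈ S.H ∨ ∃ z ∈ S.h, f = {z, q} := by
  simp only [S1.step, mem_union, mem_image]
  constructor
  · rintro (h | ⟨z, hz, rfl⟩)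
    · exact Or.inl h
    · exact Or.inr ⟨z, hz, rfl⟩
  · rintro (h | ⟨z, hz, rfl⟩)
    · exact Or.inl h
    · exact Or.inr ⟨z, hz, rfl⟩

theorem S1.OK.not_mem_H {S : S1 V} {d : ℕ} (hS : S.OK G B L d) {q : V} (hqW : q ∉ S.W)
    {f : Finset V} (hf : q ∈ f) : f ∉ S.H :=
  fun hh => hqW ((hS.edge f hh).2.1 hf)

theorem S1.OK.pair_not_mem {S : S1 V} {d : ℕ} (hS : S.OK G B L d) {q : V} (hqW : q ∉ S.W)
    (z : V) : ({z, q} : Finset V) ∉ S.H :=
  hS.not_mem_H hqW (by simp)

theorem S1.OK.hW {S : S1 V} {d : ℕ} (hS : S.OK G B L d) : S.h ⊆ S.W := (hS.edge _ hS.mark).2.1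

theorem S1.OK.hE {S : S1 V} {d : ℕ} (hS : S.OK G B L d) : IsEdge G S.h := (hS.edge _ hS.mark).1

theorem S1.OK.J_sub {S : S1 V} {d : ℕ} (hS : S.OK G B L d) {T : Finset V} (hT : T ∈ S.J) :
    T ⊆ S.W := by
  intro z hz
  have h3 := hS.path.card3 T hT
  obtain ⟨y, hy, hyz⟩ : ∃ y ∈ T, y ≠ z := by
    have : 1 < T.card := by omega
    exact exists_mem_ne this z
  exact (hS.edge _ (hS.path.edges T hT z hz y hy hyz.symm)).2.1 (by simp)

theorem S1.step_c_old {S : S1 V} {q x : V} {t : ℕ} {f : Finset V} (hf : f ∈ S.H) :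
    (S.step q t x).c f = S.c f := by
  simp [S1.step, hf]

theorem S1.step_c_new {S : S1 V} {q x : V} {t : ℕ} {f : Finset V} (hf : f ∉ S.H) :
    (S.step q t x).c f = t := by
  simp [S1.step, hf]

theorem S1.OK.step_s_old {S : S1 V} {d : ℕ} (hS : S.OK G B L d) {q : V} (hqW : q ∉ S.W)
    {x : V} {t : ℕ} {T : Finset V} (hT : T ∈ S.J) : (S.step q t x).s T = S.s T := by
  have : T ≠ insert q S.h := by
    rintro rfl
    exact hqW (hS.J_sub hT (mem_insert_self _ _))
  simp [S1.step, this]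

theorem S1.step_s_new {S : S1 V} {q x : V} {t : ℕ} : (S.step q t x).s (insert q S.h) = t := by
  simp [S1.step]

theorem S1.mem_step_J {S : S1 V} {q x : V} {t : ℕ} {T : Finset V} :
    T ∈ (S.step q t x).J ↔ T = insert q S.h ∨ T ∈ S.J := by
  simp [S1.step]

theorem S1.OK.step_path {S : S1 V} {d : ℕ} (hS : S.OK G B L d) {q : V} (hq : q ∈ cn G S.h)
    (hqW : q ∉ S.W) {t : ℕ} (ht : t < S.c S.h) (x : V) :
    PathOK B.W0 (S.step q t x).H (S.step q t x).J (S.step q t x).s := by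
  have hW := hS.hW
  have hE := hS.hE
  have hqh : q ∉ S.h := fun hh => hqW (hW hh)
  have hedge : ∀ f ∈ (S.step q t x).H, IsEdge G f := by
    intro f hf
    rcases S1.mem_step_H.1 hf with hf | ⟨z, hz, rfl⟩
    · exact (hS.edge f hf).1
    · exact isEdge_free hq hz
  refine ⟨?_, ?_, ?_, ?_, ?_⟩
  · intro T hT
    rcases S1.mem_step_J.1 hT with rfl | hT
    · exact card_insert_cn hE hq
    · exact hS.path.card3 T hT
  · intro T hT a ha b hb hab
    rcases S1.mem_step_J.1 hT with rfl | hT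
    · rw [S1.mem_step_H]
      rcases mem_insert.1 ha with ha' | ha'
      · rcases mem_insert.1 hb with hb' | hb'
        · exact absurd (ha'.trans hb'.symm) hab
        · exact Or.inr ⟨b, hb', by rw [ha']; exact pair_comm _ _⟩
      · rcases mem_insert.1 hb with hb' | hb'
        · exact Or.inr ⟨a, ha', by rw [hb']⟩
        · left
          have : ({a, b} : Finset V) = S.h := by
            apply eq_of_subset_of_card_le
            · intro z hz
              rcases mem_insert.1 hz with hz' | hz'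
              · rw [hz']; exact ha'
              · rw [mem_singleton.1 hz']; exact hb'
            · rw [hE.card, card_pair hab]
          rw [this]; exact hS.mark
    · exact S1.mem_step_H.2 (Or.inl (hS.path.edges T hT a ha b hb hab))
  · intro f hf q' hq' hall
    rw [S1.mem_step_J]
    rcases S1.mem_step_H.1 hf with hf | ⟨z, hz, rfl⟩
    · have hfW := (hS.edge f hf).2.1
      have hfE := (hS.edge f hf).1
      by_cases hqq : q' = q
      · subst hqq
        left
        have hsub : f ⊆ S.h := by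
          intro z hz
          rcases S1.mem_step_H.1 (hall z hz) with h1 | ⟨y, hy, h1⟩
          · exact absurd h1 (hS.pair_not_mem hqW z)
          · have : z = y := pair_inj_of_not_mem (h := S.W) hqW (hfW hz) h1
            rw [this]; exact hy
        have : f = S.h := eq_of_subset_of_card_le hsub (by rw [hE.card, hfE.card])
        rw [this]
      · right
        refine hS.path.tri f hf q' hq' fun z hz => ?_
        rcases S1.mem_step_H.1 (hall z hz) with h1 | ⟨y, _, h1⟩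
        · exact h1
        · exfalso
          have : q ∈ ({z, q'} : Finset V) := by rw [h1]; simp
          rcases mem_insert.1 this with h2 | h2
          · exact hqW (h2 ▸ hfW hz)
          · exact hqq (mem_singleton.1 h2).symm
    · left
      have h1 := hall q (by simp)
      have h2 := hall z (by simp)
      have hne1 : q ≠ q' := by
        have := (hedge _ h1).card
        intro e; rw [← e] at this; simp at this
      have hne2 : z ≠ q' := by
        have := (hedge _ h2).card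
        intro e; rw [← e] at this; simp at this
      have hq'h : q' ∈ S.h := by
        rcases S1.mem_step_H.1 h1 with h3 | ⟨y, hy, h3⟩
        · exact absurd h3 (hS.not_mem_H hqW (by simp))
        · have : q' ∈ ({y, q} : Finset V) := by rw [← h3]; simp
          rcases mem_insert.1 this with h4 | h4
          · rw [h4]; exact hy
          · exact absurd (mem_singleton.1 h4).symm hne1
      have hh : S.h = {z, q'} := by
        symm
        apply eq_of_subset_of_card_le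
        · intro a ha
          rcases mem_insert.1 ha with rfl | ha
          · exact hz
          · rw [mem_singleton.1 ha]; exact hq'h
        · rw [hE.card, card_pair hne2]
      rw [hh]
      ext a
      simp only [mem_insert, mem_singleton]
      tauto
  · intro T hT f f' hf hf' hc hc' hne ⟨hl, hl'⟩
    rcases S1.mem_step_J.1 hT with rfl | hT
    · rw [S1.step_s_new] at hl
      obtain ⟨T', hT', -, hlt⟩ := hl
      rcases S1.mem_step_J.1 hT' with rfl | hT'
      · rw [S1.step_s_new] at hlt; omega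
      · rw [hS.step_s_old hqW hT'] at hlt
        have := (hS.last T' hT').1
        omega
    · rw [hS.step_s_old hqW hT] at hl hl'
      have hTW := hS.J_sub hT
      -- a two-element subset of `T` inside the new node is the marked edge
      have key : ∀ g : Finset V, g ⊆ T → g.card = 2 →
          lowJ (S.step q t x).J (S.step q t x).s g (S.s T) → g = S.h ∨ lowJ S.J S.s g (S.s T) := by
        rintro g hg hgc ⟨T', hT', hgT', hlt⟩
        rcases S1.mem_step_J.1 hT' with rfl | hT'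
        · left
          apply eq_of_subset_of_card_le _ (by rw [hE.card, hgc])
          intro a ha
          rcases mem_insert.1 (hgT' ha) with rfl | h1
          · exact absurd (hTW (hg ha)) hqW
          · exact h1
        · right
          rw [hS.step_s_old hqW hT'] at hlt
          exact ⟨T', hT', hgT', hlt⟩
      have key2 : ∀ g : Finset V, S.h ⊆ T → ¬ lowJ S.J S.s g (S.s T) := by
        rintro g hhT ⟨T', hT', -, hlt⟩
        have h1 := (hS.last T hT).2 hhT
        have h2 := (hS.last T' hT').1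
        omega
      rcases key f hf hc hl with h1 | h1
      · rcases key f' hf' hc' hl' with h2 | h2
        · exact hne (h1.trans h2.symm)
        · exact key2 f' (h1 ▸ hf) h2
      · rcases key f' hf' hc' hl' with h2 | h2
        · exact key2 f (h2 ▸ hf') h1
        · exact hS.path.low T hT f f' hf hf' hc hc' hne ⟨h1, h2⟩
  · intro T hT T' hT' heq
    rcases S1.mem_step_J.1 (mem_coe.1 hT) with rfl | h1 <;>
      rcases S1.mem_step_J.1 (mem_coe.1 hT') with rfl | h2
    · rfl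
    · rw [S1.step_s_new, hS.step_s_old hqW h2] at heq
      have := (hS.last T' h2).1
      omega
    · rw [S1.step_s_new, hS.step_s_old hqW h1] at heq
      have := (hS.last T h1).1
      omega
    · rw [hS.step_s_old hqW h1, hS.step_s_old hqW h2] at heq
      exact hS.path.inj (mem_coe.2 h1) (mem_coe.2 h2) heq

theorem S1.OK.step {S : S1 V} {d : ℕ} (hS : S.OK G B L (d + 1)) {q : V} (hq : q ∈ cn G S.h)
    (hqW : q ∉ S.W) {t : ℕ} (ht : t < S.c S.h) {x : V} (hx : x ∈ S.h) :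
    (S.step q t x).OK G B L d := by
  have hW := hS.hW
  have hE := hS.hE
  have hqh : q ∉ S.h := fun hh => hqW (hW hh)
  have hWW : S.W ⊆ (S.step q t x).W := subset_insert _ _
  have hqW' : q ∈ (S.step q t x).W := mem_insert_self _ _
  have hsubW : ∀ f ∈ (S.step q t x).H, f ⊆ (S.step q t x).W := by
    intro f hf
    rcases S1.mem_step_H.1 hf with hf | ⟨z, hz, rfl⟩
    · exact (hS.edge f hf).2.1.trans hWW
    · intro a ha
      rcases mem_insert.1 ha with rfl | ha
      · exact hWW (hW hz)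
      · rw [mem_singleton.1 ha]; exact hqW'
  have hch : (S.step q t x).c (S.step q t x).h = t := S1.step_c_new (hS.pair_not_mem hqW x)
  refine ⟨?_, hS.W0.trans hWW, ?_, ?_, ?_, ?_, hS.step_path hq hqW ht x, ?_, ?_, ?_, ?_⟩
  · intro f hf
    refine ⟨?_, hsubW f hf, ?_⟩
    · rcases S1.mem_step_H.1 hf with hf | ⟨z, hz, rfl⟩
      · exact (hS.edge f hf).1
      · exact isEdge_free hq hz
    · rcases S1.mem_step_H.1 hf with hf | ⟨z, hz, rfl⟩
      · rw [S1.step_c_old hf]; exact (hS.edge f hf).2.2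
      · rw [S1.step_c_new (hS.pair_not_mem hqW z)]
        have := (hS.edge _ hS.mark).2.2
        omega
  · intro f hf
    exact S1.mem_step_H.2 (Or.inl (hS.H0 hf))
  · intro f hf
    rw [S1.step_c_old (hS.H0 hf)]; exact hS.c0 f hf
  · exact S1.mem_step_H.2 (Or.inr ⟨x, hx, rfl⟩)
  · intro ρ hρ hne
    by_cases h1 : ρ = S.h
    · have eWr : (S.step q t x).Wr ρ = S.W := by simp [S1.step, h1]
      have eSk : (S.step q t x).Sk ρ = {q} := by simp [S1.step, h1]
      have eal : (S.step q t x).al ρ = fun q' => if sel q q' then 1 else 0 := by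
        simp [S1.step, h1]
      rw [eWr, eSk, eal]
      refine ⟨hS.W0, h1 ▸ hW, hWW, singleton_subset_iff.2 hqW', ?_, ?_⟩
      · intro q'
        by_cases hs : sel q q' <;> simp [hs]
      · intro q' _ hq'W hq'q
        refine ⟨x, h1 ▸ hx, fun hh => ?_⟩
        have : q' ∈ (S.step q t x).W := hsubW _ hh (by simp)
        rcases mem_insert.1 this with h2 | h2
        · exact hq'q (mem_singleton.2 h2)
        · exact hq'W h2
    · by_cases h2 : ρ ∈ S.H
      · have eWr : (S.step q t x).Wr ρ = S.Wr ρ := by simp [S1.step, h1, h2]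
        have eSk : (S.step q t x).Sk ρ = S.Sk ρ := by simp [S1.step, h1, h2]
        have eal : (S.step q t x).al ρ = S.al ρ := by simp [S1.step, h1, h2]
        rw [eWr, eSk, eal]
        obtain ⟨r1, r2, r3, r4, r5, r6⟩ := hS.root ρ h2 h1
        have hρW := (hS.edge ρ h2).2.1
        refine ⟨r1, r2, r3.trans hWW, r4.trans hWW, r5, ?_⟩
        intro q' hq' hq'W hq'S
        by_cases hqq : q' = q
        · subst hqq
          obtain ⟨z, hzρ, hzh⟩ : ∃ z ∈ ρ, z ∉ S.h := by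
            by_contra hc
            push Not at hc
            exact h1 (eq_of_subset_of_card_le hc (by rw [hE.card, (hS.edge ρ h2).1.card]))
          refine ⟨z, hzρ, fun hh => ?_⟩
          rcases S1.mem_step_H.1 hh with h3 | ⟨y, hy, h3⟩
          · exact hS.pair_not_mem hqW z h3
          · have : z = y := pair_inj_of_not_mem (h := S.W) hqW (hρW hzρ) h3
            exact hzh (this ▸ hy)
        · obtain ⟨z, hzρ, hz⟩ := r6 q' hq' hq'W hq'S
          refine ⟨z, hzρ, fun hh => ?_⟩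
          rcases S1.mem_step_H.1 hh with h3 | ⟨y, _, h3⟩
          · exact hz h3
          · have : q ∈ ({z, q'} : Finset V) := by rw [h3]; simp
            rcases mem_insert.1 this with h4 | h4
            · exact hqW (h4 ▸ hρW hzρ)
            · exact hqq (mem_singleton.1 h4).symm
      · have eWr : (S.step q t x).Wr ρ = insert q S.W := by simp [S1.step, h1, h2]
        have eSk : (S.step q t x).Sk ρ = ∅ := by simp [S1.step, h1, h2]
        have eal : (S.step q t x).al ρ =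
            fun _ => if ∃ y ∈ S.h, ρ = {y, q} ∧ sel x y then 1 else 0 := by
          simp only [S1.step, if_neg h1, if_neg h2]
        rw [eWr, eSk, eal]
        refine ⟨hS.W0.trans hWW, hsubW ρ hρ, Subset.refl _, empty_subset _, ?_, ?_⟩
        · intro q'
          by_cases hs : ∃ y ∈ S.h, ρ = {y, q} ∧ sel x y
          · simp only [if_pos hs]; norm_num
          · simp only [if_neg hs]; norm_num
        · intro q' _ hq'W _
          refine ⟨q, ?_, fun hh => hq'W (hsubW _ hh (by simp))⟩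
          rcases S1.mem_step_H.1 hρ with h3 | ⟨y, _, rfl⟩
          · exact absurd h3 h2
          · simp
  · intro T hT
    rw [hch]
    rcases S1.mem_step_J.1 hT with rfl | hT
    · rw [S1.step_s_new]; exact ⟨le_rfl, fun _ => rfl⟩
    · rw [hS.step_s_old hqW hT]
      refine ⟨?_, fun hh => ?_⟩
      · have := (hS.last T hT).1
        omega
      · exact absurd (hS.J_sub hT (hh (show q ∈ ({x, q} : Finset V) by simp))) hqW
  · have h1 : (S.step q t x).W \ B.W0 ⊆ insert q (S.W \ B.W0) := by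
      intro a ha
      rw [mem_sdiff] at ha
      rcases mem_insert.1 ha.1 with h2 | h2
      · exact mem_insert.2 (Or.inl h2)
      · exact mem_insert.2 (Or.inr (mem_sdiff.2 ⟨h2, ha.2⟩))
    have h2 := card_le_card h1
    have h3 := card_insert_le q (S.W \ B.W0)
    have h4 := hS.cardW
    omega
  · have h1 : (S.step q t x).H \ B.H0 ⊆ (S.H \ B.H0) ∪ S.h.image fun y => {y, q} := by
      intro a ha
      rw [mem_sdiff] at ha
      rcases mem_union.1 ha.1 with h2 | h2
      · exact mem_union.2 (Or.inl (mem_sdiff.2 ⟨h2, ha.2⟩))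
      · exact mem_union.2 (Or.inr h2)
    have h2 := card_le_card h1
    have h3 := card_union_le (S.H \ B.H0) (S.h.image fun y => ({y, q} : Finset V))
    have h4 := hS.cardH
    have h5 : (S.h.image fun y => ({y, q} : Finset V)).card ≤ S.h.card := card_image_le
    rw [hE.card] at h5
    omega
  · have h3 : (S.step q t x).J.card ≤ S.J.card + 1 := card_insert_le _ _
    have h4 := hS.cardJ
    omega

theorem S1.step_wgt {S : S1 V} {d : ℕ} (hS : S.OK G B L d) {q : V} (hqW : q ∉ S.W) (t : ℕ) (x : V) :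
    ∏ f ∈ (S.step q t x).H \ B.H0, pt ((S.step q t x).c f)
      = (∏ f ∈ S.H \ B.H0, pt (S.c f)) * pt t ^ 2 := by
  have hW := hS.hW
  have hE := hS.hE
  have hqh : q ∉ S.h := fun hh => hqW (hW hh)
  have e1 : (S.step q t x).H \ B.H0 = (S.H \ B.H0) ∪ S.h.image fun y => {y, q} := by
    ext f
    rw [mem_sdiff, S1.mem_step_H, mem_union, mem_sdiff, mem_image]
    constructor
    · rintro ⟨h1 | ⟨z, hz, rfl⟩, h2⟩
      · exact Or.inl ⟨h1, h2⟩
      · exact Or.inr ⟨z, hz, rfl⟩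
    · rintro (⟨h1, h2⟩ | ⟨z, hz, rfl⟩)
      · exact ⟨Or.inl h1, h2⟩
      · exact ⟨Or.inr ⟨z, hz, rfl⟩, fun hh => hS.pair_not_mem hqW z (hS.H0 hh)⟩
  have hdisj : Disjoint (S.H \ B.H0) (S.h.image fun y => ({y, q} : Finset V)) := by
    rw [disjoint_left]
    intro f hf hf'
    obtain ⟨z, _, rfl⟩ := mem_image.1 hf'
    exact hS.pair_not_mem hqW z (mem_sdiff.1 hf).1
  rw [e1, prod_union hdisj]
  congr 1
  · exact prod_congr rfl fun f hf => by rw [S1.step_c_old (mem_sdiff.1 hf).1]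
  · rw [prod_image fun a ha b _ hab => pair_inj_of_not_mem hqh (mem_coe.1 ha) hab]
    rw [prod_congr rfl fun y _ => by rw [S1.step_c_new (hS.pair_not_mem hqW y)]]
    rw [prod_const, hE.card]

theorem S1.acc_nn (S : S1 V) : 0 ≤ S.acc G := sum_nonneg fun _ _ => Nat.cast_nonneg _

theorem S1.hold_nn (hN : NumOK G M pt D qq η Z L) (S : S1 V) : 0 ≤ S.hold M pt D η :=
  sum_nonneg fun _ _ => mul_nonneg (Nat.cast_nonneg _) (hN.Phi_pos _).le

theorem U1_main_nn (hN : NumOK G M pt D qq η Z L) (S : S1 V) :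
    0 ≤ Z * Phi D M pt η (S.c S.h) ^ 2 * (S.acc G * (182 * Z ^ 8 / D)
      + Z * (720 * qq * Z ^ 9 / D + 6 * Z ^ 2 * D ^ 2 / 2 ^ L))
    + 2 * Z ^ 2 * Phi D M pt η (S.c S.h) ^ 2 * (qq * Z * (182 * Z ^ 8 / D))
    + qq * Z ^ 3 / D * (S.hold M pt D η * (2 * Z * Phi D M pt η (S.c S.h))
      + 6 * Z ^ 2 * Phi D M pt η (S.c S.h) ^ 2) := by
  have h1 := S1.acc_nn (G := G) S
  have h2 := S1.hold_nn hN S
  have h3 : 0 ≤ Z := by have := hN.Z_ge; linarith
  have h4 : 0 ≤ D := by have := hN.D_ge; linarith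
  have h5 := hN.qq_nn
  have h6 := (hN.Phi_pos (S.c S.h)).le
  positivity

theorem U1_nn (hN : NumOK G M pt D qq η Z L) (d : ℕ) (S : S1 V) :
    0 ≤ U1 G M pt D qq η Z L d S := by
  have h1 := U1_main_nn hN S
  have h2 : 0 ≤ g1 (Fintype.card V) (Phi D M pt η) d (S.c S.h) := by
    have h6 := (hN.Phi_pos (S.c S.h)).le
    unfold g1; positivity
  unfold U1
  linarith

theorem U1_zero (hN : NumOK G M pt D qq η Z L) (S : S1 V) :
    8 * (Fintype.card V : ℝ) ^ 3 ≤ U1 G M pt D qq η Z L 0 S := by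
  have h1 := U1_main_nn hN S
  have h2 : 8 * (Fintype.card V : ℝ) ^ 3 ≤ g1 (Fintype.card V) (Phi D M pt η) 0 (S.c S.h) := by
    have h6 : 1 ≤ Phi D M pt η (S.c S.h) ^ 4 := one_le_pow₀ (hN.one_le_Phi _)
    have h7 : (0 : ℝ) ≤ 8 * (Fintype.card V : ℝ) ^ 3 := by positivity
    unfold g1
    rw [pow_zero, div_one]
    nlinarith
  unfold U1
  linarith

theorem S1.OK.card_H_le (hB : BaseOK G M B Z L) {S : S1 V} {d : ℕ} (hS : S.OK G B L d) :
    (S.H.card : ℝ) ≤ Z := by
  have h1 : S.H.card ≤ (S.H \ B.H0).card + B.H0.card := by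
    rw [card_sdiff_add_card_eq_card hS.H0]
  have h2 := hS.cardH
  have h3 : S.H.card ≤ B.H0.card + 2 * L := by omega
  have h4 : (S.H.card : ℝ) ≤ B.H0.card + 2 * L := by exact_mod_cast h3
  have h5 := hB.H_Z
  have h6 : (0 : ℝ) ≤ L := Nat.cast_nonneg _
  linarith

theorem S1.OK.acc_step {S : S1 V} {d : ℕ} (hS : S.OK G B L d) {q : V} (hqW : q ∉ S.W) (t : ℕ)
    (x : V) :
    (S.step q t x).acc G ≤ S.acc G + (((S.H.erase S.h).filter fun ρ => q ∈ cn G ρ).card : ℝ) := by
  unfold S1.acc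
  set F : Finset V → ℝ := fun ρ => (((cn G ρ ∩ (S.step q t x).W) \
    ((S.step q t x).Wr ρ ∪ (S.step q t x).Sk ρ)).card : ℝ) with hF
  have h1 : ∑ ρ ∈ (S.step q t x).H.erase (S.step q t x).h, F ρ ≤ ∑ ρ ∈ S.H.erase S.h, F ρ := by
    rw [← sum_subset (inter_subset_left (s₂ := S.H.erase S.h))]
    · exact sum_le_sum_of_subset_of_nonneg inter_subset_right fun _ _ _ => Nat.cast_nonneg _
    intro ρ hρ hne
    have hc : ρ ∉ S.H.erase S.h := fun hh => hne (mem_inter.2 ⟨hρ, hh⟩)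
    simp only [hF, Nat.cast_eq_zero, card_eq_zero, sdiff_eq_empty_iff_subset]
    by_cases h1 : ρ = S.h
    · have eWr : (S.step q t x).Wr ρ = S.W := by simp [S1.step, h1]
      have eSk : (S.step q t x).Sk ρ = {q} := by simp [S1.step, h1]
      rw [eWr, eSk]
      intro a ha
      rcases mem_insert.1 (mem_inter.1 ha).2 with h2 | h2
      · exact mem_union.2 (Or.inr (mem_singleton.2 h2))
      · exact mem_union.2 (Or.inl h2)
    · have h2 : ρ ∉ S.H := fun h2 => hc (mem_erase.2 ⟨h1, h2⟩)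
      have eWr : (S.step q t x).Wr ρ = insert q S.W := by simp [S1.step, h1, h2]
      rw [eWr]
      intro a ha
      exact mem_union.2 (Or.inl (mem_inter.1 ha).2)
  refine h1.trans ?_
  rw [← sum_boole, ← sum_add_distrib]
  refine sum_le_sum fun ρ hρ => ?_
  obtain ⟨h1, h2⟩ := mem_erase.1 hρ
  have eWr : (S.step q t x).Wr ρ = S.Wr ρ := by simp [S1.step, h1, h2]
  have eSk : (S.step q t x).Sk ρ = S.Sk ρ := by simp [S1.step, h1, h2]
  simp only [hF]
  rw [eWr, eSk]
  by_cases hq : q ∈ cn G ρ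
  · rw [if_pos hq]
    have : (cn G ρ ∩ (S.step q t x).W) \ (S.Wr ρ ∪ S.Sk ρ)
        ⊆ insert q ((cn G ρ ∩ S.W) \ (S.Wr ρ ∪ S.Sk ρ)) := by
      intro a ha
      obtain ⟨h3, h4⟩ := mem_sdiff.1 ha
      obtain ⟨h5, h6⟩ := mem_inter.1 h3
      rcases mem_insert.1 h6 with h7 | h7
      · exact mem_insert.2 (Or.inl h7)
      · exact mem_insert.2 (Or.inr (mem_sdiff.2 ⟨mem_inter.2 ⟨h5, h7⟩, h4⟩))
    have h3 := (card_le_card this).trans (card_insert_le _ _)
    exact_mod_cast h3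
  · rw [if_neg hq, add_zero]
    apply Nat.cast_le.2
    apply card_le_card
    intro a ha
    obtain ⟨h3, h4⟩ := mem_sdiff.1 ha
    obtain ⟨h5, h6⟩ := mem_inter.1 h3
    rcases mem_insert.1 h6 with h7 | h7
    · exact absurd (h7 ▸ h5) hq
    · exact mem_sdiff.2 ⟨mem_inter.2 ⟨h5, h7⟩, h4⟩

theorem S1.OK.hold_step (hN : NumOK G M pt D qq η Z L) {S : S1 V} {d : ℕ} (hS : S.OK G B L d)
    {q : V} (hqW : q ∉ S.W) {t : ℕ} (ht : t ≤ S.c S.h) :
    ∑ x ∈ S.h, (S.step q t x).hold M pt D η ≤ S.hold M pt D η + 6 * Phi D M pt η t := by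
  have hW := hS.hW
  have hE := hS.hE
  have hqh : q ∉ S.h := fun hh => hqW (hW hh)
  have hdisj : Disjoint S.H (S.h.image fun y => ({y, q} : Finset V)) := by
    rw [disjoint_left]
    intro f hf hf'
    obtain ⟨z, _, rfl⟩ := mem_image.1 hf'
    exact hS.pair_not_mem hqW z hf
  have key : ∀ x ∈ S.h, (S.step q t x).hold M pt D η ≤
      ∑ ρ ∈ S.H, (if x ∈ ρ then 1 else 0) * Phi D M pt η (max (S.c ρ) (S.c S.h))
        + 3 * Phi D M pt η t := by
    intro x hx
    have hch : (S.step q t x).c (S.step q t x).h = t := S1.step_c_new (hS.pair_not_mem hqW x)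
    unfold S1.hold
    rw [hch]
    change ∑ ρ ∈ S.H ∪ S.h.image fun y => ({y, q} : Finset V),
      ((ρ ∩ {x, q}).card : ℝ) * Phi D M pt η (max ((S.step q t x).c ρ) t) ≤ _
    rw [sum_union hdisj]
    apply add_le_add
    · refine sum_le_sum fun ρ hρ => ?_
      rw [S1.step_c_old hρ]
      have hqρ : q ∉ ρ := fun hh => hS.not_mem_H hqW hh hρ
      have e : ((ρ ∩ {x, q}).card : ℝ) = if x ∈ ρ then 1 else 0 := by
        by_cases hxρ : x ∈ ρ
        · have : ρ ∩ {x, q} = {x} := by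
            ext a
            simp only [mem_inter, mem_insert, mem_singleton]
            constructor
            · rintro ⟨h1, h2 | h2⟩
              · exact h2
              · exact absurd (h2 ▸ h1) hqρ
            · rintro rfl; exact ⟨hxρ, Or.inl rfl⟩
          rw [this, if_pos hxρ]; simp
        · have : ρ ∩ {x, q} = ∅ := by
            ext a
            simp only [mem_inter, mem_insert, mem_singleton, notMem_empty, iff_false, not_and]
            rintro h1 (h2 | h2)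
            · exact hxρ (h2 ▸ h1)
            · exact hqρ (h2 ▸ h1)
          rw [this, if_neg hxρ]; simp
      rw [e]
      apply mul_le_mul_of_nonneg_left (hN.Phi_mono (max_le_max le_rfl ht))
      split_ifs <;> norm_num
    · rw [sum_image fun a ha b _ hab => pair_inj_of_not_mem hqh (mem_coe.1 ha) hab]
      obtain ⟨y, hxy, hh, -⟩ := hE.exists_other hx
      have hxq : x ≠ q := fun e => hqh (e ▸ hx)
      have hyq : y ≠ q := fun e => hqh (e ▸ (by rw [hh]; simp))
      have hc : ∀ z, (S.step q t x).c {z, q} = t := fun z => S1.step_c_new (hS.pair_not_mem hqW z)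
      simp only [hc, max_self]
      rw [hh, sum_pair hxy.ne, inter_self, card_pair hxq]
      have : ({y, q} : Finset V) ∩ {x, q} = {q} := by
        ext a
        simp only [mem_inter, mem_insert, mem_singleton]
        constructor
        · rintro ⟨h1 | h1, h2 | h2⟩
          · exact absurd (h2.symm.trans h1) hxy.ne
          · exact h2
          · exact h1
          · exact h1
        · rintro rfl; exact ⟨Or.inr rfl, Or.inr rfl⟩
      rw [this, card_singleton]
      push_cast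
      linarith
  refine (sum_le_sum key).trans ?_
  rw [sum_add_distrib, sum_const, hE.card, sum_comm]
  apply add_le_add
  · unfold S1.hold
    refine sum_le_sum fun ρ _ => ?_
    rw [← sum_mul, sum_boole, filter_mem_eq_inter, inter_comm]
  · simp only [nsmul_eq_mul]; push_cast; linarith

/-- the pointwise (in time) inequality -/
theorem U1_num {Z η Φ r a0 b cc hold g e2 e1 e4 : ℝ} (hZ : 1 ≤ Z) (hη : 0 < η) (hηZ : 1 ≤ η * Z)
    (hΦ : 1 ≤ Φ) (hr : 0 ≤ r) (ha : 0 ≤ a0) (hb : 0 ≤ b) (hc : 0 ≤ cc) (hh : 0 ≤ hold)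
    (hg : 0 ≤ g) (h2 : 2 * (1 + η) * r * Φ ^ 2 ≤ e2) (h1 : (1 + η) * r * Φ ≤ e1)
    (h4 : 4 * (1 + η) * r * Φ ^ 4 ≤ e4) :
    r * (2 * Z * Φ ^ 2 * a0 + 2 * Z * Φ ^ 2 * (Z * b) + 4 * Z ^ 2 * Φ ^ 2 * (Z * b)
        + cc * ((hold + 6 * Φ) * (2 * Z * Φ) + 12 * Z ^ 2 * Φ ^ 2) + 2 * (2 * g * Φ ^ 4))
      + 2 * r * (Φ * (a0 + Z * b) + cc * hold)
      ≤ (Z * a0 + 2 * Z ^ 2 * (Z * b) + cc * 6 * Z ^ 2) * e2 + cc * hold * (2 * Z) * e1 + g * e4 := by
  have hZ0 : 0 ≤ Z := by linarith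
  have hΦ0 : 0 ≤ Φ := by linarith
  have hΦ2 : Φ ≤ Φ ^ 2 := by nlinarith
  have hΦ3 : Φ ≤ η * Z * Φ ^ 2 := by nlinarith
  have t1 : r * (2 * Z * Φ ^ 2 * a0) + 2 * r * (Φ * a0) ≤ Z * a0 * e2 := by
    have k1 : Z * a0 * (2 * (1 + η) * r * Φ ^ 2) ≤ Z * a0 * e2 :=
      mul_le_mul_of_nonneg_left h2 (by positivity)
    have k2 : 2 * r * a0 * Φ ≤ 2 * r * a0 * (η * Z * Φ ^ 2) :=
      mul_le_mul_of_nonneg_left hΦ3 (by positivity)
    nlinarith
  have t2 : r * (2 * Z * Φ ^ 2 * (Z * b) + 4 * Z ^ 2 * Φ ^ 2 * (Z * b)) + 2 * r * (Φ * (Z * b))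
      ≤ 2 * Z ^ 2 * (Z * b) * e2 := by
    have k1 : 2 * Z ^ 2 * (Z * b) * (2 * (1 + η) * r * Φ ^ 2) ≤ 2 * Z ^ 2 * (Z * b) * e2 :=
      mul_le_mul_of_nonneg_left h2 (by positivity)
    have k0 : 2 * Z * Φ ^ 2 + 2 * Φ ≤ 4 * (η * Z) * Z * Φ ^ 2 := by
      have : Z * Φ ^ 2 ≤ (η * Z) * (Z * Φ ^ 2) := le_mul_of_one_le_left (by positivity) hηZ
      have : Φ ^ 2 ≤ Z * Φ ^ 2 := le_mul_of_one_le_left (by positivity) hZ
      nlinarith
    have k2 : r * (Z * b) * (2 * Z * Φ ^ 2 + 2 * Φ) ≤ r * (Z * b) * (4 * (η * Z) * Z * Φ ^ 2) :=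
      mul_le_mul_of_nonneg_left k0 (by positivity)
    nlinarith
  have t3 : r * (cc * (hold * (2 * Z * Φ))) + 2 * r * (cc * hold) ≤ cc * hold * (2 * Z) * e1 := by
    have k1 : cc * hold * (2 * Z) * ((1 + η) * r * Φ) ≤ cc * hold * (2 * Z) * e1 :=
      mul_le_mul_of_nonneg_left h1 (by positivity)
    have k0 : 1 ≤ η * Z * Φ := by nlinarith
    have k2 : 2 * r * (cc * hold) * 1 ≤ 2 * r * (cc * hold) * (η * Z * Φ) :=
      mul_le_mul_of_nonneg_left k0 (by positivity)
    nlinarith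
  have t4 : r * (cc * (6 * Φ * (2 * Z * Φ) + 12 * Z ^ 2 * Φ ^ 2)) ≤ cc * 6 * Z ^ 2 * e2 := by
    have k1 : cc * 6 * Z ^ 2 * (2 * (1 + η) * r * Φ ^ 2) ≤ cc * 6 * Z ^ 2 * e2 :=
      mul_le_mul_of_nonneg_left h2 (by positivity)
    have k2 : 12 * r * cc * Z * Φ ^ 2 * 1 ≤ 12 * r * cc * Z * Φ ^ 2 * (η * Z) :=
      mul_le_mul_of_nonneg_left hηZ (by positivity)
    nlinarith
  have t5 : r * (2 * (2 * g * Φ ^ 4)) ≤ g * e4 := by
    have k1 : g * (4 * (1 + η) * r * Φ ^ 4) ≤ g * e4 := mul_le_mul_of_nonneg_left h4 hg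
    have k2 : 0 ≤ g * (4 * η * r * Φ ^ 4) := by positivity
    nlinarith
  nlinarith

theorem U1_step (hN : NumOK G M pt D qq η Z L) (hB : BaseOK G M B Z L) {S : S1 V} {d : ℕ}
    (hS : S.OK G B L (d + 1)) :
    ∑ q ∈ cn G S.h \ S.W, ∑ t ∈ range (S.c S.h),
        (pt t ^ 2 / M * ∑ x ∈ S.h, U1 G M pt D qq η Z L d (S.step q t x)
          + 2 * pt t / M * fin1 G M pt D qq η Z L S q t)
      ≤ U1 G M pt D qq η Z L (d + 1) S := by
  have hE := hS.hE
  have hZ : 1 ≤ Z := by have := hN.Z_ge; linarith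
  have hZ0 : 0 ≤ Z := by linarith
  have hD : 0 < D := by have := hN.D_ge; linarith
  have hq0 := hN.qq_nn
  have hM := hN.Mpos'
  have hacc := S1.acc_nn (G := G) S
  have hhold := S1.hold_nn hN S
  have huM : S.c S.h ≤ M := (hS.edge _ hS.mark).2.2.trans hB.top
  set Φ := Phi D M pt η with hΦ
  set A : ℝ := 182 * Z ^ 8 / D with hA
  set Bc : ℝ := Z * (720 * qq * Z ^ 9 / D + 6 * Z ^ 2 * D ^ 2 / 2 ^ L) with hBc
  set Cc : ℝ := qq * Z ^ 3 / D with hCc
  set g : ℝ := 8 * (Fintype.card V : ℝ) ^ 3 / 2 ^ (d + 1) with hg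
  have hA0 : 0 ≤ A := by positivity
  have hB0 : 0 ≤ Bc := by positivity
  have hC0 : 0 ≤ Cc := by positivity
  have hg0 : 0 ≤ g := by positivity
  set N : V → ℝ := fun q => (((S.H.erase S.h).filter fun ρ => q ∈ cn G ρ).card : ℝ) with hNdef
  have hNsum : ∑ q ∈ cn G S.h \ S.W, N q ≤ Z * (qq * D) := by
    have h1 : ∑ q ∈ cn G S.h \ S.W, N q ≤ ∑ q ∈ cn G S.h, N q :=
      sum_le_sum_of_subset_of_nonneg sdiff_subset fun _ _ _ => Nat.cast_nonneg _
    have h2 := gain2 hN.three hE (S.H.erase S.h) (fun f hf => (hS.edge f (mem_of_mem_erase hf)).1)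
      (notMem_erase _ _)
    have h3 : ((S.H.erase S.h).card : ℝ) ≤ Z :=
      le_trans (by exact_mod_cast card_erase_le) (hS.card_H_le hB)
    have h4 : ((S.H.erase S.h).card : ℝ) * (qq * D) ≤ Z * (qq * D) :=
      mul_le_mul_of_nonneg_right h3 (by positivity)
    exact h1.trans (h2.trans h4)
  have hcard : ((cn G S.h \ S.W).card : ℝ) ≤ D :=
    le_trans (by exact_mod_cast card_le_card sdiff_subset) (hN.two _ hE)
  set F : ℕ → ℝ := fun t => (Z * (S.acc G * A + Bc) + 2 * Z ^ 2 * (Z * (qq * A)) + Cc * 6 * Z ^ 2) * Φ t ^ 2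
    + Cc * S.hold M pt D η * (2 * Z) * Φ t + g * Φ t ^ 4 with hF
  have eU : U1 G M pt D qq η Z L (d + 1) S = F (S.c S.h) := by
    simp only [hF, U1, g1, hg, ← hΦ, ← hA, ← hBc, ← hCc]
    ring
  rw [eU, sum_comm]
  apply sum_le_of_incr
  · have := (hN.Phi_pos 0).le
    simp only [hF]
    positivity
  intro t ht
  have hΦ1 : 1 ≤ Φ t := hN.one_le_Phi t
  have hΦ0 : 0 < Φ t := hN.Phi_pos t
  have hpt := hN.pt_nn t
  -- bound for one apex
  set X0 : ℝ := 2 * Z * Φ t ^ 2 * (S.acc G * A + Bc) + 4 * Z ^ 2 * Φ t ^ 2 * (Z * (qq * A))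
    + Cc * ((S.hold M pt D η + 6 * Φ t) * (2 * Z * Φ t) + 12 * Z ^ 2 * Φ t ^ 2)
    + 2 * (2 * g * Φ t ^ 4) with hX0
  set Y0 : ℝ := S.acc G * A + Bc + Cc * (S.hold M pt D η / Φ t) with hY0
  have hX00 : 0 ≤ X0 := by positivity
  have hY00 : 0 ≤ Y0 := by positivity
  have one : ∀ q ∈ cn G S.h \ S.W,
      pt t ^ 2 / M * ∑ x ∈ S.h, U1 G M pt D qq η Z L d (S.step q t x)
          + 2 * pt t / M * fin1 G M pt D qq η Z L S q t
        ≤ (pt t ^ 2 / M * X0 + 2 * pt t / M * Y0)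
          + (pt t ^ 2 / M * (2 * Z * Φ t ^ 2 * A) + 2 * pt t / M * A) * N q := by
    intro q hq
    have hqW : q ∉ S.W := (mem_sdiff.1 hq).2
    have h1 : ∑ x ∈ S.h, U1 G M pt D qq η Z L d (S.step q t x) ≤ X0 + 2 * Z * Φ t ^ 2 * A * N q := by
      have h2 : ∀ x ∈ S.h, U1 G M pt D qq η Z L d (S.step q t x) ≤
          (Z * Φ t ^ 2 * ((S.acc G + N q) * A + Bc) + 2 * Z ^ 2 * Φ t ^ 2 * (Z * (qq * A))
            + Cc * (6 * Z ^ 2 * Φ t ^ 2) + 2 * g * Φ t ^ 4)
            + Cc * (2 * Z * Φ t) * (S.step q t x).hold M pt D η := by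
        intro x _
        have hch : (S.step q t x).c (S.step q t x).h = t := S1.step_c_new (hS.pair_not_mem hqW x)
        have h3 := hS.acc_step hqW t x
        have h4 : Z * Φ t ^ 2 * ((S.step q t x).acc G * A) ≤ Z * Φ t ^ 2 * ((S.acc G + N q) * A) :=
          mul_le_mul_of_nonneg_left (mul_le_mul_of_nonneg_right h3 hA0) (by positivity)
        have h5 : g1 (Fintype.card V) Φ d t = 2 * g * Φ t ^ 4 := by
          simp only [g1, hg]
          field_simp
          ring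
        simp only [U1, hch, ← hΦ, ← hA, ← hBc, ← hCc, h5]
        nlinarith
      refine (sum_le_sum h2).trans ?_
      rw [sum_add_distrib, sum_const, hE.card, ← mul_sum]
      have h6 := hS.hold_step hN hqW ht.le
      have h7 : Cc * (2 * Z * Φ t) * ∑ x ∈ S.h, (S.step q t x).hold M pt D η
          ≤ Cc * (2 * Z * Φ t) * (S.hold M pt D η + 6 * Φ t) :=
        mul_le_mul_of_nonneg_left h6 (by positivity)
      simp only [nsmul_eq_mul, hX0]
      push_cast
      nlinarith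
    have h2 : fin1 G M pt D qq η Z L S q t = Y0 + A * N q := by
      simp only [fin1, hY0, hNdef, ← hΦ, ← hA, ← hBc, ← hCc]
      ring
    have h3 : pt t ^ 2 / M * ∑ x ∈ S.h, U1 G M pt D qq η Z L d (S.step q t x)
        ≤ pt t ^ 2 / M * (X0 + 2 * Z * Φ t ^ 2 * A * N q) :=
      mul_le_mul_of_nonneg_left h1 (by positivity)
    rw [h2]
    nlinarith
  refine (sum_le_sum one).trans ?_
  rw [sum_add_distrib, sum_const, ← mul_sum, nsmul_eq_mul]
  have hρ : D * pt t ^ 2 / M = rho D M pt t := rfl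
  have hρ0 := hN.rho_nn t
  have hρΦ : D * pt t / M ≤ rho D M pt t * Φ t := hN.pt_le_rho_Phi (by omega)
  set r := rho D M pt t with hr
  have s1 : ((cn G S.h \ S.W).card : ℝ) * (pt t ^ 2 / M * X0 + 2 * pt t / M * Y0)
      ≤ r * X0 + 2 * (r * Φ t) * Y0 := by
    calc ((cn G S.h \ S.W).card : ℝ) * (pt t ^ 2 / M * X0 + 2 * pt t / M * Y0)
        ≤ D * (pt t ^ 2 / M * X0 + 2 * pt t / M * Y0) :=
          mul_le_mul_of_nonneg_right hcard (by positivity)
      _ = D * pt t ^ 2 / M * X0 + 2 * (D * pt t / M) * Y0 := by ring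
      _ ≤ r * X0 + 2 * (r * Φ t) * Y0 := by rw [hρ]; gcongr
  have s2 : (pt t ^ 2 / M * (2 * Z * Φ t ^ 2 * A) + 2 * pt t / M * A) * ∑ q ∈ cn G S.h \ S.W, N q
      ≤ r * (2 * Z * Φ t ^ 2 * (Z * (qq * A))) + 2 * (r * Φ t) * (Z * (qq * A)) := by
    calc (pt t ^ 2 / M * (2 * Z * Φ t ^ 2 * A) + 2 * pt t / M * A) * ∑ q ∈ cn G S.h \ S.W, N q
        ≤ (pt t ^ 2 / M * (2 * Z * Φ t ^ 2 * A) + 2 * pt t / M * A) * (Z * (qq * D)) :=
          mul_le_mul_of_nonneg_left hNsum (by positivity)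
      _ = D * pt t ^ 2 / M * (2 * Z * Φ t ^ 2 * (Z * (qq * A)))
          + 2 * (D * pt t / M) * (Z * (qq * A)) := by ring
      _ ≤ _ := by rw [hρ]; gcongr
  have i2 := hN.Phi_pow_incr 2 t
  have i1 := hN.Phi_pow_incr 1 t
  have i4 := hN.Phi_pow_incr 4 t
  simp only [← hΦ, ← hr, Nat.cast_ofNat, Nat.cast_one, one_mul, pow_one] at i1 i2 i4
  have main := U1_num (a0 := S.acc G * A + Bc) (b := qq * A) (cc := Cc) (hold := S.hold M pt D η)
    (g := g) hZ hN.eta_pos hN.eta_Z hΦ1 hρ0 (by positivity) (by positivity) hC0 hhold hg0 i2 i1 i4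
  have eY : Φ t * Y0 = Φ t * (S.acc G * A + Bc) + Cc * S.hold M pt D η := by
    simp only [hY0]
    field_simp
  have eF : F (t + 1) - F t = (Z * (S.acc G * A + Bc) + 2 * Z ^ 2 * (Z * (qq * A)) + Cc * 6 * Z ^ 2)
      * (Φ (t + 1) ^ 2 - Φ t ^ 2) + Cc * S.hold M pt D η * (2 * Z) * (Φ (t + 1) - Φ t)
      + g * (Φ (t + 1) ^ 4 - Φ t ^ 4) := by
    simp only [hF]; ring
  rw [eF]
  refine le_trans (add_le_add s1 s2) (le_trans (le_of_eq ?_) main)
  have : 2 * (r * Φ t) * Y0 = 2 * r * (Φ t * Y0) := by ring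
  rw [this, eY, hX0]
  ring

/-- the initial value (`acc = 0`, `hold ≤ 2 Z Φ(M)`, `Φ² ≤ Z D`, `fuel`, `g1_le`) -/
theorem U1_init (hN : NumOK G M pt D qq η Z L) (hB : BaseOK G M B Z L) {S : S1 V}
    (hS : S.OK G B L L) (hacc : S.acc G = 0) :
    U1 G M pt D qq η Z L L S ≤ 1200 * qq * Z ^ 12 := by
  have hE := hS.hE
  have hZ18 := hN.Z_ge
  have hZ : 1 ≤ Z := by linarith
  have hZ0 : 0 ≤ Z := by linarith
  have hD : 0 < D := by have := hN.D_ge; linarith
  have hq0 := hN.qq_nn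
  have huM : S.c S.h ≤ M := (hS.edge _ hS.mark).2.2.trans hB.top
  set Φ := Phi D M pt η with hΦ
  have hΦu : 0 < Φ (S.c S.h) := hN.Phi_pos _
  have hΦM : 0 < Φ M := hN.Phi_pos _
  have hle : Φ (S.c S.h) ≤ Φ M := hN.Phi_mono huM
  have hsq : Φ (S.c S.h) ^ 2 ≤ Z * D := hN.Phi_sq_le huM
  have hsqM : Φ M ^ 2 ≤ Z * D := hN.Phi_sq
  have hhold : S.hold M pt D η ≤ Z * (2 * Φ M) := by
    unfold S1.hold
    calc ∑ ρ ∈ S.H, ((ρ ∩ S.h).card : ℝ) * Phi D M pt η (max (S.c ρ) (S.c S.h))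
        ≤ ∑ _ρ ∈ S.H, 2 * Φ M := by
          refine sum_le_sum fun ρ hρ => ?_
          have h1 : ((ρ ∩ S.h).card : ℝ) ≤ 2 := by
            have := card_le_card (inter_subset_right (s₁ := ρ) (s₂ := S.h))
            rw [hE.card] at this
            exact_mod_cast this
          have h2 : Phi D M pt η (max (S.c ρ) (S.c S.h)) ≤ Φ M :=
            hN.Phi_mono (max_le ((hS.edge ρ hρ).2.2.trans hB.top) huM)
          exact mul_le_mul h1 h2 (hN.Phi_pos _).le (by norm_num)
      _ = S.H.card * (2 * Φ M) := by rw [sum_const, nsmul_eq_mul]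
      _ ≤ Z * (2 * Φ M) := mul_le_mul_of_nonneg_right (hS.card_H_le hB) (by positivity)
  have hg := hN.g1_le huM
  have hn : (1 : ℝ) ≤ (Fintype.card V : ℝ) ^ 3 := by
    obtain ⟨a, _, _, _⟩ := hE
    have : 0 < Fintype.card V := Fintype.card_pos_iff.2 ⟨a⟩
    have : (1 : ℝ) ≤ Fintype.card V := by exact_mod_cast this
    exact one_le_pow₀ this
  have hfuel : D ^ 3 / 2 ^ L ≤ qq := by
    rw [div_le_iff₀ (by positivity)]
    have h1 : D ^ 3 ≤ (Fintype.card V : ℝ) ^ 3 * D ^ 3 := le_mul_of_one_le_left (by positivity) hn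
    exact h1.trans hN.fuel
  have t1 : Z * Φ (S.c S.h) ^ 2 * (0 * (182 * Z ^ 8 / D)
      + Z * (720 * qq * Z ^ 9 / D + 6 * Z ^ 2 * D ^ 2 / 2 ^ L)) ≤ 720 * qq * Z ^ 12 + 6 * qq * Z ^ 5 := by
    calc Z * Φ (S.c S.h) ^ 2 * (0 * (182 * Z ^ 8 / D)
        + Z * (720 * qq * Z ^ 9 / D + 6 * Z ^ 2 * D ^ 2 / 2 ^ L))
        ≤ Z * (Z * D) * (0 * (182 * Z ^ 8 / D)
          + Z * (720 * qq * Z ^ 9 / D + 6 * Z ^ 2 * D ^ 2 / 2 ^ L)) := by gcongr
      _ = 720 * qq * Z ^ 12 + 6 * (D ^ 3 / 2 ^ L) * Z ^ 5 := by field_simp; ring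
      _ ≤ _ := by gcongr
  have t2 : 2 * Z ^ 2 * Φ (S.c S.h) ^ 2 * (qq * Z * (182 * Z ^ 8 / D)) ≤ 364 * qq * Z ^ 12 := by
    calc 2 * Z ^ 2 * Φ (S.c S.h) ^ 2 * (qq * Z * (182 * Z ^ 8 / D))
        ≤ 2 * Z ^ 2 * (Z * D) * (qq * Z * (182 * Z ^ 8 / D)) := by gcongr
      _ = 364 * qq * Z ^ 12 := by field_simp; ring
  have t3 : qq * Z ^ 3 / D * (S.hold M pt D η * (2 * Z * Φ (S.c S.h)) + 6 * Z ^ 2 * Φ (S.c S.h) ^ 2)
      ≤ 10 * qq * Z ^ 6 := by
    have h1 : S.hold M pt D η * (2 * Z * Φ (S.c S.h)) ≤ 4 * Z ^ 2 * (Z * D) := by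
      calc S.hold M pt D η * (2 * Z * Φ (S.c S.h)) ≤ (Z * (2 * Φ M)) * (2 * Z * Φ M) := by
            gcongr
        _ = 4 * Z ^ 2 * Φ M ^ 2 := by ring
        _ ≤ _ := by gcongr
    calc qq * Z ^ 3 / D * (S.hold M pt D η * (2 * Z * Φ (S.c S.h)) + 6 * Z ^ 2 * Φ (S.c S.h) ^ 2)
        ≤ qq * Z ^ 3 / D * (4 * Z ^ 2 * (Z * D) + 6 * Z ^ 2 * (Z * D)) := by gcongr
      _ = 10 * qq * Z ^ 6 := by field_simp; ring
  have p5 : qq * Z ^ 5 ≤ qq * Z ^ 12 :=
    mul_le_mul_of_nonneg_left (pow_le_pow_right₀ hZ (by norm_num)) hq0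
  have p6 : qq * Z ^ 6 ≤ qq * Z ^ 12 :=
    mul_le_mul_of_nonneg_left (pow_le_pow_right₀ hZ (by norm_num)) hq0
  have p0 : qq ≤ qq * Z ^ 12 := le_mul_of_one_le_right hq0 (one_le_pow₀ hZ)
  have p1 : 0 ≤ qq * Z ^ 12 := by positivity
  unfold U1
  rw [hacc]
  simp only [← hΦ] at hg ⊢
  linarith

end Crest.Agent.R030
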