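import Crest.Agent.R030.Tele

/-! # Row 30: data and value function of the second particle -/

set_option autoImplicit false
set_option linter.unusedSectionVars false

namespace Crest.Agent.R030
open Finset
open scoped Classical

variable {V : Type} [Fintype V] [DecidableEq V]

/-- what the second particle knows about the first: base vertices `W0`, old vertices `O`, root edges
`H1`, nodes `J` of the first path with labels `s`, target `(e,w)` at time `a` -/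
structure D2 (V : Type) where
  W0 : Finset V
  O : Finset V
  H1 : Finset (Finset V)
  J : Finset (Finset V)
  s : Finset V → ℕ
  e : Finset V
  w : V
  a : ℕ

/-- `f` lies in a node of the first path with label `< t` -/
def lowJ (J : Finset (Finset V)) (s : Finset V → ℕ) (f : Finset V) (t : ℕ) : Prop :=
  ∃ T ∈ J, f ⊆ T ∧ s T < t

/-- structure of the first path -/
structure PathOK (W0 : Finset V) (H : Finset (Finset V)) (J : Finset (Finset V))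
    (s : Finset V → ℕ) : Prop where
  card3 : ∀ T ∈ J, T.card = 3
  edges : ∀ T ∈ J, ∀ x ∈ T, ∀ y ∈ T, x ≠ y → ({x, y} : Finset V) ∈ H
  tri : ∀ h ∈ H, ∀ q, q ∉ W0 → (∀ x ∈ h, ({x, q} : Finset V) ∈ H) → insert q h ∈ J
  low : ∀ T ∈ J, ∀ f f' : Finset V, f ⊆ T → f' ⊆ T → f.card = 2 → f'.card = 2 → f ≠ f' →
    ¬ (lowJ J s f (s T) ∧ lowJ J s f' (s T))
  inj : Set.InjOn s (J : Set (Finset V))

structure D2.OK (G : SimpleGraph V) (L : ℕ) (𝒟 : D2 V) : Prop where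
  he : IsEdge G 𝒟.e
  hw : 𝒟.w ∈ cn G 𝒟.e
  TO : insert 𝒟.w 𝒟.e ⊆ 𝒟.O
  W0O : 𝒟.W0 ⊆ 𝒟.O
  wW0 : 𝒟.w ∉ 𝒟.W0
  H1e : ∀ f ∈ 𝒟.H1, IsEdge G f ∧ f ⊆ 𝒟.O ∧ 𝒟.w ∉ f
  path : PathOK 𝒟.W0 𝒟.H1 𝒟.J 𝒟.s
  cardO : (𝒟.O \ 𝒟.W0).card ≤ L + 1
  cardJ : 𝒟.J.card ≤ L

/-- state of the second particle: edge `h`, own vertex set `W2`, skipped apexes `Sk`, start flag `st` -/
structure St2OK (G : SimpleGraph V) (𝒟 : D2 V) (h W2 Sk : Finset V) (st : Prop) : Prop where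
  edge : IsEdge G h
  sub : h ⊆ W2
  W0 : 𝒟.W0 ⊆ W2
  nf : ¬ (h ⊆ insert 𝒟.w 𝒟.e ∧ 𝒟.w ∈ h)
  start : st → h ⊆ 𝒟.O ∧ 𝒟.w ∉ h ∧
    ∀ q ∈ cn G h, q ∉ W2 → q ∉ Sk → ∃ x ∈ h, ({x, q} : Finset V) ∉ 𝒟.H1
  nstart : ¬ st → Sk = ∅

section
variable (G : SimpleGraph V) (M : ℕ) (pt : ℕ → ℝ) (D qq η Z : ℝ) (𝒟 : D2 V)

noncomputable def Ee (t : ℕ) : ℝ := ∏ s ∈ range t, (1 + 10 * Z ^ 4 * pt s / M)

noncomputable def bet (t : ℕ) : ℝ := 12 * Z ^ 3 * Phi D M pt η t * Ee M pt Z t / D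

noncomputable def XA (t : ℕ) : ℝ := 180 * Z ^ 7 * Phi D M pt η t ^ 2 / D ^ 2

noncomputable def lamt (t : ℕ) : ℝ := ∑ s ∈ range t, pt s ^ 2 / M

noncomputable def phia (t : ℕ) : ℝ := Phi D M pt η (max t 𝒟.a) / Phi D M pt η 𝒟.a

noncomputable def g2 (d t : ℕ) : ℝ := 2 * Phi D M pt η t ^ 4 * Ee M pt Z t / 2 ^ d

/-- multiplier of the crude states -/
noncomputable def mult (h : Finset V) (t : ℕ) : ℝ :=
  if h ∈ 𝒟.H1 then 1 + (if lowJ 𝒟.J 𝒟.s h t then 2 * ((𝒟.J.filter fun T => 𝒟.s T < t).card : ℝ) else 0)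
  else 1 + 4 * Z ^ 2 * t / M

/-- number of allowed old apexes -/
noncomputable def adj2 (h W2 Sk : Finset V) : ℝ := (((cn G h ∩ 𝒟.O) \ (W2 ∪ Sk)).card : ℝ)

/-- the value function of the second particle -/
noncomputable def U2 (d : ℕ) (h W2 Sk : Finset V) (st : Prop) (t : ℕ) : ℝ :=
  if h ⊆ 𝒟.O ∧ ¬ st then mult M Z 𝒟 h t * (bet M pt D η Z t + g2 M pt D η Z d t)
  else
    adj2 G 𝒟 h W2 Sk * (if (h ∩ 𝒟.O).card = 0 then η else 1) * XA M pt D η Z t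
      + (if (h ∩ 𝒟.O).card = 0 then 1 else ((h ∩ 𝒟.O).card : ℝ) + 2) * qq * Z * XA M pt D η Z t
      + ((h ∩ insert 𝒟.w 𝒟.e).card : ℝ) *
          (adj2 G 𝒟 h W2 Sk * lamt M pt t + qq * Z ^ 3 * phia M pt D η 𝒟 t / D)
      + g2 M pt D η Z d t

/-- number of free edges of the node `(h,q)` that are not roots yet -/
noncomputable def nnew (h : Finset V) (q : V) : ℕ :=
  (h.filter fun x => ({x, q} : Finset V) ∉ 𝒟.H1).card

/-- weight of the step of the second particle through the apex `q` at time `t` (fuel `d+1` before) -/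
noncomputable def term2 (d : ℕ) (h W2 : Finset V) (q : V) (t : ℕ) : ℝ :=
  if h = 𝒟.e ∧ q = 𝒟.w then 0
  else if Xi 𝒟.e 𝒟.w (insert q h) then (if nnew 𝒟 h q = 2 then pt t ^ 2 else Z * pt t) / M
  else if t < 𝒟.a then 0
  else if insert q h ∈ 𝒟.J then
    (if t = 𝒟.s (insert q h) then
      ∑ x ∈ h, U2 G M pt D qq η Z 𝒟 (d + 1) {x, q} (insert q W2) ∅ False t else 0)
  else pt t ^ nnew 𝒟 h q / M *
    ∑ x ∈ h, U2 G M pt D qq η Z 𝒟 (if q ∈ 𝒟.O then d + 1 else d) {x, q} (insert q W2) ∅ False t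

end

/-- terminal bound for a prefactor `Pre` -/
def Term (G : SimpleGraph V) (M : ℕ) (B : Base V) (pt : ℕ → ℝ) (cap : ℕ) (σ : Thr V) (e : Finset V)
    (w : V) (a : ℕ) (Pre : Om V M → ℝ) : Prop :=
  ∀ (P : Pat V M) (I : Om V M → ℝ), P.WFx G σ B.ctop ∅ ∅ → B.Le P → insert w e ⊆ P.W →
    (P.W \ B.W0).card ≤ cap → (P.H \ B.H0).card + 1 ≤ cap → (∃ x ∈ e, ({x, w} : Finset V) ∉ P.H) →
    (∀ ω, 0 ≤ I ω) → DepTri I {T | T ⊆ P.W} →
    Ex G M (fun ω => Pre ω * (I ω * P.Fx G ∅ ω)) ≤ pt a * (Ex G M I * B.wgt pt P)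

end Crest.Agent.R030
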