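import Crest.Agent.R030.G2NumAux

/-! # Row 30: the value function of the second particle is a supersolution

Proof of `U2_step`: `sum_comm`, `sum_le_of_incr` with `F t = U2 (d+1) h W2 Sk st t`; for each `t < u`
split the apexes `q` into normal (`q ∉ O`, at most `D`, `nnew = 2`, never `Xi`, never in `J`) and old
(`q ∈ O \ W2`, number `adj2 ≤ L+1 ≤ Z`).  Write `ρ = rho t`, `Φ = Phi t`, `e = 10 Z⁴ pt t / M`,
`β = bet`, `g = g2 (d+1)`, `X = XA`.  Facts: `1 ≤ Ee ≤ 3` (`NumOK.pi`, `sqrtD`), `mult ≤ 5 Z²`,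
`β(t+1) - β t ≥ β (ρ + e)`, `g(t+1) - g t ≥ g (4ρ + e)`, `X(t+1) - X t ≥ 2 (1+η) ρ X`,
`phia (t+1) - phia t ≥ (1+η) ρ phia t` for `t ≥ a`, `1 ≤ phia ≤ Φ`, `pt Φ ≥ 1`,
`U2_one_le`: a non-start state with one endpoint in `O` has value `≤ β/4 + g`; every state reached by a
step has value `≤ 5 Z² (β + g)`.
* crude state (`h ⊆ O`, not start): normal steps cost `≤ 2ρ(β/4 + g2 d) = ρβ/2 + 4ρ g`; completions
  `≤ Z·Z pt/M ≤ ρβ/2`; old steps with `nnew ≥ 1` cost `≤ Z·(Z pt/M)·2·5Z²(β+g) = e(β+g)`; old steps with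
  `nnew = 0` outside `J` need `h ∉ H1` (`PathOK.tri`), lead into `H1` and cost
  `≤ (L+1)·2(1+2L)(β+g)/M ≤ 4Z²(β+g)/M`, paid by the increment of `mult`; the joint step (`insert q h ∈ J`, label `t`,
  unique by `inj`) is paid by the increment of `mult` (`PathOK.low`: at most one edge of the node is low).
* other states, `k = #(h ∩ O)`: normal steps use `gain1` (`∑_q adj2 {x,q} ≤ Z qq D`), keeping `x ∈ O`
  gives `k' = 1`, keeping `x ∉ O` gives `k' = 0`; old steps have `nnew ≥ 1` (`St2OK.start`, or an endpoint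
  outside `O`), `nnew = 2` if `k = 0`; completions have `nnew = 2` and need `h ∩ insert w e ≠ ∅`, they are paid by `lamt`.
-/

set_option autoImplicit false
set_option linter.unusedSectionVars false

namespace Crest.Agent.R030
open Finset
open scoped Classical

variable {V : Type} [Fintype V] [DecidableEq V] {G : SimpleGraph V} {M : ℕ}
variable {pt : ℕ → ℝ} {D qq η Z : ℝ} {L : ℕ} {𝒟 : D2 V}

theorem U2_nn (hN : NumOK G M pt D qq η Z L) (d : ℕ) (h W2 Sk : Finset V) (st : Prop) (t : ℕ) :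
    0 ≤ U2 G M pt D qq η Z 𝒟 d h W2 Sk st t := by
  have h1 := G2A.one_le_mult (𝒟 := 𝒟) hN h t
  have h2 := G2A.bet_nn hN t
  have h3 := G2A.g2_nn hN d t
  have h4 := G2A.XA_nn hN t
  have h5 := G2A.adj2_nn (G := G) (𝒟 := 𝒟) h W2 Sk
  have h6 := G2A.lamt_nn hN t
  have h7 := G2A.one_le_phia (𝒟 := 𝒟) hN t
  have h8 := hN.eta_pos
  have h9 := hN.qq_nn
  have h10 := G2A.Z_pos hN
  have h11 := G2A.D_pos hN
  unfold U2
  have hk : (0 : ℝ) ≤ ((h ∩ 𝒟.O).card : ℝ) := Nat.cast_nonneg _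
  have hj : (0 : ℝ) ≤ ((h ∩ insert 𝒟.w 𝒟.e).card : ℝ) := Nat.cast_nonneg _
  generalize ((h ∩ 𝒟.O).card : ℝ) = k at *
  generalize ((h ∩ insert 𝒟.w 𝒟.e).card : ℝ) = j at *
  split_ifs <;> positivity

theorem term2_nn (hN : NumOK G M pt D qq η Z L) (d : ℕ) (h W2 : Finset V) (q : V) (t : ℕ) :
    0 ≤ term2 G M pt D qq η Z 𝒟 d h W2 q t := by
  have h1 := hN.pt_nn t
  have h2 := G2A.Z_pos hN
  unfold term2
  split_ifs
  all_goals first
    | exact le_rfl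
    | exact sum_nonneg fun x _ => U2_nn hN _ _ _ _ _ _
    | exact mul_nonneg (by positivity) (sum_nonneg fun x _ => U2_nn hN _ _ _ _ _ _)
    | positivity

theorem U2_zero (hN : NumOK G M pt D qq η Z L) (h W2 Sk : Finset V) (st : Prop) (t : ℕ) :
    2 ≤ U2 G M pt D qq η Z 𝒟 0 h W2 Sk st t := by
  have h1 := G2A.one_le_mult (𝒟 := 𝒟) hN h t
  have h2 := G2A.bet_nn hN t
  have h3 : 2 ≤ g2 M pt D η Z 0 t := by
    unfold g2
    have h := G2A.one_le_Ee hN t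
    have h' : 1 ≤ Phi D M pt η t ^ 4 := one_le_pow₀ (hN.one_le_Phi t)
    rw [pow_zero, div_one]
    nlinarith
  have h4 := G2A.XA_nn hN t
  have h5 := G2A.adj2_nn (G := G) (𝒟 := 𝒟) h W2 Sk
  have h6 := G2A.lamt_nn hN t
  have h7 := G2A.one_le_phia (𝒟 := 𝒟) hN t
  have h8 := hN.eta_pos
  have h9 := hN.qq_nn
  have h10 := G2A.Z_pos hN
  have h11 := G2A.D_pos hN
  unfold U2
  have hk : (0 : ℝ) ≤ ((h ∩ 𝒟.O).card : ℝ) := Nat.cast_nonneg _
  have hj : (0 : ℝ) ≤ ((h ∩ insert 𝒟.w 𝒟.e).card : ℝ) := Nat.cast_nonneg _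
  generalize ((h ∩ 𝒟.O).card : ℝ) = k at *
  generalize ((h ∩ insert 𝒟.w 𝒟.e).card : ℝ) = j at *
  split_ifs
  · nlinarith
  · exact le_trans h3 (le_add_of_nonneg_left (by positivity))
  · exact le_trans h3 (le_add_of_nonneg_left (by positivity))

namespace G2A

theorem J_edges (h𝒟 : 𝒟.OK G L) {h : Finset V} {q : V} (he : IsEdge G h) (hq : q ∈ cn G h)
    (hJ : insert q h ∈ 𝒟.J) : h ∈ 𝒟.H1 ∧ ∀ x ∈ h, ({x, q} : Finset V) ∈ 𝒟.H1 := by
  constructor
  · obtain ⟨x, y, hxy, rfl⟩ := he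
    exact h𝒟.path.edges _ hJ x (by simp) y (by simp) hxy.ne
  · intro x hx
    exact h𝒟.path.edges _ hJ x (mem_insert_of_mem hx) q (mem_insert_self _ _)
      (fun e => not_mem_of_mem_cn hq (e ▸ hx))

theorem nnew_eq_two {h : Finset V} {q : V} (he : IsEdge G h)
    (hx : ∀ x ∈ h, ({x, q} : Finset V) ∉ 𝒟.H1) : nnew 𝒟 h q = 2 := by
  unfold nnew
  rw [filter_true_of_mem hx, he.card]

theorem nnew_le_two {h : Finset V} {q : V} (he : IsEdge G h) : nnew 𝒟 h q ≤ 2 := by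
  unfold nnew
  rw [← he.card]
  exact card_filter_le _ _

theorem pow_nnew_le (hN : NumOK G M pt D qq η Z L) {h : Finset V} {q : V} (he : IsEdge G h)
    (h0 : nnew 𝒟 h q ≠ 0) (t : ℕ) : pt t ^ nnew 𝒟 h q ≤ Z * pt t := by
  have h2 := nnew_le_two (𝒟 := 𝒟) (q := q) he
  have hp := hN.pt_nn t
  have hZ := hN.Z_ge
  have hpZ := hN.pt_le t
  have : nnew 𝒟 h q = 1 ∨ nnew 𝒟 h q = 2 := by omega
  rcases this with h1 | h1 <;> rw [h1] <;> nlinarith

theorem term2_normal (h𝒟 : 𝒟.OK G L) {h W2 Sk : Finset V} {st : Prop}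
    (hS : St2OK G 𝒟 h W2 Sk st) (d : ℕ) {q : V} (hq : q ∈ cn G h) (hqO : q ∉ 𝒟.O) (t : ℕ) :
    term2 G M pt D qq η Z 𝒟 d h W2 q t = if t < 𝒟.a then 0 else
      pt t ^ 2 / M * ∑ x ∈ h, U2 G M pt D qq η Z 𝒟 d {x, q} (insert q W2) ∅ False t := by
  have hw : 𝒟.w ∈ 𝒟.O := h𝒟.TO (mem_insert_self _ _)
  have hqw : q ≠ 𝒟.w := fun e => hqO (e ▸ hw)
  have hXi : ¬ Xi 𝒟.e 𝒟.w (insert q h) := by
    rintro ⟨h1, ⟨v, hv, h2⟩, -⟩
    have hwh : 𝒟.w ∈ h := (mem_insert.1 h1).resolve_left (Ne.symm hqw)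
    have hvh : v ∈ h := (mem_insert.1 h2).resolve_left
      (fun e => hqO (e ▸ h𝒟.TO (mem_insert_of_mem hv)))
    have hvw : v ≠ 𝒟.w := fun e => not_mem_of_mem_cn h𝒟.hw (e ▸ hv)
    refine hS.nf ⟨?_, hwh⟩
    have : ({𝒟.w, v} : Finset V) = h := by
      apply eq_of_subset_of_card_le
      · intro z hz
        rcases mem_insert.1 hz with rfl | hz
        · exact hwh
        · rw [mem_singleton.1 hz]; exact hvh
      · rw [hS.edge.card, card_pair hvw.symm]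
    rw [← this]
    intro z hz
    rcases mem_insert.1 hz with rfl | hz
    · exact mem_insert_self _ _
    · rw [mem_singleton.1 hz]; exact mem_insert_of_mem hv
  have hH : ∀ x ∈ h, ({x, q} : Finset V) ∉ 𝒟.H1 := fun x _ hx =>
    hqO ((h𝒟.H1e _ hx).2.1 (by simp))
  have hJ : insert q h ∉ 𝒟.J := by
    intro hJ
    obtain ⟨x, y, -, hh⟩ := hS.edge
    exact hH x (by rw [hh]; simp) ((J_edges h𝒟 hS.edge hq hJ).2 x (by rw [hh]; simp))
  unfold term2
  rw [if_neg (fun hh => hqw hh.2), if_neg hXi, if_neg hJ, nnew_eq_two hS.edge hH, if_neg hqO]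

theorem old_set (h W2 Sk : Finset V) :
    (cn G h \ (W2 ∪ Sk)).filter (fun q => q ∈ 𝒟.O) = (cn G h ∩ 𝒟.O) \ (W2 ∪ Sk) := by
  ext q
  simp only [mem_filter, mem_sdiff, mem_inter]
  tauto

theorem card_pair_cn {h : Finset V} {q x : V} (hq : q ∈ cn G h) (hx : x ∈ h) :
    ({x, q} : Finset V).card = 2 := (isEdge_free hq hx).card

/-- the joint step is paid by the increment of `mult` -/
theorem joint_le (hN : NumOK G M pt D qq η Z L) (h𝒟 : 𝒟.OK G L) {h : Finset V} (he : IsEdge G h)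
    (S : Finset V) (hS : S ⊆ cn G h) (t : ℕ) :
    ∑ q ∈ S, (if insert q h ∈ 𝒟.J ∧ t = 𝒟.s (insert q h) then ∑ x ∈ h, mult M Z 𝒟 {x, q} t else 0)
      ≤ mult M Z 𝒟 h (t + 1) - mult M Z 𝒟 h t := by
  by_cases hex : ∃ q ∈ S, insert q h ∈ 𝒟.J ∧ t = 𝒟.s (insert q h)
  · obtain ⟨q, hqS, hJ, ht⟩ := hex
    have hq := hS hqS
    have hqh := not_mem_of_mem_cn hq
    rw [sum_eq_single_of_mem q hqS, if_pos ⟨hJ, ht⟩]
    · obtain ⟨hh, hx⟩ := J_edges h𝒟 he hq hJ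
      have hlow : lowJ 𝒟.J 𝒟.s h (t + 1) := ⟨_, hJ, subset_insert _ _, by omega⟩
      set N : ℝ := ((𝒟.J.filter fun T => 𝒟.s T < t).card : ℝ) with hNdef
      have hN0 : 0 ≤ N := Nat.cast_nonneg _
      have hN1 : N + 1 ≤ ((𝒟.J.filter fun T => 𝒟.s T < t + 1).card : ℝ) := by
        have : (𝒟.J.filter fun T => 𝒟.s T < t).card < (𝒟.J.filter fun T => 𝒟.s T < t + 1).card := by
          apply card_lt_card
          refine ⟨monotone_filter_right _ fun T _ hT => Nat.lt_succ_of_lt hT, fun hsub => ?_⟩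
          have := mem_filter.1 (hsub (mem_filter.2 ⟨hJ, by omega⟩))
          omega
        rw [hNdef]
        exact_mod_cast this
      have hm : ∀ f ∈ 𝒟.H1, mult M Z 𝒟 f t = 1 + if lowJ 𝒟.J 𝒟.s f t then 2 * N else 0 := by
        intro f hf
        unfold mult
        rw [if_pos hf]
      have hm' : 1 + 2 * (N + 1) ≤ mult M Z 𝒟 h (t + 1) := by
        unfold mult
        rw [if_pos hh, if_pos hlow]
        linarith
      obtain ⟨x, y, hxy, rfl⟩ := he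
      have hxq : x ≠ q := fun e => hqh (by simp [e])
      have hyq : y ≠ q := fun e => hqh (by simp [e])
      rw [sum_pair hxy.ne, hm _ (hx x (by simp)), hm _ (hx y (by simp)), hm _ hh]
      have hl := h𝒟.path.low _ hJ
      rw [← ht] at hl
      have s1 : ({x, q} : Finset V) ⊆ insert q {x, y} := by
        intro z hz; simp only [mem_insert, mem_singleton] at hz ⊢; tauto
      have s2 : ({y, q} : Finset V) ⊆ insert q {x, y} := by
        intro z hz; simp only [mem_insert, mem_singleton] at hz ⊢; tauto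
      have s3 : ({x, y} : Finset V) ⊆ insert q {x, y} := subset_insert _ _
      have n1 : ({x, q} : Finset V) ≠ {y, q} := fun e =>
        hxy.ne (pair_inj_of_not_mem hqh (by simp) e)
      have n2 : ({x, q} : Finset V) ≠ {x, y} := fun e => hqh (by rw [← e]; simp)
      have n3 : ({y, q} : Finset V) ≠ {x, y} := fun e => hqh (by rw [← e]; simp)
      have l1 := hl _ _ s1 s2 (card_pair hxq) (card_pair hyq) n1
      have l2 := hl _ _ s1 s3 (card_pair hxq) (card_pair hxy.ne) n2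
      have l3 := hl _ _ s2 s3 (card_pair hyq) (card_pair hxy.ne) n3
      by_cases a1 : lowJ 𝒟.J 𝒟.s {x, q} t
      · rw [if_pos a1, if_neg (fun a2 => l1 ⟨a1, a2⟩), if_neg (fun a3 => l2 ⟨a1, a3⟩)]
        linarith
      · rw [if_neg a1]
        by_cases a2 : lowJ 𝒟.J 𝒟.s {y, q} t
        · rw [if_pos a2, if_neg (fun a3 => l3 ⟨a2, a3⟩)]
          linarith
        · rw [if_neg a2]
          by_cases a3 : lowJ 𝒟.J 𝒟.s {x, y} t
          · rw [if_pos a3]; linarith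
          · rw [if_neg a3]; linarith
    · intro q' hq'S hne
      rw [if_neg]
      rintro ⟨hJ', ht'⟩
      have := h𝒟.path.inj (mem_coe.2 hJ') (mem_coe.2 hJ) (ht'.symm.trans ht)
      have h1 : q' ∈ insert q h := by rw [← this]; exact mem_insert_self _ _
      rcases mem_insert.1 h1 with h1 | h1
      · exact hne h1
      · exact not_mem_of_mem_cn (hS hq'S) h1
  · have : ∑ q ∈ S, (if insert q h ∈ 𝒟.J ∧ t = 𝒟.s (insert q h) then
        ∑ x ∈ h, mult M Z 𝒟 {x, q} t else 0) = 0 :=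
      sum_eq_zero fun q hq => if_neg fun hh => hex ⟨q, hq, hh⟩
    rw [this]
    have := mult_mono (𝒟 := 𝒟) hN h t
    linarith

/-- an old step with a new edge -/
theorem old_new_le (hN : NumOK G M pt D qq η Z L) (h𝒟 : 𝒟.OK G L) {h W2 : Finset V}
    (he : IsEdge G h) (hW : 𝒟.W0 ⊆ W2) (d : ℕ) {q : V} (hq : q ∈ cn G h) {t : ℕ} (ht : t ≤ M)
    (h0 : nnew 𝒟 h q ≠ 0) :
    pt t ^ nnew 𝒟 h q / M * ∑ x ∈ h, U2 G M pt D qq η Z 𝒟 d {x, q} (insert q W2) ∅ False t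
      ≤ 10 * Z ^ 3 * pt t / M * (bet M pt D η Z t + g2 M pt D η Z d t) := by
  have h1 := pow_nnew_le hN he h0 t
  have h2 : ∑ x ∈ h, U2 G M pt D qq η Z 𝒟 d {x, q} (insert q W2) ∅ False t
      ≤ 2 * (5 * Z ^ 2 * (bet M pt D η Z t + g2 M pt D η Z d t)) := by
    refine (sum_le_card_nsmul _ _ _ fun x hx => U2_le5 hN h𝒟 d (card_pair_cn hq hx)
      (hW.trans (subset_insert _ _)) ht).trans ?_
    rw [he.card, nsmul_eq_mul]; push_cast; exact le_rfl
  have hM := hN.Mpos'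
  have hp := hN.pt_nn t
  have hZ := Z_pos hN
  calc pt t ^ nnew 𝒟 h q / M * ∑ x ∈ h, U2 G M pt D qq η Z 𝒟 d {x, q} (insert q W2) ∅ False t
      ≤ Z * pt t / M * (2 * (5 * Z ^ 2 * (bet M pt D η Z t + g2 M pt D η Z d t))) := by
        apply mul_le_mul _ h2 (sum_nonneg fun x _ => U2_nn hN _ _ _ _ _ _) (by positivity)
        gcongr
    _ = _ := by ring

theorem crude_old (hN : NumOK G M pt D qq η Z L) (h𝒟 : 𝒟.OK G L) {h W2 : Finset V}
    (he : IsEdge G h) (hW : 𝒟.W0 ⊆ W2) (hO : h ⊆ 𝒟.O) (d : ℕ) {q : V} (hq : q ∈ cn G h)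
    (hqO : q ∈ 𝒟.O) (hqW : q ∉ W2) {t : ℕ} (ht : t ≤ M) :
    term2 G M pt D qq η Z 𝒟 d h W2 q t ≤
      (Z * pt t / M + 10 * Z ^ 3 * pt t / M * (bet M pt D η Z t + g2 M pt D η Z (d + 1) t)
        + (if h ∈ 𝒟.H1 then 0 else 2 * (1 + 2 * (L : ℝ)) / M) *
          (bet M pt D η Z t + g2 M pt D η Z (d + 1) t))
      + (if insert q h ∈ 𝒟.J ∧ t = 𝒟.s (insert q h) then ∑ x ∈ h, mult M Z 𝒟 {x, q} t else 0) *
          (bet M pt D η Z t + g2 M pt D η Z (d + 1) t) := by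
  have hb := bet_nn hN t
  have hg := g2_nn hN (d + 1) t
  have hM := hN.Mpos'
  have hp := hN.pt_nn t
  have hZ := Z_pos hN
  have hpZ := hN.pt_le t
  have hU : ∀ x ∈ h, U2 G M pt D qq η Z 𝒟 (d + 1) {x, q} (insert q W2) ∅ False t
      = mult M Z 𝒟 {x, q} t * (bet M pt D η Z t + g2 M pt D η Z (d + 1) t) := by
    intro x hx
    unfold U2
    have hsub : ({x, q} : Finset V) ⊆ 𝒟.O := by
      intro z hz
      rcases mem_insert.1 hz with rfl | hz
      · exact hO hx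
      · rw [mem_singleton.1 hz]; exact hqO
    rw [if_pos ⟨hsub, not_false⟩]
  have n1 : 0 ≤ Z * pt t / M := by positivity
  have n2 : 0 ≤ 10 * Z ^ 3 * pt t / M * (bet M pt D η Z t + g2 M pt D η Z (d + 1) t) := by
    positivity
  have n3 : 0 ≤ (if h ∈ 𝒟.H1 then 0 else 2 * (1 + 2 * (L : ℝ)) / M) *
      (bet M pt D η Z t + g2 M pt D η Z (d + 1) t) := by
    apply mul_nonneg _ (by positivity)
    split_ifs
    · exact le_rfl
    · positivity
  have n4 : 0 ≤ (if insert q h ∈ 𝒟.J ∧ t = 𝒟.s (insert q h) then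
      ∑ x ∈ h, mult M Z 𝒟 {x, q} t else 0) * (bet M pt D η Z t + g2 M pt D η Z (d + 1) t) := by
    apply mul_nonneg _ (by positivity)
    split_ifs
    · exact sum_nonneg fun x _ => le_trans zero_le_one (one_le_mult hN _ _)
    · exact le_rfl
  unfold term2
  by_cases c1 : h = 𝒟.e ∧ q = 𝒟.w
  · rw [if_pos c1]; linarith
  rw [if_neg c1]
  by_cases c2 : Xi 𝒟.e 𝒟.w (insert q h)
  · rw [if_pos c2]
    have : (if nnew 𝒟 h q = 2 then pt t ^ 2 else Z * pt t) / M ≤ Z * pt t / M := by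
      apply div_le_div_of_nonneg_right _ hM.le
      split_ifs
      · nlinarith
      · exact le_rfl
    linarith
  rw [if_neg c2]
  by_cases c3 : t < 𝒟.a
  · rw [if_pos c3]; linarith
  rw [if_neg c3]
  by_cases c4 : insert q h ∈ 𝒟.J
  · rw [if_pos c4]
    by_cases c5 : t = 𝒟.s (insert q h)
    · rw [if_pos c5, if_pos (⟨c4, c5⟩ : insert q h ∈ 𝒟.J ∧ t = 𝒟.s (insert q h)), sum_congr rfl hU,
        ← sum_mul]
      linarith
    · rw [if_neg c5]; linarith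
  rw [if_neg c4, if_pos hqO]
  by_cases c6 : nnew 𝒟 h q = 0
  · have hall : ∀ x ∈ h, ({x, q} : Finset V) ∈ 𝒟.H1 := by
      intro x hx
      by_contra hc
      unfold nnew at c6
      rw [card_eq_zero, filter_eq_empty_iff] at c6
      exact c6 hx hc
    have hh : h ∉ 𝒟.H1 := fun hh => c4 (h𝒟.path.tri h hh q (fun h0 => hqW (hW h0)) hall)
    rw [if_neg hh, c6, pow_zero, sum_congr rfl hU, ← sum_mul]
    have h2 : ∑ x ∈ h, mult M Z 𝒟 {x, q} t ≤ 2 * (1 + 2 * L) := by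
      refine (sum_le_card_nsmul _ _ _ fun x hx => mult_H1_le h𝒟 (hall x hx) t).trans ?_
      rw [he.card, nsmul_eq_mul]; push_cast; exact le_rfl
    have h3 : 1 / (M : ℝ) * ((∑ x ∈ h, mult M Z 𝒟 {x, q} t) *
        (bet M pt D η Z t + g2 M pt D η Z (d + 1) t))
        ≤ 2 * (1 + 2 * L) / M * (bet M pt D η Z t + g2 M pt D η Z (d + 1) t) := by
      calc _ ≤ 1 / (M : ℝ) * ((2 * (1 + 2 * L)) *
          (bet M pt D η Z t + g2 M pt D η Z (d + 1) t)) := by gcongr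
        _ = _ := by ring
    linarith
  · have := old_new_le hN h𝒟 he hW (d + 1) hq ht c6
    linarith

theorem crude_step (hN : NumOK G M pt D qq η Z L) (h𝒟 : 𝒟.OK G L) {h W2 Sk : Finset V} {st : Prop}
    (hS : St2OK G 𝒟 h W2 Sk st) (hO : h ⊆ 𝒟.O) (d : ℕ) {t : ℕ} (ht : t ≤ M) :
    ∑ q ∈ cn G h \ (W2 ∪ Sk), term2 G M pt D qq η Z 𝒟 d h W2 q t
      ≤ mult M Z 𝒟 h (t + 1) * (bet M pt D η Z (t + 1) + g2 M pt D η Z (d + 1) (t + 1))
        - mult M Z 𝒟 h t * (bet M pt D η Z t + g2 M pt D η Z (d + 1) t) := by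
  have hb := bet_nn hN t
  have hg := g2_nn hN (d + 1) t
  have hM := hN.Mpos'
  have hp := hN.pt_nn t
  have hZ := Z_pos hN
  have hZ1 := hN.Z_ge
  have hD := D_pos hN
  have hρ := hN.rho_nn t
  have he := e_nn hN t
  rw [← sum_filter_add_sum_filter_not _ (fun q => q ∈ 𝒟.O)]
  -- normal steps
  have hnorm : ∑ q ∈ (cn G h \ (W2 ∪ Sk)).filter (fun q => ¬ q ∈ 𝒟.O),
      term2 G M pt D qq η Z 𝒟 d h W2 q t
      ≤ rho D M pt t * bet M pt D η Z t / 2 + 4 * rho D M pt t * g2 M pt D η Z (d + 1) t := by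
    have h1 : ∀ q ∈ (cn G h \ (W2 ∪ Sk)).filter (fun q => ¬ q ∈ 𝒟.O),
        term2 G M pt D qq η Z 𝒟 d h W2 q t
          ≤ pt t ^ 2 / M * (2 * (bet M pt D η Z t / 4 + 2 * g2 M pt D η Z (d + 1) t)) := by
      intro q hq
      rw [mem_filter, mem_sdiff] at hq
      rw [term2_normal h𝒟 hS d hq.1.1 hq.2]
      split_ifs
      · positivity
      · apply mul_le_mul_of_nonneg_left _ (by positivity)
        rw [← g2_succ]
        refine (sum_le_card_nsmul _ _ _ fun x hx => U2_one_le hN h𝒟 d (card_pair_cn hq.1.1 hx)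
          (fun hh => hq.2 (hh (by simp))) (hS.W0.trans (subset_insert _ _)) ht).trans ?_
        rw [hS.edge.card, nsmul_eq_mul]; push_cast; exact le_rfl
    refine (sum_le_card_nsmul _ _ _ h1).trans ?_
    rw [nsmul_eq_mul]
    have h2 : (((cn G h \ (W2 ∪ Sk)).filter (fun q => ¬ q ∈ 𝒟.O)).card : ℝ) ≤ D := by
      refine le_trans ?_ (hN.two h hS.edge)
      exact_mod_cast card_le_card ((filter_subset _ _).trans sdiff_subset)
    calc _ ≤ D * (pt t ^ 2 / M * (2 * (bet M pt D η Z t / 4 + 2 * g2 M pt D η Z (d + 1) t))) := by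
          gcongr
      _ = _ := by unfold rho; ring
  -- old steps
  have hA : ((((cn G h \ (W2 ∪ Sk)).filter (fun q => q ∈ 𝒟.O)).card : ℝ)) ≤ L + 1 := by
    rw [old_set]; exact adj2_le h𝒟 hS.W0
  have hL := L_le hN
  have hL0 : (0 : ℝ) ≤ L := Nat.cast_nonneg _
  have hold : ∑ q ∈ (cn G h \ (W2 ∪ Sk)).filter (fun q => q ∈ 𝒟.O),
      term2 G M pt D qq η Z 𝒟 d h W2 q t
      ≤ rho D M pt t * bet M pt D η Z t / 2
        + 10 * Z ^ 4 * pt t / M * (bet M pt D η Z t + g2 M pt D η Z (d + 1) t)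
        + (mult M Z 𝒟 h (t + 1) - mult M Z 𝒟 h t) *
          (bet M pt D η Z t + g2 M pt D η Z (d + 1) t) := by
    refine (sum_le_sum fun q hq => crude_old hN h𝒟 hS.edge hS.W0 hO d
      (mem_sdiff.1 (mem_filter.1 hq).1).1 (mem_filter.1 hq).2
      (fun h0 => (mem_sdiff.1 (mem_filter.1 hq).1).2 (mem_union_left _ h0)) ht).trans ?_
    rw [sum_add_distrib, sum_const, nsmul_eq_mul, ← sum_mul]
    have hsub : (cn G h \ (W2 ∪ Sk)).filter (fun q => q ∈ 𝒟.O) ⊆ cn G h :=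
      (filter_subset _ _).trans sdiff_subset
    have hA0 : (0 : ℝ) ≤ (((cn G h \ (W2 ∪ Sk)).filter (fun q => q ∈ 𝒟.O)).card : ℝ) :=
      Nat.cast_nonneg _
    have k1 : (((cn G h \ (W2 ∪ Sk)).filter (fun q => q ∈ 𝒟.O)).card : ℝ) * (Z * pt t / M)
        ≤ rho D M pt t * bet M pt D η Z t / 2 := by
      have h1 := hN.Phi_pt t ht
      have h2 := one_le_Ee hN t
      calc _ ≤ Z * (Z * pt t / M) := by gcongr; linarith
        _ = Z ^ 2 * pt t / M * 1 * 1 * 1 := by ring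
        _ ≤ Z ^ 2 * pt t / M * (6 * Z) * (Phi D M pt η t * pt t) * Ee M pt Z t := by
            gcongr; linarith
        _ = _ := by unfold rho bet; field_simp; ring
    have k2 : (((cn G h \ (W2 ∪ Sk)).filter (fun q => q ∈ 𝒟.O)).card : ℝ) *
        (10 * Z ^ 3 * pt t / M * (bet M pt D η Z t + g2 M pt D η Z (d + 1) t))
        ≤ 10 * Z ^ 4 * pt t / M * (bet M pt D η Z t + g2 M pt D η Z (d + 1) t) := by
      calc _ ≤ Z * (10 * Z ^ 3 * pt t / M * (bet M pt D η Z t + g2 M pt D η Z (d + 1) t)) := by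
            gcongr; linarith
        _ = _ := by ring
    have k3 : (((cn G h \ (W2 ∪ Sk)).filter (fun q => q ∈ 𝒟.O)).card : ℝ) *
        (if h ∈ 𝒟.H1 then 0 else 2 * (1 + 2 * (L : ℝ)) / M)
        + ∑ q ∈ (cn G h \ (W2 ∪ Sk)).filter (fun q => q ∈ 𝒟.O),
          (if insert q h ∈ 𝒟.J ∧ t = 𝒟.s (insert q h) then ∑ x ∈ h, mult M Z 𝒟 {x, q} t else 0)
        ≤ mult M Z 𝒟 h (t + 1) - mult M Z 𝒟 h t := by
      by_cases hh : h ∈ 𝒟.H1
      · rw [if_pos hh, mul_zero, zero_add]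
        exact joint_le hN h𝒟 hS.edge _ hsub t
      · rw [if_neg hh, sum_eq_zero fun q hq => if_neg fun hc =>
          hh (J_edges h𝒟 hS.edge (hsub hq) hc.1).1, add_zero]
        unfold mult
        rw [if_neg hh, if_neg hh]
        calc _ ≤ Z * (2 * (2 * Z) / M) := by gcongr <;> linarith
          _ = _ := by push_cast; ring
    have k4 := mul_le_mul_of_nonneg_right k3 (add_nonneg hb hg)
    nlinarith
  have i1 := bet_incr hN t
  have i2 := g2_incr hN (d + 1) t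
  have m1 := one_le_mult (𝒟 := 𝒟) hN h (t + 1)
  have i3 : 0 ≤ (bet M pt D η Z (t + 1) + g2 M pt D η Z (d + 1) (t + 1))
      - (bet M pt D η Z t + g2 M pt D η Z (d + 1) t) := by
    have : 0 ≤ bet M pt D η Z t * (rho D M pt t + 10 * Z ^ 4 * pt t / M) := by positivity
    have : 0 ≤ g2 M pt D η Z (d + 1) t * (4 * rho D M pt t + 10 * Z ^ 4 * pt t / M) := by
      positivity
    linarith
  have i4 := mul_le_mul_of_nonneg_right m1 i3
  nlinarith

theorem card_pair_inter {x q : V} {A : Finset V} (hq : q ∉ A) :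
    (({x, q} : Finset V) ∩ A).card = if x ∈ A then 1 else 0 := by
  split_ifs with hx
  · rw [insert_inter_of_mem hx, singleton_inter_of_notMem hq]; simp
  · rw [insert_inter_of_notMem hx, singleton_inter_of_notMem hq]; simp

/-- value of a state reached by a normal step -/
theorem U2_normal (h𝒟 : 𝒟.OK G L) (d : ℕ) {x q : V} (W2 : Finset V) (hqO : q ∉ 𝒟.O) (t : ℕ) :
    U2 G M pt D qq η Z 𝒟 d {x, q} W2 ∅ False t
      = adj2 G 𝒟 {x, q} W2 ∅ * ((if x ∈ 𝒟.O then 1 else η) * XA M pt D η Z t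
          + (if x ∈ insert 𝒟.w 𝒟.e then 1 else 0) * lamt M pt t)
        + ((1 + 2 * (if x ∈ 𝒟.O then 1 else 0)) * qq * Z * XA M pt D η Z t
          + (if x ∈ insert 𝒟.w 𝒟.e then 1 else 0) * (qq * Z ^ 3 * phia M pt D η 𝒟 t / D)
          + 2 * g2 M pt D η Z (d + 1) t) := by
  unfold U2
  rw [if_neg (fun hh => hqO (hh.1 (by simp))), card_pair_inter hqO,
    card_pair_inter (fun h0 => hqO (h𝒟.TO h0)), g2_succ d t]
  by_cases h1 : x ∈ 𝒟.O <;> by_cases h2 : x ∈ insert 𝒟.w 𝒟.e <;>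
    simp only [h1, h2, if_true, if_false, one_ne_zero, Nat.cast_one, Nat.cast_zero] <;> ring

theorem nc_normal (hN : NumOK G M pt D qq η Z L) (h𝒟 : 𝒟.OK G L) {h W2 Sk : Finset V} {st : Prop}
    (hS : St2OK G 𝒟 h W2 Sk st) (d : ℕ) {t : ℕ} (ht : t ≤ M) :
    ∑ q ∈ (cn G h \ (W2 ∪ Sk)).filter (fun q => ¬ q ∈ 𝒟.O), term2 G M pt D qq η Z 𝒟 d h W2 q t
      ≤ (if (h ∩ 𝒟.O).card = 0 then 1 else ((h ∩ 𝒟.O).card : ℝ) + 2) * qq * Z *
          (2 * (1 + η) * rho D M pt t * XA M pt D η Z t)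
        + ((h ∩ insert 𝒟.w 𝒟.e).card : ℝ) * (qq * Z ^ 3 / D *
            (if t < 𝒟.a then 0 else (1 + η) * rho D M pt t * phia M pt D η 𝒟 t))
        + 4 * rho D M pt t * g2 M pt D η Z (d + 1) t := by
  have hg := g2_nn hN (d + 1) t
  have hM := hN.Mpos'
  have hp := hN.pt_nn t
  have hZ := Z_pos hN
  have hZ1 := hN.Z_ge
  have hD := D_pos hN
  have hρ := hN.rho_nn t
  have hX := XA_nn hN t
  have hη := hN.eta_pos
  have hη1 := hN.eta_le
  have hq0 := hN.qq_nn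
  have hl := lamt_le hN ht
  have hl0 := lamt_nn hN t
  have hph := one_le_phia (𝒟 := 𝒟) hN t
  have hL := L_le hN
  have hk0 : (0 : ℝ) ≤ ((h ∩ 𝒟.O).card : ℝ) := Nat.cast_nonneg _
  have hj0 : (0 : ℝ) ≤ ((h ∩ insert 𝒟.w 𝒟.e).card : ℝ) := Nat.cast_nonneg _
  have hc2 : 0 ≤ (if (h ∩ 𝒟.O).card = 0 then 1 else ((h ∩ 𝒟.O).card : ℝ) + 2) := by
    by_cases h0 : (h ∩ 𝒟.O).card = 0
    · rw [if_pos h0]; exact zero_le_one
    · rw [if_neg h0]; exact add_nonneg hk0 zero_le_two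
  set S := (cn G h \ (W2 ∪ Sk)).filter (fun q => ¬ q ∈ 𝒟.O) with hSdef
  have hSc : ∀ q ∈ S, q ∈ cn G h := fun q hq => (mem_sdiff.1 (mem_filter.1 hq).1).1
  have hSO : ∀ q ∈ S, q ∉ 𝒟.O := fun q hq => (mem_filter.1 hq).2
  rw [sum_congr rfl fun q hq => term2_normal h𝒟 hS d (hSc q hq) (hSO q hq) t]
  by_cases hta : t < 𝒟.a
  · simp only [if_pos hta, sum_const_zero, mul_zero, add_zero]
    exact add_nonneg (mul_nonneg (mul_nonneg (mul_nonneg hc2 hq0) hZ.le) (by positivity))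
      (by positivity)
  simp only [if_neg hta]
  rw [← mul_sum, sum_comm]
  have hcard : (S.card : ℝ) ≤ D := by
    refine le_trans ?_ (hN.two h hS.edge)
    exact_mod_cast card_le_card hSc
  have hadj : ∀ x ∈ h, ∑ q ∈ S, adj2 G 𝒟 {x, q} (insert q W2) ∅ ≤ Z * (qq * D) := by
    intro x hx
    have h1 := gain1 hN.three hS.edge hx (𝒟.O \ W2)
      (disjoint_left.2 fun z hz hz' => (mem_sdiff.1 hz').2 (hS.sub (mem_of_mem_erase hz)))
      (by positivity)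
    have h2 : ((𝒟.O \ W2).card : ℝ) ≤ Z := by
      have : (𝒟.O \ W2).card ≤ L + 1 :=
        le_trans (card_le_card (sdiff_subset_sdiff subset_rfl hS.W0)) h𝒟.cardO
      have : ((𝒟.O \ W2).card : ℝ) ≤ L + 1 := by exact_mod_cast this
      linarith
    calc ∑ q ∈ S, adj2 G 𝒟 {x, q} (insert q W2) ∅
        ≤ ∑ q ∈ S, ((cn G {x, q} ∩ (𝒟.O \ W2)).card : ℝ) := by
          refine sum_le_sum fun q _ => ?_
          unfold adj2
          apply Nat.cast_le.2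
          apply card_le_card
          intro z hz
          simp only [mem_sdiff, mem_inter, mem_union, mem_insert, not_or] at hz ⊢
          exact ⟨hz.1.1, hz.1.2, hz.2.1.2⟩
      _ ≤ ∑ q ∈ cn G h, ((cn G {x, q} ∩ (𝒟.O \ W2)).card : ℝ) :=
          sum_le_sum_of_subset_of_nonneg hSc fun _ _ _ => Nat.cast_nonneg _
      _ ≤ ((𝒟.O \ W2).card : ℝ) * (qq * D) := h1
      _ ≤ Z * (qq * D) := by gcongr
  set c1 : ℝ := if (h ∩ 𝒟.O).card = 0 then η else 1 with hc1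
  have hx1 : ∀ x ∈ h, ∑ q ∈ S, U2 G M pt D qq η Z 𝒟 d {x, q} (insert q W2) ∅ False t
      ≤ D * ((c1 + 1) * qq * Z * XA M pt D η Z t + 2 * g2 M pt D η Z (d + 1) t)
        + D * (2 * qq * Z * XA M pt D η Z t) * (if x ∈ 𝒟.O then 1 else 0)
        + D * ((1 + η) * (qq * Z ^ 3 * phia M pt D η 𝒟 t / D)) *
          (if x ∈ insert 𝒟.w 𝒟.e then 1 else 0) := by
    intro x hx
    rw [sum_congr rfl fun q hq => U2_normal h𝒟 d (insert q W2) (hSO q hq) t, sum_add_distrib,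
      ← sum_mul, sum_const, nsmul_eq_mul]
    have a1 : (if x ∈ 𝒟.O then 1 else η) ≤ c1 := by
      rw [hc1]
      by_cases h1 : x ∈ 𝒟.O
      · rw [if_pos h1, if_neg (card_ne_zero_of_mem (mem_inter.2 ⟨hx, h1⟩))]
      · rw [if_neg h1]
        split_ifs
        · exact le_rfl
        · exact hη1
    have a1' : 0 ≤ (if x ∈ 𝒟.O then 1 else η) := by split_ifs <;> positivity
    have a2 : (0 : ℝ) ≤ if x ∈ 𝒟.O then 1 else 0 := by split_ifs <;> positivity
    have a3 : (0 : ℝ) ≤ if x ∈ insert 𝒟.w 𝒟.e then 1 else 0 := by split_ifs <;> positivity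
    have a4 := hadj x hx
    generalize (if x ∈ 𝒟.O then (1 : ℝ) else η) = b1 at *
    generalize (if x ∈ 𝒟.O then (1 : ℝ) else 0) = b2 at *
    generalize (if x ∈ insert 𝒟.w 𝒟.e then (1 : ℝ) else 0) = b3 at *
    have a5 : Z * (qq * D) * lamt M pt t ≤ D * (η * (qq * Z ^ 3 * phia M pt D η 𝒟 t / D)) := by
      have hηZ := hN.eta_Z
      calc Z * (qq * D) * lamt M pt t ≤ Z * (qq * D) * (Z / D) := by gcongr
        _ = qq * Z ^ 2 * 1 * 1 := by field_simp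
        _ ≤ qq * Z ^ 2 * (η * Z) * phia M pt D η 𝒟 t := by gcongr
        _ = _ := by field_simp
    have a6 : (∑ q ∈ S, adj2 G 𝒟 {x, q} (insert q W2) ∅) *
        (b1 * XA M pt D η Z t + b3 * lamt M pt t)
        ≤ Z * (qq * D) * (c1 * XA M pt D η Z t + b3 * lamt M pt t) := by
      gcongr
    have a7 : (S.card : ℝ) * ((1 + 2 * b2) * qq * Z * XA M pt D η Z t
          + b3 * (qq * Z ^ 3 * phia M pt D η 𝒟 t / D) + 2 * g2 M pt D η Z (d + 1) t)
        ≤ D * ((1 + 2 * b2) * qq * Z * XA M pt D η Z t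
          + b3 * (qq * Z ^ 3 * phia M pt D η 𝒟 t / D) + 2 * g2 M pt D η Z (d + 1) t) := by
      gcongr
    have a8 := mul_le_mul_of_nonneg_left a5 a3
    nlinarith
  have hx2 := sum_le_sum hx1
  rw [sum_add_distrib, sum_add_distrib, sum_const, ← mul_sum, ← mul_sum, sum_boole, sum_boole,
    filter_mem_eq_inter, filter_mem_eq_inter, hS.edge.card, nsmul_eq_mul] at hx2
  have hc : c1 + 1 + ((h ∩ 𝒟.O).card : ℝ)
      ≤ (if (h ∩ 𝒟.O).card = 0 then 1 else ((h ∩ 𝒟.O).card : ℝ) + 2) * (1 + η) := by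
    rw [hc1]
    by_cases h0 : (h ∩ 𝒟.O).card = 0
    · rw [if_pos h0, if_pos h0, h0]; push_cast; linarith
    · rw [if_neg h0, if_neg h0]; nlinarith
  generalize (if (h ∩ 𝒟.O).card = 0 then 1 else ((h ∩ 𝒟.O).card : ℝ) + 2) = c2 at *
  generalize ((h ∩ 𝒟.O).card : ℝ) = k at *
  generalize ((h ∩ insert 𝒟.w 𝒟.e).card : ℝ) = j at *
  have hy : 0 ≤ 2 * rho D M pt t * qq * Z * XA M pt D η Z t := by positivity
  have hz := mul_le_mul_of_nonneg_right hc hy
  calc _ ≤ pt t ^ 2 / M * _ := mul_le_mul_of_nonneg_left hx2 (by positivity)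
    _ = (c1 + 1 + k) * (2 * rho D M pt t * qq * Z * XA M pt D η Z t)
        + j * (qq * Z ^ 3 / D * ((1 + η) * rho D M pt t * phia M pt D η 𝒟 t))
        + 4 * rho D M pt t * g2 M pt D η Z (d + 1) t := by
          unfold rho; push_cast; ring
    _ ≤ _ := by nlinarith

theorem nc_old (hN : NumOK G M pt D qq η Z L) (h𝒟 : 𝒟.OK G L) {h W2 Sk : Finset V} {st : Prop}
    (hS : St2OK G 𝒟 h W2 Sk st) (hnc : ¬ (h ⊆ 𝒟.O ∧ ¬ st)) (d : ℕ) {q : V} (hq : q ∈ cn G h)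
    (hqO : q ∈ 𝒟.O) (hqW : q ∉ W2) (hqS : q ∉ Sk) {t : ℕ} (ht : t ≤ M) :
    term2 G M pt D qq η Z 𝒟 d h W2 q t ≤
      (if (h ∩ 𝒟.O).card = 0 then η else 1) * (2 * rho D M pt t * XA M pt D η Z t)
        + 10 * Z ^ 3 * pt t / M * g2 M pt D η Z (d + 1) t
        + ((h ∩ insert 𝒟.w 𝒟.e).card : ℝ) * (pt t ^ 2 / M) := by
  have hb := bet_nn hN t
  have hg := g2_nn hN (d + 1) t
  have hM := hN.Mpos'
  have hp := hN.pt_nn t
  have hpZ := hN.pt_le t
  have hZ := Z_pos hN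
  have hZ1 := hN.Z_ge
  have hD := D_pos hN
  have hρ := hN.rho_nn t
  have hX := XA_nn hN t
  have hη := hN.eta_pos
  have hΦ := hN.one_le_Phi t
  have hE := Ee_le hN ht
  have hE1 := one_le_Ee hN t
  have hj0 : (0 : ℝ) ≤ ((h ∩ insert 𝒟.w 𝒟.e).card : ℝ) := Nat.cast_nonneg _
  have n1 : 0 ≤ (if (h ∩ 𝒟.O).card = 0 then η else 1) *
      (2 * rho D M pt t * XA M pt D η Z t) := by
    apply mul_nonneg _ (by positivity)
    by_cases h0 : (h ∩ 𝒟.O).card = 0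
    · rw [if_pos h0]; exact hη.le
    · rw [if_neg h0]; exact zero_le_one
  have n2 : 0 ≤ 10 * Z ^ 3 * pt t / M * g2 M pt D η Z (d + 1) t := by positivity
  have n3 : 0 ≤ ((h ∩ insert 𝒟.w 𝒟.e).card : ℝ) * (pt t ^ 2 / M) :=
    mul_nonneg hj0 (by positivity)
  have hnew : ∃ x ∈ h, ({x, q} : Finset V) ∉ 𝒟.H1 := by
    by_cases hst : st
    · exact (hS.start hst).2.2 q hq hqW hqS
    · have : ¬ h ⊆ 𝒟.O := fun hh => hnc ⟨hh, hst⟩
      obtain ⟨x, hx, hxO⟩ := not_subset.1 this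
      exact ⟨x, hx, fun hh => hxO ((h𝒟.H1e _ hh).2.1 (by simp))⟩
  unfold term2
  by_cases c1 : h = 𝒟.e ∧ q = 𝒟.w
  · rw [if_pos c1]; linarith
  rw [if_neg c1]
  by_cases c2 : Xi 𝒟.e 𝒟.w (insert q h)
  · rw [if_pos c2]
    obtain ⟨h1, ⟨v, hv, h2⟩, -⟩ := c2
    have hvw : v ≠ 𝒟.w := fun e => not_mem_of_mem_cn h𝒟.hw (e ▸ hv)
    have hj : (1 : ℝ) ≤ ((h ∩ insert 𝒟.w 𝒟.e).card : ℝ) := by
      have : (h ∩ insert 𝒟.w 𝒟.e).Nonempty := by
        rcases mem_insert.1 h1 with h1 | h1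
        · rcases mem_insert.1 h2 with h2 | h2
          · exact absurd (h2.trans h1.symm) hvw
          · exact ⟨v, mem_inter.2 ⟨h2, mem_insert_of_mem hv⟩⟩
        · exact ⟨_, mem_inter.2 ⟨h1, mem_insert_self _ _⟩⟩
      exact_mod_cast card_pos.2 this
    have h2' : nnew 𝒟 h q = 2 := by
      apply nnew_eq_two hS.edge
      intro x hx hH
      obtain ⟨-, hxO, hxw⟩ := h𝒟.H1e _ hH
      rcases mem_insert.1 h1 with h1 | h1
      · exact hxw (by rw [h1]; simp)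
      · have hst : ¬ st := fun hst => (hS.start hst).2.1 h1
        have hO : ¬ h ⊆ 𝒟.O := fun hh => hnc ⟨hh, hst⟩
        have hxw' : x ≠ 𝒟.w := fun e => hxw (by rw [← e]; simp)
        apply hO
        have : ({𝒟.w, x} : Finset V) = h := by
          apply eq_of_subset_of_card_le
          · intro z hz
            rcases mem_insert.1 hz with rfl | hz
            · exact h1
            · rw [mem_singleton.1 hz]; exact hx
          · rw [hS.edge.card, card_pair hxw'.symm]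
        rw [← this]
        intro z hz
        rcases mem_insert.1 hz with rfl | hz
        · exact h𝒟.TO (mem_insert_self _ _)
        · rw [mem_singleton.1 hz]; exact hxO (by simp)
    rw [if_pos h2']
    have : 1 * (pt t ^ 2 / M) ≤ ((h ∩ insert 𝒟.w 𝒟.e).card : ℝ) * (pt t ^ 2 / M) :=
      mul_le_mul_of_nonneg_right hj (by positivity)
    linarith
  rw [if_neg c2]
  by_cases c3 : t < 𝒟.a
  · rw [if_pos c3]; linarith
  rw [if_neg c3]
  obtain ⟨x0, hx0, hx0H⟩ := hnew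
  rw [if_neg (fun hJ => hx0H ((J_edges h𝒟 hS.edge hq hJ).2 x0 hx0)), if_pos hqO]
  by_cases h0 : (h ∩ 𝒟.O).card = 0
  · have hxO : ∀ x ∈ h, x ∉ 𝒟.O := fun x hx hxO =>
      card_ne_zero_of_mem (mem_inter.2 ⟨hx, hxO⟩) h0
    rw [if_pos h0, nnew_eq_two hS.edge fun x hx hH => hxO x hx ((h𝒟.H1e _ hH).2.1 (by simp))]
    have h2 : ∑ x ∈ h, U2 G M pt D qq η Z 𝒟 (d + 1) {x, q} (insert q W2) ∅ False t
        ≤ 2 * (bet M pt D η Z t / 4 + g2 M pt D η Z (d + 1) t) := by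
      refine (sum_le_card_nsmul _ _ _ fun x hx => U2_one_le hN h𝒟 (d + 1) (card_pair_cn hq hx)
        (fun hh => hxO x hx (hh (by simp))) (hS.W0.trans (subset_insert _ _)) ht).trans ?_
      rw [hS.edge.card, nsmul_eq_mul]; push_cast; exact le_rfl
    have h3 : pt t ^ 2 / M * (bet M pt D η Z t / 2)
        ≤ η * (2 * rho D M pt t * XA M pt D η Z t) := by
      have hηZ := hN.eta_Z
      have hZ3 : (1 : ℝ) ≤ 20 * Z ^ 3 := by
        have : (1 : ℝ) ≤ Z ^ 3 := one_le_pow₀ (by linarith)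
        linarith
      calc pt t ^ 2 / M * (bet M pt D η Z t / 2)
          = pt t ^ 2 / M * (6 * Z ^ 3 * Phi D M pt η t / D) * Ee M pt Z t * 1 * 1 * 1 := by
            unfold bet; ring
        _ ≤ pt t ^ 2 / M * (6 * Z ^ 3 * Phi D M pt η t / D) * 3 * (η * Z) * (20 * Z ^ 3) *
            Phi D M pt η t := by gcongr
        _ = _ := by unfold rho XA; field_simp; ring
    have h4 : pt t ^ 2 / M * (2 * g2 M pt D η Z (d + 1) t)
        ≤ 10 * Z ^ 3 * pt t / M * g2 M pt D η Z (d + 1) t := by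
      have hZ2 : (2 : ℝ) ≤ 10 * Z ^ 2 := by nlinarith
      calc pt t ^ 2 / M * (2 * g2 M pt D η Z (d + 1) t)
          = pt t / M * g2 M pt D η Z (d + 1) t * pt t * 2 := by ring
        _ ≤ pt t / M * g2 M pt D η Z (d + 1) t * Z * (10 * Z ^ 2) := by gcongr
        _ = _ := by ring
    have h5 := mul_le_mul_of_nonneg_left h2 (show 0 ≤ pt t ^ 2 / M by positivity)
    nlinarith
  · have hn0 : nnew 𝒟 h q ≠ 0 := by
      unfold nnew
      exact card_ne_zero_of_mem (mem_filter.2 ⟨hx0, hx0H⟩)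
    have h1 := old_new_le hN h𝒟 hS.edge hS.W0 (d + 1) hq ht hn0
    rw [if_neg h0]
    have h3 : 10 * Z ^ 3 * pt t / M * bet M pt D η Z t
        ≤ 1 * (2 * rho D M pt t * XA M pt D η Z t) := by
      have h4 := hN.Phi_pt t ht
      calc 10 * Z ^ 3 * pt t / M * bet M pt D η Z t
          = (120 * Z ^ 6 * pt t / M * Phi D M pt η t / D) * Ee M pt Z t * 1 * 1 := by
            unfold bet; ring
        _ ≤ (120 * Z ^ 6 * pt t / M * Phi D M pt η t / D) * 3 * Z *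
            (Phi D M pt η t * pt t) := by gcongr; linarith
        _ = _ := by unfold rho XA; field_simp; ring
    nlinarith

end G2A

theorem U2_step (hN : NumOK G M pt D qq η Z L) (h𝒟 : 𝒟.OK G L) {h W2 Sk : Finset V} {st : Prop}
    (hS : St2OK G 𝒟 h W2 Sk st) (d : ℕ) {u : ℕ} (hu : u ≤ M) :
    ∑ q ∈ cn G h \ (W2 ∪ Sk), ∑ t ∈ range u, term2 G M pt D qq η Z 𝒟 d h W2 q t
      ≤ U2 G M pt D qq η Z 𝒟 (d + 1) h W2 Sk st u := by
  rw [sum_comm]
  refine sum_le_of_incr _ (fun t => U2 G M pt D qq η Z 𝒟 (d + 1) h W2 Sk st t) u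
    (U2_nn hN _ _ _ _ _ _) fun t htu => ?_
  have ht : t ≤ M := htu.le.trans hu
  by_cases hc : h ⊆ 𝒟.O ∧ ¬ st
  · unfold U2
    rw [if_pos hc, if_pos hc]
    exact G2A.crude_step hN h𝒟 hS hc.1 d ht
  · unfold U2
    rw [if_neg hc, if_neg hc, ← sum_filter_add_sum_filter_not _ (fun q => q ∈ 𝒟.O)]
    have hnorm := G2A.nc_normal hN h𝒟 hS d ht
    have hold := sum_le_card_nsmul ((cn G h \ (W2 ∪ Sk)).filter (fun q => q ∈ 𝒟.O)) _ _
      fun q hq => G2A.nc_old hN h𝒟 hS hc d (mem_sdiff.1 (mem_filter.1 hq).1).1 (mem_filter.1 hq).2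
        (fun h0 => (mem_sdiff.1 (mem_filter.1 hq).1).2 (mem_union_left _ h0))
        (fun h0 => (mem_sdiff.1 (mem_filter.1 hq).1).2 (mem_union_right _ h0)) ht
    have hA : ((((cn G h \ (W2 ∪ Sk)).filter (fun q => q ∈ 𝒟.O)).card : ℝ))
        = adj2 G 𝒟 h W2 Sk := by rw [G2A.old_set]; rfl
    rw [nsmul_eq_mul, hA] at hold
    have hA1 := G2A.adj2_le (G := G) (h := h) (Sk := Sk) h𝒟 hS.W0
    have hA0 := G2A.adj2_nn (G := G) (𝒟 := 𝒟) h W2 Sk
    have hL := G2A.L_le hN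
    have hg := G2A.g2_nn hN (d + 1) t
    have hM := hN.Mpos'
    have hp := hN.pt_nn t
    have hZ := G2A.Z_pos hN
    have hD := G2A.D_pos hN
    have hρ := hN.rho_nn t
    have hX := G2A.XA_nn hN t
    have hη := hN.eta_pos
    have hq0 := hN.qq_nn
    have i1 := G2A.XA_incr hN t
    have i2 := G2A.g2_incr hN (d + 1) t
    have i3 := G2A.phia_incr (𝒟 := 𝒟) hN t
    rw [G2A.lamt_succ]
    have hc1 : 0 ≤ (if (h ∩ 𝒟.O).card = 0 then η else 1) := by
      by_cases h0 : (h ∩ 𝒟.O).card = 0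
      · rw [if_pos h0]; exact hη.le
      · rw [if_neg h0]; exact zero_le_one
    have hc2 : 0 ≤ (if (h ∩ 𝒟.O).card = 0 then 1 else ((h ∩ 𝒟.O).card : ℝ) + 2) := by
      by_cases h0 : (h ∩ 𝒟.O).card = 0
      · rw [if_pos h0]; exact zero_le_one
      · rw [if_neg h0]; exact add_nonneg (Nat.cast_nonneg _) zero_le_two
    have hj0 : (0 : ℝ) ≤ ((h ∩ insert 𝒟.w 𝒟.e).card : ℝ) := Nat.cast_nonneg _
    generalize (if (h ∩ 𝒟.O).card = 0 then η else 1) = c1 at *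
    generalize (if (h ∩ 𝒟.O).card = 0 then 1 else ((h ∩ 𝒟.O).card : ℝ) + 2) = c2 at *
    generalize ((h ∩ insert 𝒟.w 𝒟.e).card : ℝ) = j at *
    generalize adj2 G 𝒟 h W2 Sk = A at *
    generalize (if t < 𝒟.a then 0 else (1 + η) * rho D M pt t * phia M pt D η 𝒟 t) = dp at *
    have k1 : A * c1 * (2 * rho D M pt t * XA M pt D η Z t)
        ≤ A * c1 * (XA M pt D η Z (t + 1) - XA M pt D η Z t) := by
      apply mul_le_mul_of_nonneg_left _ (mul_nonneg hA0 hc1)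
      have : 0 ≤ η * rho D M pt t * XA M pt D η Z t := by positivity
      linarith
    have k2 : c2 * qq * Z * (2 * (1 + η) * rho D M pt t * XA M pt D η Z t)
        ≤ c2 * qq * Z * (XA M pt D η Z (t + 1) - XA M pt D η Z t) :=
      mul_le_mul_of_nonneg_left i1 (by positivity)
    have k3 : j * (qq * Z ^ 3 / D * dp)
        ≤ j * (qq * Z ^ 3 / D * (phia M pt D η 𝒟 (t + 1) - phia M pt D η 𝒟 t)) := by
      gcongr
    have k4 : A * (10 * Z ^ 3 * pt t / M * g2 M pt D η Z (d + 1) t)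
        ≤ g2 M pt D η Z (d + 1) t * (10 * Z ^ 4 * pt t / M) := by
      calc _ ≤ Z * (10 * Z ^ 3 * pt t / M * g2 M pt D η Z (d + 1) t) := by gcongr; linarith
        _ = _ := by ring
    have e1 : A * c1 * XA M pt D η Z (t + 1) + c2 * qq * Z * XA M pt D η Z (t + 1)
          + j * (A * (lamt M pt t + pt t ^ 2 / M) + qq * Z ^ 3 * phia M pt D η 𝒟 (t + 1) / D)
          + g2 M pt D η Z (d + 1) (t + 1)
        - (A * c1 * XA M pt D η Z t + c2 * qq * Z * XA M pt D η Z t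
          + j * (A * lamt M pt t + qq * Z ^ 3 * phia M pt D η 𝒟 t / D) + g2 M pt D η Z (d + 1) t)
        = A * c1 * (XA M pt D η Z (t + 1) - XA M pt D η Z t)
          + c2 * qq * Z * (XA M pt D η Z (t + 1) - XA M pt D η Z t)
          + j * (qq * Z ^ 3 / D * (phia M pt D η 𝒟 (t + 1) - phia M pt D η 𝒟 t))
          + A * (j * (pt t ^ 2 / M))
          + (g2 M pt D η Z (d + 1) (t + 1) - g2 M pt D η Z (d + 1) t) := by ring
    rw [e1]
    have e2 : A * (c1 * (2 * rho D M pt t * XA M pt D η Z t)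
          + 10 * Z ^ 3 * pt t / M * g2 M pt D η Z (d + 1) t + j * (pt t ^ 2 / M))
        = A * c1 * (2 * rho D M pt t * XA M pt D η Z t)
          + A * (10 * Z ^ 3 * pt t / M * g2 M pt D η Z (d + 1) t) + A * (j * (pt t ^ 2 / M)) := by
      ring
    rw [e2] at hold
    have e3 : g2 M pt D η Z (d + 1) t * (4 * rho D M pt t + 10 * Z ^ 4 * pt t / M)
        = 4 * rho D M pt t * g2 M pt D η Z (d + 1) t
          + g2 M pt D η Z (d + 1) t * (10 * Z ^ 4 * pt t / M) := by ring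
    rw [e3] at i2
    linarith

/-- value of a start state -/
theorem U2_start (hN : NumOK G M pt D qq η Z L) (h𝒟 : 𝒟.OK G L) {h W2 Sk : Finset V}
    (hS : St2OK G 𝒟 h W2 Sk True) {u : ℕ} (hu : u ≤ M) :
    U2 G M pt D qq η Z 𝒟 L h W2 Sk True u
      ≤ adj2 G 𝒟 h W2 Sk * (182 * Z ^ 8 / D) + (720 * qq * Z ^ 9 / D + 6 * Z ^ 2 * D ^ 2 / 2 ^ L)
        + qq * Z ^ 3 / D * (((h ∩ 𝒟.e).card : ℝ) * Phi D M pt η (max u 𝒟.a) / Phi D M pt η 𝒟.a) := by
  obtain ⟨hO, hw, -⟩ := hS.start trivial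
  have hk : (h ∩ 𝒟.O).card = 2 := by rw [inter_eq_left.2 hO, hS.edge.card]
  have hj : h ∩ insert 𝒟.w 𝒟.e = h ∩ 𝒟.e := inter_insert_of_notMem hw
  have hj2 : ((h ∩ 𝒟.e).card : ℝ) ≤ 2 := by
    have : (h ∩ 𝒟.e).card ≤ 2 := hS.edge.card ▸ card_le_card inter_subset_left
    exact_mod_cast this
  have hj0 : (0 : ℝ) ≤ ((h ∩ 𝒟.e).card : ℝ) := Nat.cast_nonneg _
  unfold U2
  rw [if_neg (fun hh => hh.2 trivial), hk, hj, if_neg two_ne_zero, if_neg two_ne_zero]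
  have hA0 := G2A.adj2_nn (G := G) (𝒟 := 𝒟) h W2 Sk
  have hZ := G2A.Z_pos hN
  have hZ1 := hN.Z_ge
  have hD := G2A.D_pos hN
  have hq0 := hN.qq_nn
  have hΦ := hN.Phi_sq_le hu
  have hl := G2A.lamt_le hN hu
  have hl0 := G2A.lamt_nn hN u
  have hX : XA M pt D η Z u ≤ 180 * Z ^ 8 / D := by
    unfold XA
    calc 180 * Z ^ 7 * Phi D M pt η u ^ 2 / D ^ 2 ≤ 180 * Z ^ 7 * (Z * D) / D ^ 2 := by gcongr
      _ = _ := by field_simp
  have hg : g2 M pt D η Z L u ≤ 6 * Z ^ 2 * D ^ 2 / 2 ^ L := by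
    unfold g2
    have hE := G2A.Ee_le hN hu
    have hE1 := G2A.one_le_Ee hN u
    calc 2 * Phi D M pt η u ^ 4 * Ee M pt Z u / 2 ^ L
        = 2 * (Phi D M pt η u ^ 2) ^ 2 * Ee M pt Z u / 2 ^ L := by ring
      _ ≤ 2 * (Z * D) ^ 2 * 3 / 2 ^ L := by gcongr
      _ = _ := by ring
  have hl2 : lamt M pt u ≤ Z ^ 8 / D := by
    refine hl.trans (div_le_div_of_nonneg_right ?_ hD.le)
    exact le_self_pow₀ (by linarith) (by norm_num)
  unfold phia
  generalize ((h ∩ 𝒟.e).card : ℝ) = j at *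
  generalize adj2 G 𝒟 h W2 Sk = A at *
  have k1 : A * 1 * XA M pt D η Z u ≤ A * 1 * (180 * Z ^ 8 / D) := by gcongr
  have k2 : ((2 : ℕ) + 2 : ℝ) * qq * Z * XA M pt D η Z u
      ≤ ((2 : ℕ) + 2 : ℝ) * qq * Z * (180 * Z ^ 8 / D) := by gcongr
  have k3 : j * (A * lamt M pt u) ≤ 2 * (A * (Z ^ 8 / D)) := by gcongr
  calc _ = A * 1 * XA M pt D η Z u + ((2 : ℕ) + 2 : ℝ) * qq * Z * XA M pt D η Z u
        + j * (A * lamt M pt u) + g2 M pt D η Z L u
        + qq * Z ^ 3 / D * (j * Phi D M pt η (max u 𝒟.a) / Phi D M pt η 𝒟.a) := by ring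
    _ ≤ A * 1 * (180 * Z ^ 8 / D) + ((2 : ℕ) + 2 : ℝ) * qq * Z * (180 * Z ^ 8 / D)
        + 2 * (A * (Z ^ 8 / D)) + 6 * Z ^ 2 * D ^ 2 / 2 ^ L
        + qq * Z ^ 3 / D * (j * Phi D M pt η (max u 𝒟.a) / Phi D M pt η 𝒟.a) := by linarith
    _ = _ := by push_cast; ring

end Crest.Agent.R030
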