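import Crest.Agent.R030.G2Defs

/-! # Row 30: numerical facts on the value function of the second particle -/

set_option autoImplicit false
set_option linter.unusedSectionVars false

namespace Crest.Agent.R030
open Finset
open scoped Classical

variable {V : Type} [Fintype V] [DecidableEq V] {G : SimpleGraph V} {M : ℕ}
variable {pt : ℕ → ℝ} {D qq η Z : ℝ} {L : ℕ} {𝒟 : D2 V}

namespace G2A

theorem Ee_succ (t : ℕ) : Ee M pt Z (t + 1) = Ee M pt Z t * (1 + 10 * Z ^ 4 * pt t / M) := by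
  unfold Ee; rw [prod_range_succ]

section
variable (hN : NumOK G M pt D qq η Z L)
include hN

theorem Z_pos : 0 < Z := by have := hN.Z_ge; linarith

theorem D_pos : 0 < D := by have := hN.D_ge; linarith

theorem L_le : (L : ℝ) + 1 ≤ Z / 8 := by have := hN.L_Z; linarith

theorem e_nn (t : ℕ) : 0 ≤ 10 * Z ^ 4 * pt t / M := by
  have := hN.pt_nn t
  have := Z_pos hN
  positivity

theorem one_le_Ee (t : ℕ) : 1 ≤ Ee M pt Z t := by
  induction t with
  | zero => simp [Ee]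
  | succ t ih =>
    rw [Ee_succ]
    have := e_nn hN t
    nlinarith

theorem Ee_le {t : ℕ} (ht : t ≤ M) : Ee M pt Z t ≤ 3 := by
  have hZ := Z_pos hN
  have hZ1 := hN.Z_ge
  have h1 : Ee M pt Z t ≤ Real.exp (∑ s ∈ range t, 10 * Z ^ 4 * pt s / M) :=
    Real.prod_one_add_le_exp_sum _ (fun s => e_nn hN s)
  have h2 : ∑ s ∈ range t, 10 * Z ^ 4 * pt s / M ≤ 1 := by
    have h3 : ∑ s ∈ range t, 10 * Z ^ 4 * pt s / M = 10 * Z ^ 4 * ∑ s ∈ range t, pt s / M := by
      rw [mul_sum]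
      exact sum_congr rfl fun s _ => by ring
    have h4 : ∑ s ∈ range t, pt s / M ≤ ∑ s ∈ range M, pt s / M :=
      sum_le_sum_of_subset_of_nonneg (range_subset_range.2 ht) fun s _ _ => by
        have := hN.pt_nn s
        positivity
    have h5 := hN.pi
    have h6 := hN.sqrtD
    have h7 : 0 < 1000 * Z ^ 6 := by positivity
    have h8 : Z / Real.sqrt D ≤ Z / (1000 * Z ^ 6) := div_le_div_of_nonneg_left hZ.le h7 h6
    rw [h3]
    calc 10 * Z ^ 4 * ∑ s ∈ range t, pt s / M ≤ 10 * Z ^ 4 * (Z / (1000 * Z ^ 6)) := by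
          gcongr
          linarith
      _ = 1 / (100 * Z) := by field_simp; ring
      _ ≤ 1 := by
          rw [div_le_one (by positivity)]
          linarith
  exact h1.trans ((Real.exp_le_exp.2 h2).trans Real.exp_one_lt_three.le)

theorem bet_nn (t : ℕ) : 0 ≤ bet M pt D η Z t := by
  have := Z_pos hN
  have := D_pos hN
  have := hN.Phi_pos t
  have := one_le_Ee hN t
  unfold bet; positivity

theorem XA_nn (t : ℕ) : 0 ≤ XA M pt D η Z t := by
  have := Z_pos hN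
  unfold XA; positivity

theorem lamt_nn (t : ℕ) : 0 ≤ lamt M pt t := by
  unfold lamt; positivity

theorem lamt_le {t : ℕ} (ht : t ≤ M) : lamt M pt t ≤ Z / D := by
  refine le_trans ?_ hN.lam
  exact sum_le_sum_of_subset_of_nonneg (range_subset_range.2 ht) fun s _ _ => by positivity

theorem one_le_phia (t : ℕ) : 1 ≤ phia M pt D η 𝒟 t := by
  unfold phia
  rw [le_div_iff₀ (hN.Phi_pos _), one_mul]
  exact hN.Phi_mono (le_max_right _ _)

theorem phia_le (t : ℕ) : phia M pt D η 𝒟 t ≤ Phi D M pt η t := by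
  unfold phia
  rw [div_le_iff₀ (hN.Phi_pos _)]
  rcases le_total t 𝒟.a with h | h
  · rw [max_eq_right h]
    have := hN.one_le_Phi t
    have := hN.Phi_pos 𝒟.a
    nlinarith
  · rw [max_eq_left h]
    have := hN.one_le_Phi 𝒟.a
    have := hN.Phi_pos t
    nlinarith

theorem phia_incr (t : ℕ) :
    (if t < 𝒟.a then 0 else (1 + η) * rho D M pt t * phia M pt D η 𝒟 t)
      ≤ phia M pt D η 𝒟 (t + 1) - phia M pt D η 𝒟 t := by
  unfold phia
  split_ifs with h
  · rw [max_eq_right h.le, max_eq_right (Nat.succ_le_of_lt h), sub_self]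
  · push Not at h
    rw [max_eq_left h, max_eq_left (h.trans (Nat.le_succ t)), hN.Phi_succ]
    apply le_of_eq
    ring

theorem g2_nn (d t : ℕ) : 0 ≤ g2 M pt D η Z d t := by
  have := one_le_Ee hN t
  unfold g2; positivity

omit hN in
theorem g2_succ (d t : ℕ) : g2 M pt D η Z d t = 2 * g2 M pt D η Z (d + 1) t := by
  unfold g2; rw [pow_succ (2 : ℝ) d]; field_simp

theorem bet_incr (t : ℕ) :
    bet M pt D η Z t * (rho D M pt t + 10 * Z ^ 4 * pt t / M)
      ≤ bet M pt D η Z (t + 1) - bet M pt D η Z t := by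
  have h1 : bet M pt D η Z (t + 1) = bet M pt D η Z t *
      ((1 + (1 + η) * rho D M pt t) * (1 + 10 * Z ^ 4 * pt t / M)) := by
    unfold bet; rw [hN.Phi_succ, Ee_succ]; ring
  have h2 := bet_nn hN t
  have h3 := hN.rho_nn t
  have h4 := e_nn hN t
  have h5 := hN.eta_pos
  rw [h1]
  generalize bet M pt D η Z t = b at *
  generalize rho D M pt t = r at *
  generalize 10 * Z ^ 4 * pt t / M = e at *
  have h6 : 1 + r + e ≤ (1 + (1 + η) * r) * (1 + e) := by
    have : 0 ≤ η * r := by positivity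
    have : 0 ≤ r * e := by positivity
    have : 0 ≤ η * r * e := by positivity
    nlinarith
  nlinarith [mul_le_mul_of_nonneg_left h6 h2]

theorem g2_incr (d t : ℕ) :
    g2 M pt D η Z d t * (4 * rho D M pt t + 10 * Z ^ 4 * pt t / M)
      ≤ g2 M pt D η Z d (t + 1) - g2 M pt D η Z d t := by
  have h1 : g2 M pt D η Z d (t + 1) = g2 M pt D η Z d t *
      ((1 + (1 + η) * rho D M pt t) ^ 4 * (1 + 10 * Z ^ 4 * pt t / M)) := by
    unfold g2; rw [hN.Phi_succ, Ee_succ]; ring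
  have h2 := g2_nn hN d t
  have h3 := hN.rho_nn t
  have h4 := e_nn hN t
  have h5 := hN.eta_pos
  rw [h1]
  generalize g2 M pt D η Z d t = b at *
  generalize rho D M pt t = r at *
  generalize 10 * Z ^ 4 * pt t / M = e at *
  have h7 : 0 ≤ η * r := by positivity
  have h8 : 1 + 4 * r ≤ (1 + (1 + η) * r) ^ 4 := by
    have := one_add_mul_le_pow (a := (1 + η) * r) (by nlinarith) 4
    push_cast at this
    nlinarith
  have h6 : 1 + 4 * r + e ≤ (1 + (1 + η) * r) ^ 4 * (1 + e) := by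
    have : (1 + 4 * r) * (1 + e) ≤ (1 + (1 + η) * r) ^ 4 * (1 + e) :=
      mul_le_mul_of_nonneg_right h8 (by linarith)
    have : 0 ≤ r * e := by positivity
    nlinarith
  nlinarith [mul_le_mul_of_nonneg_left h6 h2]

theorem XA_incr (t : ℕ) :
    2 * (1 + η) * rho D M pt t * XA M pt D η Z t ≤ XA M pt D η Z (t + 1) - XA M pt D η Z t := by
  have h := hN.Phi_pow_incr 2 t
  have hZ := Z_pos hN
  have hD := D_pos hN
  have hc : 0 ≤ 180 * Z ^ 7 / D ^ 2 := by positivity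
  have := mul_le_mul_of_nonneg_left h hc
  unfold XA
  push_cast at this
  calc 2 * (1 + η) * rho D M pt t * (180 * Z ^ 7 * Phi D M pt η t ^ 2 / D ^ 2)
      = 180 * Z ^ 7 / D ^ 2 * (2 * (1 + η) * rho D M pt t * Phi D M pt η t ^ 2) := by ring
    _ ≤ _ := this
    _ = _ := by ring

omit hN in
theorem lamt_succ (t : ℕ) : lamt M pt (t + 1) = lamt M pt t + pt t ^ 2 / M := by
  unfold lamt; rw [sum_range_succ]

theorem one_le_mult (h : Finset V) (t : ℕ) : 1 ≤ mult M Z 𝒟 h t := by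
  unfold mult
  split_ifs
  · have : (0 : ℝ) ≤ ((𝒟.J.filter fun T => 𝒟.s T < t).card : ℝ) := by positivity
    linarith
  · linarith
  · have : (0 : ℝ) ≤ 4 * Z ^ 2 * t / M := by positivity
    linarith

omit hN in
theorem mult_H1_le (h𝒟 : 𝒟.OK G L) {h : Finset V} (hh : h ∈ 𝒟.H1) (t : ℕ) :
    mult M Z 𝒟 h t ≤ 1 + 2 * L := by
  unfold mult
  rw [if_pos hh]
  have h1 : ((𝒟.J.filter fun T => 𝒟.s T < t).card : ℝ) ≤ L := by
    exact_mod_cast (card_filter_le _ _).trans h𝒟.cardJ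
  have h2 : (0 : ℝ) ≤ L := by positivity
  split_ifs <;> linarith

theorem mult_le (h𝒟 : 𝒟.OK G L) (h : Finset V) {t : ℕ} (ht : t ≤ M) :
    mult M Z 𝒟 h t ≤ 5 * Z ^ 2 := by
  have hZ := hN.Z_ge
  by_cases hh : h ∈ 𝒟.H1
  · have := mult_H1_le (M := M) (Z := Z) h𝒟 hh t
    have := L_le hN
    nlinarith
  · unfold mult
    rw [if_neg hh]
    have h1 : (t : ℝ) / M ≤ 1 := by
      rw [div_le_one hN.Mpos']; exact_mod_cast ht
    have h2 : 4 * Z ^ 2 * t / M = 4 * Z ^ 2 * (t / M) := by ring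
    have h3 : 4 * Z ^ 2 * (t / M) ≤ 4 * Z ^ 2 * 1 := by gcongr
    nlinarith

omit hN in
theorem lowJ_succ {J : Finset (Finset V)} {s : Finset V → ℕ} {f : Finset V} {t : ℕ}
    (h : lowJ J s f t) : lowJ J s f (t + 1) := by
  obtain ⟨T, h1, h2, h3⟩ := h
  exact ⟨T, h1, h2, Nat.lt_succ_of_lt h3⟩

theorem mult_mono (h : Finset V) (t : ℕ) : mult M Z 𝒟 h t ≤ mult M Z 𝒟 h (t + 1) := by
  unfold mult
  by_cases hh : h ∈ 𝒟.H1
  · rw [if_pos hh, if_pos hh]
    have h1 : ((𝒟.J.filter fun T => 𝒟.s T < t).card : ℝ)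
        ≤ ((𝒟.J.filter fun T => 𝒟.s T < t + 1).card : ℝ) := by
      exact_mod_cast card_le_card (monotone_filter_right _ fun T _ hT => Nat.lt_succ_of_lt hT)
    by_cases hl : lowJ 𝒟.J 𝒟.s h t
    · rw [if_pos hl, if_pos (lowJ_succ hl)]; linarith
    · rw [if_neg hl]
      split_ifs
      · have : (0 : ℝ) ≤ ((𝒟.J.filter fun T => 𝒟.s T < t + 1).card : ℝ) := by positivity
        linarith
      · exact le_rfl
  · rw [if_neg hh, if_neg hh]
    have := hN.Mpos'
    push_cast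
    gcongr
    linarith

omit hN in
theorem adj2_nn (h W2 Sk : Finset V) : 0 ≤ adj2 G 𝒟 h W2 Sk := by unfold adj2; positivity

omit hN in
theorem adj2_le (h𝒟 : 𝒟.OK G L) {h W2 Sk : Finset V} (hW : 𝒟.W0 ⊆ W2) :
    adj2 G 𝒟 h W2 Sk ≤ L + 1 := by
  unfold adj2
  have : ((cn G h ∩ 𝒟.O) \ (W2 ∪ Sk)).card ≤ L + 1 := by
    refine le_trans (card_le_card ?_) h𝒟.cardO
    intro x hx
    simp only [mem_sdiff, mem_inter, mem_union, not_or] at hx ⊢
    exact ⟨hx.1.2, fun h0 => hx.2.1 (hW h0)⟩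
  exact_mod_cast this

/-- `Z X` is small compared with `β` -/
theorem ZX_le {t : ℕ} (ht : t ≤ M) :
    4 * Z * XA M pt D η Z t ≤ Z ^ 3 * Phi D M pt η t / D := by
  have hZ := hN.Z_ge
  have hZ0 := Z_pos hN
  have hD := D_pos hN
  have hΦ := hN.Phi_pos t
  have h1 : 720 * Z ^ 5 * Phi D M pt η t ≤ D := by
    have h2 := hN.Phi_sq_le ht
    have h3 := hN.big
    apply (pow_le_pow_iff_left₀ (by positivity) hD.le two_ne_zero).1
    have h4 : 720 ^ 2 * Z ^ 11 ≤ D := by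
      have : Z ^ 11 ≤ Z ^ 12 := pow_le_pow_right₀ (by linarith) (by norm_num)
      have : 0 ≤ Z ^ 12 := by positivity
      nlinarith
    calc (720 * Z ^ 5 * Phi D M pt η t) ^ 2 = 720 ^ 2 * Z ^ 10 * Phi D M pt η t ^ 2 := by ring
      _ ≤ 720 ^ 2 * Z ^ 10 * (Z * D) := by gcongr
      _ = (720 ^ 2 * Z ^ 11) * D := by ring
      _ ≤ D * D := by gcongr
      _ = D ^ 2 := by ring
  unfold XA
  calc 4 * Z * (180 * Z ^ 7 * Phi D M pt η t ^ 2 / D ^ 2)
      = (Z ^ 3 * Phi D M pt η t / D) * ((720 * Z ^ 5 * Phi D M pt η t) / D) := by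
        field_simp; ring
    _ ≤ (Z ^ 3 * Phi D M pt η t / D) * 1 := by
        gcongr
        rw [div_le_one hD]; exact h1
    _ = _ := mul_one _

/-- a non-start state with at most one endpoint in `O` -/
theorem U2_one_le (h𝒟 : 𝒟.OK G L) (d : ℕ) {h W2 : Finset V} (hc : h.card = 2) (hO : ¬ h ⊆ 𝒟.O)
    (hW : 𝒟.W0 ⊆ W2) {t : ℕ} (ht : t ≤ M) :
    U2 G M pt D qq η Z 𝒟 d h W2 ∅ False t ≤ bet M pt D η Z t / 4 + g2 M pt D η Z d t := by
  unfold U2
  rw [if_neg (fun hh => hO hh.1)]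
  have hk : (h ∩ 𝒟.O).card ≤ 1 := by
    have : (h ∩ 𝒟.O).card < h.card :=
      card_lt_card ⟨inter_subset_left, fun hh => hO fun x hx => (mem_inter.1 (hh hx)).2⟩
    omega
  have hj : ((h ∩ insert 𝒟.w 𝒟.e).card : ℝ) ≤ 1 := by
    have : (h ∩ insert 𝒟.w 𝒟.e).card ≤ (h ∩ 𝒟.O).card :=
      card_le_card (inter_subset_inter_left h𝒟.TO)
    exact_mod_cast this.trans hk
  have hk' : ((h ∩ 𝒟.O).card : ℝ) ≤ 1 := by exact_mod_cast hk
  have hc1 : (if (h ∩ 𝒟.O).card = 0 then η else 1) ≤ 1 := by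
    split_ifs
    · exact hN.eta_le
    · exact le_rfl
  have hc1' : 0 ≤ (if (h ∩ 𝒟.O).card = 0 then η else 1) := by
    split_ifs
    · exact hN.eta_pos.le
    · exact zero_le_one
  have hc2 : (if (h ∩ 𝒟.O).card = 0 then 1 else ((h ∩ 𝒟.O).card : ℝ) + 2) ≤ 3 := by
    split_ifs <;> linarith
  have hc2' : 0 ≤ (if (h ∩ 𝒟.O).card = 0 then 1 else ((h ∩ 𝒟.O).card : ℝ) + 2) := by
    by_cases h0 : (h ∩ 𝒟.O).card = 0
    · rw [if_pos h0]; exact zero_le_one
    · rw [if_neg h0]; exact add_nonneg (Nat.cast_nonneg _) zero_le_two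
  have hA := adj2_le (G := G) (h := h) (Sk := ∅) h𝒟 hW
  have hA0 := adj2_nn (G := G) (𝒟 := 𝒟) h W2 ∅
  have hL := L_le hN
  have hX := XA_nn hN t
  have hZX := ZX_le hN ht
  have hl := lamt_le hN ht
  have hl0 := lamt_nn hN t
  have hp := phia_le (𝒟 := 𝒟) hN t
  have hp0 := one_le_phia (𝒟 := 𝒟) hN t
  have hZ := hN.Z_ge
  have hZ0 := Z_pos hN
  have hD := D_pos hN
  have hΦ := hN.one_le_Phi t
  have hE := one_le_Ee hN t
  have hq0 := hN.qq_nn
  have hq1 := hN.qq_le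
  have hb : 3 * (Z ^ 3 * Phi D M pt η t / D) ≤ bet M pt D η Z t / 4 := by
    unfold bet
    have h0 : 0 ≤ Z ^ 3 * Phi D M pt η t / D := by positivity
    have : 12 * Z ^ 3 * Phi D M pt η t * Ee M pt Z t / D / 4
        = 3 * (Z ^ 3 * Phi D M pt η t / D) * Ee M pt Z t := by ring
    rw [this]
    nlinarith
  generalize (if (h ∩ 𝒟.O).card = 0 then η else 1) = c1 at *
  generalize (if (h ∩ 𝒟.O).card = 0 then 1 else ((h ∩ 𝒟.O).card : ℝ) + 2) = c2 at *
  have hj0 : (0 : ℝ) ≤ ((h ∩ insert 𝒟.w 𝒟.e).card : ℝ) := Nat.cast_nonneg _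
  generalize ((h ∩ insert 𝒟.w 𝒟.e).card : ℝ) = j at *
  generalize adj2 G 𝒟 h W2 ∅ = A at *
  generalize XA M pt D η Z t = X at *
  generalize lamt M pt t = l at *
  generalize phia M pt D η 𝒟 t = p at *
  generalize Phi D M pt η t = Φ at *
  have hAZ : A ≤ Z := by linarith
  have t1 : A * c1 * X ≤ Z * 1 * X := by gcongr
  have t2 : c2 * qq * Z * X ≤ 3 * 1 * Z * X := by gcongr
  have t3 : A * l ≤ Z ^ 3 * Φ / D := by
    calc A * l ≤ Z * (Z / D) := by gcongr
      _ = Z ^ 2 * 1 * 1 / D := by ring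
      _ ≤ Z ^ 2 * Z * Φ / D := by gcongr; linarith
      _ = _ := by ring
  have t4 : qq * Z ^ 3 * p / D ≤ Z ^ 3 * Φ / D := by
    calc qq * Z ^ 3 * p / D ≤ 1 * Z ^ 3 * Φ / D := by gcongr
      _ = _ := by ring
  have t5 : j * (A * l + qq * Z ^ 3 * p / D) ≤ 1 * (Z ^ 3 * Φ / D + Z ^ 3 * Φ / D) := by
    gcongr
  linarith

/-- every state reached by a step -/
theorem U2_le5 (h𝒟 : 𝒟.OK G L) (d : ℕ) {h W2 : Finset V} (hc : h.card = 2)
    (hW : 𝒟.W0 ⊆ W2) {t : ℕ} (ht : t ≤ M) :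
    U2 G M pt D qq η Z 𝒟 d h W2 ∅ False t
      ≤ 5 * Z ^ 2 * (bet M pt D η Z t + g2 M pt D η Z d t) := by
  have hb := bet_nn hN t
  have hg := g2_nn hN d t
  have hZ := hN.Z_ge
  by_cases hO : h ⊆ 𝒟.O
  · unfold U2
    rw [if_pos ⟨hO, not_false⟩]
    exact mul_le_mul_of_nonneg_right (mult_le hN h𝒟 h ht) (by linarith)
  · refine (U2_one_le hN h𝒟 d hc hO hW ht).trans ?_
    have : 1 * (bet M pt D η Z t + g2 M pt D η Z d t)
        ≤ 5 * Z ^ 2 * (bet M pt D η Z t + g2 M pt D η Z d t) := by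
      gcongr; nlinarith
    linarith

end

end G2A

end Crest.Agent.R030
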