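import Crest.Agent.R030.Stab

/-! # Row 30: numerical hypotheses of the late phase

Parameters for `window` (with `δ = 1/1000`, `D0 = n p0²`, `M = n^10`, `p = pseq D0 M`):
`D = D0 (1 + n^(-1/4))`, `qq = p0` (indeed `qq D = D3 (1 + n^(-1/4))`), `pb t = (1 + n^(-1/6)) p t`,
`Z = n^(δ/100)`, `η = δ/1000`, `y0 = 1000/δ`, `om = y0/(y0+5)`, `L = 10 (Nat.log 2 n + 1)`,
`lam = n^(-9/10)`, `m = (8L+10) y0 + 1`, `Y0 = om^(-top) · (2 y0 + 1 + m + (m+1)(y0+5)/5)`.
`NumOK` for a weight `pt = pb · ν` with `1 ≤ ν ≤ exp (5 + y0)` and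
`∑_{t<M} ρ₀ t (ν t ^ 2 - 1) ≤ C(y0)` (each window has `∑ ρ₀ ≤ 2`, `exp (2y) - 1 ≤ 2 y exp (2 y0)`, geometric series in `om`):
`Φ t · p t ≥ 1` since `(1 + (1+η) ρ)(1 - ρ₀) ≥ 1`; `Φ M ≤ exp ((1+η) ∑ ρ)`, `∑ ρ ≤ (1+o(1)) (log (1+3 D0)/2 + C)`;
`Φ² ≥ p⁻² ≥ 2 D0 t/M ≥ D t/M`.
-/

set_option autoImplicit false
set_option linter.unusedSectionVars false

namespace Crest.Agent.R030
open Finset Filter
open scoped Classical

theorem numev_Phi_p {D0 D η : ℝ} {M : ℕ} {pt : ℕ → ℝ} (hD : 1 ≤ D0) (hM : 10 * D0 ≤ M)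
    (hη : 0 < η) (hη1 : η ≤ 1) (hDD : D0 ≤ D) (hsmall : 2 * D0 ≤ η * M)
    (hpt : ∀ t, pseq D0 M t ≤ pt t) (t : ℕ) : 1 ≤ Phi D M pt η t * pseq D0 M t := by
  have hMp : (0 : ℝ) < M := by linarith
  induction t with
  | zero => simp [Phi, pseq]
  | succ t ih =>
    have h0 := pseq_pos hD hM t
    have h1 := pseq_le_one hD hM t
    have e : Phi D M pt η (t + 1) * pseq D0 M (t + 1) = (Phi D M pt η t * pseq D0 M t) *
        ((1 + (1 + η) * rho D M pt t) * (1 - D0 * pseq D0 M t ^ 2 / M)) := by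
      unfold Phi
      rw [prod_range_succ, pseq]
      ring
    rw [e]
    set r := D0 * pseq D0 M t ^ 2 / M with hr
    have hr0 : 0 ≤ r := by positivity
    have hr1 : r ≤ η / 2 := by
      rw [hr, div_le_iff₀ hMp]
      have : pseq D0 M t ^ 2 ≤ 1 := pow_le_one₀ h0.le h1
      nlinarith
    have hr2 : r ≤ rho D M pt t := by
      unfold rho
      rw [hr]
      have := hpt t
      have hD' : 0 ≤ D := by linarith
      gcongr
    have h3 : 1 ≤ (1 + (1 + η) * r) * (1 - r) := by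
      have : (1 + η) * r ≤ η := by nlinarith
      nlinarith
    have h4 : (1 + (1 + η) * r) * (1 - r) ≤ (1 + (1 + η) * rho D M pt t) * (1 - r) := by
      have : 0 ≤ 1 - r := by linarith
      gcongr
    nlinarith

theorem numev_Phi_le {D η : ℝ} {M : ℕ} {pt : ℕ → ℝ} (hD : 0 ≤ D) (hη : 0 ≤ η) (t : ℕ) :
    Phi D M pt η t ≤ Real.exp ((1 + η) * ∑ s ∈ range t, rho D M pt s) := by
  unfold Phi
  rw [mul_sum, Real.exp_sum]
  refine prod_le_prod (fun s _ => ?_) fun s _ => ?_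
  · unfold rho; positivity
  · linarith [Real.add_one_le_exp ((1 + η) * rho D M pt s)]

theorem numev_rpow_small (a b : ℝ) (ha : 0 < a) (hb : 0 < b) :
    ∀ᶠ n : ℕ in atTop, (n : ℝ) ^ (-a) ≤ b :=
  (((tendsto_rpow_neg_atTop ha).comp tendsto_natCast_atTop_atTop).eventually
    (ge_mem_nhds hb))

theorem numev_log_le (K a : ℝ) (ha : 0 < a) :
    ∀ᶠ n : ℕ in atTop, K * Real.log n ≤ (n : ℝ) ^ a := by
  have h := (isLittleO_log_rpow_atTop ha).const_mul_left K
  have h2 := tendsto_natCast_atTop_atTop.eventually (h.bound one_pos)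
  filter_upwards [h2] with n hn
  rw [one_mul, Real.norm_eq_abs, Real.norm_eq_abs,
    abs_of_nonneg (Real.rpow_nonneg (Nat.cast_nonneg n) a)] at hn
  exact (le_abs_self _).trans hn

theorem numev_log_ge (K : ℝ) : ∀ᶠ n : ℕ in atTop, K ≤ Real.log n :=
  (Real.tendsto_log_atTop.comp tendsto_natCast_atTop_atTop).eventually_ge_atTop K

set_option maxHeartbeats 2000000 in
/-- `NumOK` from a pointwise and a summed bound on the multiplier `ν` -/
theorem numOK_ev (C : ℝ) : ∀ᶠ n : ℕ in atTop, ∀ (p0 : ℝ) (G : SimpleGraph (Fin n)) (ν : ℕ → ℝ),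
    (n : ℝ) ^ (-(1 / 1000 : ℝ)) ≤ p0 → p0 ≤ 2 * (n : ℝ) ^ (-(1 / 1000 : ℝ)) →
    PR G (n * p0 ^ 2) (n * p0 ^ 3) ((n : ℝ) ^ (-(1 / 4 : ℝ))) →
    (∀ t, 1 ≤ ν t ∧ ν t ≤ C) →
    ∑ t ∈ range (n ^ 10), n * p0 ^ 2 * pseq (n * p0 ^ 2) (n ^ 10) t ^ 2 / (n ^ 10 : ℕ) * (ν t ^ 2 - 1) ≤ C →
    NumOK G (n ^ 10)
      (fun t => (1 + (n : ℝ) ^ (-(1 / 6 : ℝ))) * pseq (n * p0 ^ 2) (n ^ 10) t * ν t)
      (n * p0 ^ 2 * (1 + (n : ℝ) ^ (-(1 / 4 : ℝ)))) p0 (1 / 1000000) ((n : ℝ) ^ (1 / 100000 : ℝ))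
      (10 * (Nat.log 2 n + 1)) := by
  filter_upwards [stab_ev, numev_rpow_small (1 / 1000) (1 / 2) (by norm_num) (by norm_num),
    numev_rpow_small (1 / 4) (1 / 10 ^ 7) (by norm_num) (by norm_num),
    numev_rpow_small (1 / 6) (1 / 10 ^ 7) (by norm_num) (by norm_num),
    numev_log_le (10 ^ 6 + 8 * |C|) (1 / 100000) (by norm_num),
    numev_log_ge (10 ^ 6 + 10 ^ 6 * |C|), eventually_ge_atTop (10 ^ 7)]
    with n hst h1000 h4 h6 hlogZ hlog hn p0 G ν hp0 hp1 hPR hν hsum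
  have hC : 1 ≤ C := (hν 0).1.trans (hν 0).2
  rw [abs_of_nonneg (by linarith : (0 : ℝ) ≤ C)] at hlogZ hlog
  have hx : (10 : ℝ) ^ 7 ≤ n := by exact_mod_cast hn
  have hx0 : (0 : ℝ) < n := by linarith
  have hx1 : (1 : ℝ) ≤ n := by linarith
  have hst' := hst p0 G hp0 hp1 hPR
  have he4 : 0 ≤ (n : ℝ) ^ (-(1 / 4 : ℝ)) := Real.rpow_nonneg hx0.le _
  have he6 : 0 ≤ (n : ℝ) ^ (-(1 / 6 : ℝ)) := Real.rpow_nonneg hx0.le _
  have hp0pos : 0 < p0 := lt_of_lt_of_le (Real.rpow_pos_of_pos hx0 _) hp0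
  have hp01 : p0 ≤ 1 := by linarith
  have hlogZ' : Real.log ((n : ℝ) ^ (1 / 100000 : ℝ)) = 1 / 100000 * Real.log n :=
    Real.log_rpow hx0 _
  have hZ13 : ((n : ℝ) ^ (1 / 100000 : ℝ)) ^ 13 ≤ n * p0 ^ 2 := by
    calc ((n : ℝ) ^ (1 / 100000 : ℝ)) ^ 13 = (n : ℝ) ^ (13 / 100000 : ℝ) := by
          rw [← Real.rpow_natCast, ← Real.rpow_mul hx0.le]; norm_num
      _ ≤ (n : ℝ) ^ (998 / 1000 : ℝ) := Real.rpow_le_rpow_of_exponent_le hx1 (by norm_num)
      _ = n * ((n : ℝ) ^ (-(1 / 1000 : ℝ))) ^ 2 := by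
          rw [← Real.rpow_natCast, ← Real.rpow_mul hx0.le, ← Real.rpow_one_add' hx0.le
            (by norm_num)]
          norm_num
      _ ≤ n * p0 ^ 2 := by
          have := Real.rpow_nonneg hx0.le (-(1 / 1000 : ℝ))
          gcongr
  have hpinv : 1 ≤ p0 * n := by
    have h1 : (n : ℝ) ^ (-1 : ℝ) ≤ (n : ℝ) ^ (-(1 / 1000 : ℝ)) :=
      Real.rpow_le_rpow_of_exponent_le hx1 (by norm_num)
    rw [Real.rpow_neg_one] at h1
    rw [← div_le_iff₀ hx0, one_div]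
    exact h1.trans hp0
  generalize (n : ℝ) ^ (-(1 / 4 : ℝ)) = e4 at *
  generalize (n : ℝ) ^ (-(1 / 6 : ℝ)) = e6 at *
  generalize (n : ℝ) ^ (1 / 100000 : ℝ) = Z at *
  have hZ6 : 10 ^ 6 ≤ Z := by nlinarith
  have hZ0 : 0 < Z := by linarith
  have hD0n : n * p0 ^ 2 ≤ n := by
    have : p0 ^ 2 ≤ 1 := pow_le_one₀ hp0pos.le hp01
    nlinarith
  have hD01 : 1 ≤ n * p0 ^ 2 := (one_le_pow₀ (by linarith)).trans hZ13
  have hthree : ∀ h : Finset (Fin n), h.card = 3 →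
      ((cn G h).card : ℝ) ≤ p0 * (n * p0 ^ 2 * (1 + e4)) := by
    intro h hh
    have := (abs_le.1 (hPR.three h hh)).2
    linarith
  have htwo : ∀ h : Finset (Fin n), h.card = 2 →
      ((cn G h).card : ℝ) ≤ n * p0 ^ 2 * (1 + e4) := by
    intro h hh
    have := (abs_le.1 (hPR.two h hh)).2
    linarith
  generalize (n : ℝ) * p0 ^ 2 = D0 at *
  have hMn : 10 ^ 7 * (n : ℝ) ≤ ((n ^ 10 : ℕ) : ℝ) := by
    push_cast
    have : (n : ℝ) ^ 2 ≤ (n : ℝ) ^ 10 := pow_le_pow_right₀ hx1 (by norm_num)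
    nlinarith
  have hM0 : 0 < n ^ 10 := by positivity
  have hlog2 : (Nat.log 2 n : ℝ) ≤ 2 * Real.log n := by
    have h1 : ((2 : ℝ) ^ Nat.log 2 n) ≤ n := by
      exact_mod_cast Nat.pow_log_le_self 2 (by omega : n ≠ 0)
    have h2 := Real.log_le_log (by positivity) h1
    rw [Real.log_pow] at h2
    have h3 := Real.log_two_gt_d9
    have h4 : (0 : ℝ) ≤ Nat.log 2 n := Nat.cast_nonneg _
    nlinarith
  have hL : ((n ^ 10 : ℕ) : ℝ) ≤ 2 ^ (10 * (Nat.log 2 n + 1)) := by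
    rw [mul_comm, pow_mul]
    have : n ≤ 2 ^ (Nat.log 2 n + 1) := (Nat.lt_pow_succ_log_self (by norm_num) n).le
    exact_mod_cast Nat.pow_le_pow_left this 10
  have hfuel : (n : ℝ) ^ 3 * (D0 * (1 + e4)) ^ 3 ≤ p0 * ((n ^ 10 : ℕ) : ℝ) := by
    have h1 : D0 * (1 + e4) ≤ (n : ℝ) ^ 2 := by nlinarith
    calc (n : ℝ) ^ 3 * (D0 * (1 + e4)) ^ 3 ≤ (n : ℝ) ^ 3 * ((n : ℝ) ^ 2) ^ 3 := by gcongr
      _ = 1 * (n : ℝ) ^ 9 := by ring
      _ ≤ (p0 * n) * (n : ℝ) ^ 9 := by gcongr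
      _ = p0 * ((n ^ 10 : ℕ) : ℝ) := by push_cast; ring
  generalize n ^ 10 = M at *
  have hMp : (0 : ℝ) < M := by linarith
  have hM : 10 * D0 ≤ M := by linarith
  have hpp := pseq_pos hD01 hM
  have hp1' := pseq_le_one hD01 hM
  have hpt : ∀ t, pseq D0 M t ≤ (1 + e6) * pseq D0 M t * ν t := by
    intro t
    have h1 := hpp t
    have h2 := (hν t).1
    calc pseq D0 M t = 1 * pseq D0 M t * 1 := by ring
      _ ≤ (1 + e6) * pseq D0 M t * ν t := by gcongr; linarith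
  have hpt2 : ∀ t, (1 + e6) * pseq D0 M t * ν t ≤ 2 * C * pseq D0 M t := by
    intro t
    have h1 := hpp t
    have h2 := hν t
    calc (1 + e6) * pseq D0 M t * ν t ≤ 2 * pseq D0 M t * C := by
          gcongr
          · linarith [h2.1]
          · linarith
          · exact h2.2
      _ = 2 * C * pseq D0 M t := by ring
  have hDD : D0 ≤ D0 * (1 + e4) := by nlinarith
  have hDD2 : D0 * (1 + e4) ≤ 2 * D0 := by nlinarith
  have hPhi := numev_Phi_p (η := 1 / 1000000) hD01 hM (by norm_num) (by norm_num) hDD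
    (by linarith) hpt
  have hlogD0 : 0 ≤ Real.log D0 := Real.log_nonneg hD01
  have hlogD1 : Real.log D0 ≤ Real.log n := Real.log_le_log (by linarith) hD0n
  have hlog3 : Real.log (1 + 3 * D0) ≤ 2 + Real.log D0 := by
    have h1 : Real.log (1 + 3 * D0) ≤ Real.log (2 ^ 2 * D0) :=
      Real.log_le_log (by linarith) (by linarith)
    rw [Real.log_mul (by norm_num) (by linarith), Real.log_pow] at h1
    have := Real.log_two_lt_d9
    push_cast at h1
    linarith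
  have hrho : ∑ t ∈ range M, rho (D0 * (1 + e4)) M (fun t => (1 + e6) * pseq D0 M t * ν t) t ≤
      (1 + 1 / 2000000) * (1 + Real.log D0 / 2 + C) := by
    have h1 : ∑ t ∈ range M, rho (D0 * (1 + e4)) M (fun t => (1 + e6) * pseq D0 M t * ν t) t =
        ((1 + e4) * (1 + e6) ^ 2) * (∑ t ∈ range M, D0 * pseq D0 M t ^ 2 / M +
          ∑ t ∈ range M, D0 * pseq D0 M t ^ 2 / M * (ν t ^ 2 - 1)) := by
      rw [← sum_add_distrib, mul_sum]
      refine sum_congr rfl fun t _ => ?_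
      unfold rho
      ring
    have h2 := sum_rho0_le hD01 hM
    have h3 : (1 + e4) * (1 + e6) ^ 2 ≤ 1 + 1 / 2000000 := by
      calc (1 + e4) * (1 + e6) ^ 2 ≤ (1 + 1 / 10 ^ 7) * (1 + 1 / 10 ^ 7) ^ 2 := by gcongr
        _ ≤ 1 + 1 / 2000000 := by norm_num
    rw [h1]
    calc _ ≤ ((1 + e4) * (1 + e6) ^ 2) * (1 + Real.log D0 / 2 + C) := by
          apply mul_le_mul_of_nonneg_left _ (by positivity)
          linarith
      _ ≤ _ := by gcongr
  refine
    { Mpos := hM0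
      eta_pos := by norm_num
      eta_le := by norm_num
      eta_Z := by linarith
      qq_nn := hp0pos.le
      qq_le := hp01
      big := ?_
      two := fun h hh => htwo h hh.card
      three := hthree
      pt_nn := fun t => (hpp t).le.trans (hpt t)
      pt_le := fun t => ?_
      mu_le := fun t ht h q hh hq => ?_
      Phi_pt := fun t _ => ?_
      Phi_sq := ?_
      Phi_time := fun t _ => ?_
      lam := ?_
      pi := ?_
      Lpos := by omega
      L_Z := ?_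
      fuel := ?_ }
  · calc 10 ^ 6 * Z ^ 12 ≤ Z * Z ^ 12 := by gcongr
      _ = Z ^ 13 := by ring
      _ ≤ _ := hZ13.trans hDD
  · have h1 := hpt2 t
    have h2 := hp1' t
    nlinarith
  · refine (((hst' t ht.le h hh).2 q hq).2).trans ?_
    have h1 := hpp t
    have h2 := (hν t).1
    have h3 : 0 ≤ (1 + e6) * pseq D0 M t := by positivity
    exact pow_le_pow_left₀ h3 (le_mul_of_one_le_right h3 h2) 2
  · have h1 := hPhi t
    have h2 := hpp t
    have h3 : 0 < Phi (D0 * (1 + e4)) M (fun t => (1 + e6) * pseq D0 M t * ν t) (1 / 1000000) t :=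
      (pos_iff_pos_of_mul_pos (lt_of_lt_of_le one_pos h1)).2 h2
    exact h1.trans (mul_le_mul_of_nonneg_left (hpt t) h3.le)
  · have h1 := numev_Phi_le (D := D0 * (1 + e4)) (η := 1 / 1000000) (M := M)
      (pt := fun t => (1 + e6) * pseq D0 M t * ν t) (by linarith) (by norm_num) M
    have h3 : 0 < Phi (D0 * (1 + e4)) M (fun t => (1 + e6) * pseq D0 M t * ν t) (1 / 1000000) M :=
      (pos_iff_pos_of_mul_pos (lt_of_lt_of_le one_pos (hPhi M))).2 (hpp M)
    refine (pow_le_pow_left₀ h3.le h1 2).trans ?_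
    rw [← Real.exp_nat_mul]
    calc _ ≤ Real.exp (Real.log Z + Real.log D0) := by
          apply Real.exp_le_exp.2
          rw [hlogZ']
          push_cast
          linarith
      _ = Z * D0 := by rw [Real.exp_add, Real.exp_log hZ0, Real.exp_log (by linarith)]
      _ ≤ _ := by gcongr
  · have h1 := hPhi t
    have h2 := pseq_upper hD01 hM t
    have h3 : 1 ≤ (Phi (D0 * (1 + e4)) M (fun t => (1 + e6) * pseq D0 M t * ν t) (1 / 1000000) t *
        pseq D0 M t) ^ 2 := one_le_pow₀ h1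
    have h4 : D0 * (1 + e4) * t / M ≤ 2 * D0 * t / M := by gcongr
    have h5 : 0 ≤ 2 * D0 * t / M := by positivity
    have h6 := mul_le_mul_of_nonneg_left h2 (sq_nonneg
      (Phi (D0 * (1 + e4)) M (fun t => (1 + e6) * pseq D0 M t * ν t) (1 / 1000000) t))
    have h7 := mul_le_mul_of_nonneg_right h3 (show 0 ≤ 1 + 2 * D0 * t / M by linarith)
    rw [mul_pow, mul_assoc (Phi _ _ _ _ _ ^ 2), one_mul] at h7
    rw [mul_one] at h6
    exact h4.trans ((le_add_of_nonneg_left zero_le_one).trans (h7.trans h6))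
  · rw [le_div_iff₀ (by linarith), sum_mul]
    have h1 : ∑ t ∈ range M, ((1 + e6) * pseq D0 M t * ν t) ^ 2 / M * (D0 * (1 + e4)) =
        ∑ t ∈ range M, rho (D0 * (1 + e4)) M (fun t => (1 + e6) * pseq D0 M t * ν t) t := by
      refine sum_congr rfl fun t _ => ?_
      unfold rho
      ring
    rw [h1]
    nlinarith
  · have h1 : ∑ t ∈ range M, (1 + e6) * pseq D0 M t * ν t / M ≤
        2 * C * ∑ t ∈ range M, pseq D0 M t / M := by
      rw [mul_sum]
      refine sum_le_sum fun t _ => ?_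
      rw [← mul_div_assoc]
      exact div_le_div_of_nonneg_right (hpt2 t) hMp.le
    have h2 := sum_pseq_le hD01 hM
    have h3 : 0 < Real.sqrt D0 := Real.sqrt_pos.2 (by linarith)
    have h4 : 0 < Real.sqrt (D0 * (1 + e4)) := Real.sqrt_pos.2 (by linarith)
    have h5 : Real.sqrt (D0 * (1 + e4)) ≤ 2 * Real.sqrt D0 := by
      rw [Real.sqrt_le_left (by positivity), mul_pow, Real.sq_sqrt (by linarith)]
      linarith
    calc _ ≤ 2 * C * (Real.log (1 + 3 * D0) / Real.sqrt D0) :=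
          h1.trans (mul_le_mul_of_nonneg_left h2 (by linarith))
      _ = 4 * C * Real.log (1 + 3 * D0) / (2 * Real.sqrt D0) := by field_simp; ring
      _ ≤ Z / (2 * Real.sqrt D0) := by
          apply div_le_div_of_nonneg_right _ (by positivity)
          have h6 : Real.log (1 + 3 * D0) ≤ 2 * Real.log n := by linarith
          have h7 := mul_le_mul_of_nonneg_left h6 (show 0 ≤ 4 * C by linarith)
          nlinarith
      _ ≤ Z / Real.sqrt (D0 * (1 + e4)) := by gcongr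
  · push_cast
    nlinarith
  · rw [Fintype.card_fin]
    exact hfuel.trans (mul_le_mul_of_nonneg_left hL hp0pos.le)

end Crest.Agent.R030
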