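import Crest.Agent.R030.Window
import Crest.Agent.R030.NumEv

/-! # Row 30: the late phase

Parameters for `window` (with `δ = 1/1000`, `D0 = n p0²`, `M = n^10`, `p = pseq D0 M`):
`D = D0 (1 + n^(-1/4))`, `qq = p0` (indeed `qq D = D3 (1 + n^(-1/4))`), `pb t = (1 + n^(-1/6)) p t`,
`Z = n^(δ/100)`, `η = δ/1000`, `y0 = 1000/δ`, `om = y0/(y0+5)`, `L = 10 (Nat.log 2 n + 1)`,
`lam = n^(-9/10)`, `m = (8L+10) y0 + 1`, `Y0 = om^(-top) · (2 y0 + 1 + m + (m+1)(y0+5)/5)`.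
`NumOK` for a weight `pt = pb · ν` with `1 ≤ ν ≤ exp (5 + y0)` and
`∑_{t<M} ρ₀ t (ν t ^ 2 - 1) ≤ C(y0)` (each window has `∑ ρ₀ ≤ 2`, `exp (2y) - 1 ≤ 2 y exp (2 y0)`, geometric series in `om`):
`Φ t · p t ≥ 1` since `(1 + (1+η) ρ)(1 - ρ₀) ≥ 1`; `Φ M ≤ exp ((1+η) ∑ ρ)`, `∑ ρ ≤ (1+o(1)) (log (1+3 D0)/2 + C)`;
`Φ² ≥ p⁻² ≥ 2 D0 t/M ≥ D t/M`.
-/

set_option autoImplicit false
set_option linter.unusedSectionVars false

namespace Crest.Agent.R030
open Finset Filter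
open scoped Classical

theorem late_ev (c : ℝ) {a b : ℝ} (hab : a < b) :
    ∀ᶠ n : ℕ in atTop, c * (n : ℝ) ^ a ≤ (n : ℝ) ^ b := by
  have h := ((tendsto_rpow_atTop (sub_pos.2 hab)).comp
    tendsto_natCast_atTop_atTop).eventually_ge_atTop c
  filter_upwards [h, eventually_gt_atTop 0] with n hn hn0
  have hn' : (0 : ℝ) < n := by exact_mod_cast hn0
  calc c * (n : ℝ) ^ a ≤ (n : ℝ) ^ (b - a) * (n : ℝ) ^ a := by gcongr; exact hn
    _ = _ := by rw [← Real.rpow_add hn', sub_add_cancel]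

/-- the exponent of the multiplier -/
noncomputable def lateY (cw : ℕ → ℕ) (y0 om : ℝ) (i t : ℕ) : ℝ :=
  if t ≤ cw (i + 1) then (if cw i < t then 5 else 0) + yE cw y0 om i (min t (cw i)) else 0

theorem lateY_nn {y0 om : ℝ} (hy : 0 ≤ y0) (hom : 0 ≤ om) (cw : ℕ → ℕ) (i t : ℕ) :
    0 ≤ lateY cw y0 om i t := by
  unfold lateY yE
  split_ifs <;> positivity

theorem lateY_le {y0 om : ℝ} (hy : 0 ≤ y0) (hom : 0 ≤ om) (hom1 : om ≤ 1) {cw : ℕ → ℕ}
    (hm : Monotone cw) (i : ℕ) {j t : ℕ} (ht : t ≤ cw j) :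
    lateY cw y0 om i t ≤ (5 + y0) * om ^ (i - j) := by
  have h1 : idx cw (min t (cw i)) ≤ j := Nat.sInf_le ((min_le_left _ _).trans ht)
  have h2 : om ^ (i - idx cw (min t (cw i))) ≤ om ^ (i - j) :=
    pow_le_pow_of_le_one hom hom1 (by omega)
  have h3 : 0 ≤ om ^ (i - j) := pow_nonneg hom _
  have h4 := mul_le_mul_of_nonneg_left h2 hy
  unfold lateY yE
  split_ifs with h5 h6
  · have : i - j = 0 := by
      by_contra hc
      have := hm (show j ≤ i by omega)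
      omega
    rw [this, pow_zero] at h4 ⊢
    linarith
  · linarith
  · positivity

theorem late_sum_le {s t : Finset ℕ} {f : ℕ → ℝ} (hf : ∀ x, 0 ≤ f x)
    (h : ∀ x ∈ s, f x ≠ 0 → x ∈ t) : ∑ x ∈ s, f x ≤ ∑ x ∈ t, f x := by
  rw [← sum_filter_ne_zero s]
  exact sum_le_sum_of_subset_of_nonneg (fun x hx => h x (mem_filter.1 hx).1 (mem_filter.1 hx).2)
    fun x _ _ => hf x

theorem late_sum {y0 om : ℝ} (hy : 0 ≤ y0) (hom : 0 ≤ om) (hom1 : om < 1) {cw : ℕ → ℕ}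
    (hm : Monotone cw) (h0 : cw 0 = 0) {r : ℕ → ℝ} (hr : ∀ t, 0 ≤ r t) (hr1 : ∀ t, r t ≤ 1)
    (hw : ∀ i, ∑ t ∈ Ico (cw i) (cw (i + 1)), r t ≤ 2) (i M : ℕ) :
    ∑ t ∈ range M, r t * lateY cw y0 om i t ≤ (5 + y0) * (3 + 2 * (1 - om)⁻¹) := by
  have hf : ∀ t, 0 ≤ r t * lateY cw y0 om i t := fun t => mul_nonneg (hr t) (lateY_nn hy hom _ _ _)
  have h1 : ∀ k, ∑ t ∈ range (cw k), r t * lateY cw y0 om i t ≤
      ∑ j ∈ range k, 2 * ((5 + y0) * om ^ (i - (j + 1))) := by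
    intro k
    induction k with
    | zero => simp [h0]
    | succ k ih =>
      rw [sum_range_succ, ← sum_range_add_sum_Ico _ (hm (Nat.le_succ k))]
      refine add_le_add ih (le_trans (sum_le_sum fun t ht => mul_le_mul_of_nonneg_left
        (lateY_le hy hom hom1.le hm i (mem_Ico.1 ht).2.le) (hr t)) ?_)
      rw [← sum_mul]
      exact mul_le_mul_of_nonneg_right (hw k) (by positivity)
  have h2 : ∑ j ∈ range (i + 1), om ^ (i - (j + 1)) ≤ 1 + (1 - om)⁻¹ := by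
    rw [sum_range_succ, show i - (i + 1) = 0 by omega, pow_zero, add_comm]
    have : ∑ j ∈ range i, om ^ (i - (j + 1)) = ∑ j ∈ range i, om ^ j := by
      rw [← sum_range_reflect (fun j => om ^ j) i]
      exact sum_congr rfl fun j _ => by congr 1; omega
    rw [this, ← tsum_geometric_of_lt_one hom hom1]
    exact add_le_add le_rfl ((summable_geometric_of_lt_one hom hom1).sum_le_tsum _
      fun j _ => pow_nonneg hom _)
  have h3 : ∑ t ∈ range M, r t * lateY cw y0 om i t ≤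
      ∑ t ∈ range (cw (i + 1) + 1), r t * lateY cw y0 om i t := by
    refine late_sum_le hf fun t _ ht => ?_
    by_contra hc
    rw [mem_range, not_lt] at hc
    exact ht (by rw [lateY, if_neg (by omega), mul_zero])
  have h4 : r (cw (i + 1)) * lateY cw y0 om i (cw (i + 1)) ≤ 1 * (5 + y0) := by
    refine mul_le_mul (hr1 _) ?_ (lateY_nn hy hom _ _ _) zero_le_one
    simpa using lateY_le hy hom hom1.le hm i (le_refl (cw (i + 1)))
  have h5 := h1 (i + 1)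
  rw [← mul_sum, ← mul_sum] at h5
  rw [sum_range_succ] at h3
  nlinarith [mul_le_mul_of_nonneg_left h2 (by linarith : 0 ≤ 5 + y0)]

theorem late_nu {y0 om : ℝ} (hy : 0 ≤ y0) (hom : 0 ≤ om) (hom1 : om < 1) : ∃ C : ℝ, 1 ≤ C ∧
    ∀ (cw : ℕ → ℕ) (r : ℕ → ℝ), Monotone cw → cw 0 = 0 → (∀ t, 0 ≤ r t) → (∀ t, r t ≤ 1) →
    (∀ i, ∑ t ∈ Ico (cw i) (cw (i + 1)), r t ≤ 2) → ∀ i M,
      (∀ t, 1 ≤ Real.exp (lateY cw y0 om i t) ∧ Real.exp (lateY cw y0 om i t) ≤ C) ∧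
      ∑ t ∈ range M, r t * (Real.exp (lateY cw y0 om i t) ^ 2 - 1) ≤ C := by
  have h1 : 0 < (1 - om)⁻¹ := inv_pos.2 (by linarith)
  have h2 : 0 ≤ 2 * Real.exp (5 + y0) ^ 2 * ((5 + y0) * (3 + 2 * (1 - om)⁻¹)) := by positivity
  have h3 : 1 ≤ Real.exp (5 + y0) := Real.one_le_exp (by linarith)
  refine ⟨Real.exp (5 + y0) + 2 * Real.exp (5 + y0) ^ 2 * ((5 + y0) * (3 + 2 * (1 - om)⁻¹)),
    by linarith, fun cw r hm h0 hr hr1 hw i M => ?_⟩
  have h4 : ∀ t, Real.exp (lateY cw y0 om i t) ≤ Real.exp (5 + y0) := fun t => by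
    refine Real.exp_le_exp.2 ?_
    unfold lateY yE
    have := mul_le_mul_of_nonneg_left (pow_le_one₀ (n := i - idx cw (min t (cw i))) hom hom1.le) hy
    split_ifs <;> linarith
  refine ⟨fun t => ⟨Real.one_le_exp (lateY_nn hy hom _ _ _), by linarith [h4 t]⟩, ?_⟩
  have h5 := mul_le_mul_of_nonneg_left (late_sum hy hom hom1 hm h0 hr hr1 hw i M)
    (by positivity : 0 ≤ 2 * Real.exp (5 + y0) ^ 2)
  rw [mul_sum] at h5
  refine le_trans (sum_le_sum fun t _ => ?_) (h5.trans (by linarith))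
  rw [mul_left_comm]
  refine mul_le_mul_of_nonneg_left ?_ (hr t)
  have h6 := lateY_nn hy hom cw i t
  have h7 := Real.add_one_le_exp (-(2 * lateY cw y0 om i t))
  have h8 : Real.exp (-(2 * lateY cw y0 om i t)) * Real.exp (lateY cw y0 om i t) ^ 2 = 1 := by
    rw [sq, ← Real.exp_add, ← Real.exp_add, ← Real.exp_zero]; congr 1; ring
  have h9 : Real.exp (lateY cw y0 om i t) ^ 2 ≤ Real.exp (5 + y0) ^ 2 :=
    pow_le_pow_left₀ (Real.exp_pos _).le (h4 t) 2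
  nlinarith [mul_le_mul_of_nonneg_right h7 (sq_nonneg (Real.exp (lateY cw y0 om i t))),
    mul_le_mul_of_nonneg_left h9 h6]

theorem late_Ybud {y0 : ℝ} (hy : 0 < y0) (Y0 m : ℝ) (i : ℕ) :
    (y0 / (y0 + 5)) ^ i * Y0 - (m + 1) * (y0 / 5) ≤ Ybud Y0 (y0 / (y0 + 5)) m i ∨ m + 1 < 0 := by
  rcases lt_or_ge (m + 1) 0 with h | h
  · exact .inr h
  refine .inl ?_
  induction i with
  | zero => simp only [Ybud, pow_zero, one_mul]; nlinarith
  | succ i ih =>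
    have h1 := mul_le_mul_of_nonneg_left ih (by positivity : 0 ≤ y0 / (y0 + 5))
    have h2 : y0 / (y0 + 5) * ((m + 1) * (y0 / 5) + (m + 1)) = (m + 1) * (y0 / 5) := by
      field_simp
    simp only [Ybud]
    rw [pow_succ]
    nlinarith

theorem late_L {n : ℕ} (hn : 1 ≤ n) :
    8 * ((10 * (Nat.log 2 n + 1) : ℕ) : ℝ) + 10 ≤ 200000000 * (n : ℝ) ^ (1 / 1000000 : ℝ) := by
  have hn' : (1 : ℝ) ≤ n := by exact_mod_cast hn
  have h1 : (Nat.log 2 n : ℝ) * Real.log 2 ≤ Real.log n := by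
    rw [← Real.log_pow]
    refine Real.log_le_log (by positivity) ?_
    exact_mod_cast Nat.pow_log_le_self 2 (by omega)
  have h2 := Real.log_le_rpow_div (x := n) (ε := 1 / 1000000) (by linarith) (by norm_num)
  have h3 := Real.log_two_gt_d9
  have h4 : 1 ≤ (n : ℝ) ^ (1 / 1000000 : ℝ) := Real.one_le_rpow hn' (by norm_num)
  have h5 : (0 : ℝ) ≤ Nat.log 2 n := Nat.cast_nonneg _
  push_cast
  nlinarith

theorem late_fin1 {k z ε p m : ℝ} (hp : 0 < p) (hk : 0 ≤ k) (hz : 0 ≤ z) (hk1 : k ≤ 1)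
    (h : k + z ≤ ε) (hm : |m - p| ≤ z * p) : (1 - ε) * p ≤ (1 - k) * m := by
  have h1 := (abs_le.1 hm).1
  have h2 : (1 - z) * p ≤ m := by linarith
  refine le_trans ?_ (mul_le_mul_of_nonneg_left h2 (by linarith))
  rw [← mul_assoc]
  gcongr
  nlinarith [mul_nonneg hk hz]

theorem late_fin2 {a k z ε p m m' : ℝ} (hp : 0 < p) (ha : 0 ≤ a) (hk : 0 ≤ k) (hz : 0 ≤ z)
    (hε : ε ≤ 1) (h : a + k + 6 * z ≤ ε) (hm : |m - p| ≤ z * p) (hm' : |m' - p| ≤ z * p)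
    (h0 : 0 ≤ m') : (1 + a + k) * (m * m') ≤ (1 + ε) * p ^ 2 := by
  have h1 := (abs_le.1 hm).2
  have h2 := (abs_le.1 hm').2
  have h3 : m * m' ≤ ((1 + z) * p) ^ 2 := by
    rw [sq]
    exact mul_le_mul (by linarith) (by linarith) h0 (by positivity)
  refine (mul_le_mul_of_nonneg_left h3 (by positivity)).trans ?_
  rw [mul_pow, ← mul_assoc]
  gcongr
  have h4 : (1 + z) ^ 2 ≤ 1 + 3 * z := by nlinarith
  refine (mul_le_mul_of_nonneg_left h4 (by positivity)).trans ?_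
  nlinarith [mul_le_mul_of_nonneg_right (by linarith : a + k ≤ 1) hz]

theorem late_ratio {z p p' q m m' : ℝ} (hp : 0 < p) (hp' : 0 < p') (hz : 3 * z ≤ 1)
    (hm : |m - p| ≤ z * p) (hm' : |m' - p'| ≤ z * p') (h1 : p ≤ Real.exp 4 * q) (h2 : q ≤ p') :
    m ≤ Real.exp 5 * m' := by
  have h3 := (abs_le.1 hm).2
  have h4 := (abs_le.1 hm').1
  have h6 : Real.exp 5 = Real.exp 4 * Real.exp 1 := by rw [← Real.exp_add]; norm_num
  have h7 : 2 ≤ Real.exp 1 := by linarith [Real.add_one_le_exp 1]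
  have h8 := Real.exp_pos 4
  have h9 : m ≤ 4 / 3 * p := by nlinarith
  have h10 : 2 / 3 * p' ≤ m' := by nlinarith
  have h11 : 2 * m' ≤ Real.exp 1 * m' := mul_le_mul_of_nonneg_right h7 (by linarith)
  rw [h6, mul_assoc]
  nlinarith [mul_le_mul_of_nonneg_left h11 h8.le, mul_le_mul_of_nonneg_left h10 h8.le,
    mul_le_mul_of_nonneg_left h2 h8.le]

theorem late_Y0 {a b l w L : ℝ} (hl : l = 8 * L + 10) (hL : 0 ≤ L) (ha : 1 ≤ a)
    (hw : w ≤ 3 * a) (h1 : l ≤ 200000000 * b) :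
    w * (2 * 1000000 + 1 + ((8 * L + 10) * 1000000 + 1) +
      ((8 * L + 10) * 1000000 + 1 + 1) * (1000000 / 5)) * (8 * L + 10) + 8 * L + 10 ≤
      10 ^ 30 * (a * (b * b)) := by
  have hl1 : 10 ≤ l := by linarith
  have h6 : l * l ≤ 200000000 * b * (200000000 * b) := by gcongr; linarith
  calc _ = w * (2 * 1000000 + 1 + (l * 1000000 + 1) +
        (l * 1000000 + 1 + 1) * (1000000 / 5)) * l + l := by rw [hl]; ring
    _ ≤ 3 * a * (10 ^ 12 * l) * l + a * (l * l) := by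
        gcongr
        · linarith
        · nlinarith
    _ = (3 * 10 ^ 12 + 1) * a * (l * l) := by ring
    _ ≤ (3 * 10 ^ 12 + 1) * a * (200000000 * b * (200000000 * b)) := by gcongr
    _ ≤ _ := by nlinarith [mul_nonneg (zero_le_one.trans ha) (mul_self_nonneg b)]

theorem late : ∀ᶠ n : ℕ in atTop, ∀ (p0 : ℝ) (G : SimpleGraph (Fin n)),
    (n : ℝ) ^ (-(1 / 1000 : ℝ)) ≤ p0 → p0 ≤ 2 * (n : ℝ) ^ (-(1 / 1000 : ℝ)) →
    PR G (n * p0 ^ 2) (n * p0 ^ 3) ((n : ℝ) ^ (-(1 / 4 : ℝ))) →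
    (∀ h, IsEdge G h → (1 - (n : ℝ) ^ (-(1 / 2000 : ℝ))) * pseq (n * p0 ^ 2) (n ^ 10) (n ^ 10)
        ≤ Ex G (n ^ 10) (fun ω => ral G ω (n ^ 10) h)) ∧
    (∀ h h', IsEdge G h → IsEdge G h' → h ≠ h' →
      Ex G (n ^ 10) (fun ω => ral G ω (n ^ 10) h * ral G ω (n ^ 10) h')
        ≤ (1 + (n : ℝ) ^ (-(1 / 2000 : ℝ))) * pseq (n * p0 ^ 2) (n ^ 10) (n ^ 10) ^ 2) := by
  obtain ⟨C, hC1, hC⟩ := late_nu (y0 := 1000000) (om := 1000000 / (1000000 + 5)) (by norm_num)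
    (by norm_num) (by norm_num)
  filter_upwards [numOK_ev C, stab_ev, eventually_ge_atTop 13,
    late_ev 3 (show -(1 / 5 : ℝ) < 0 by norm_num),
    late_ev 8 (show -(9 / 10 : ℝ) + 2 / 100000 < 0 by norm_num),
    late_ev 96000 (show -(1 / 1000 : ℝ) + 13 / 100000 < 0 by norm_num),
    late_ev (10 ^ 30) (show (7 / 1000000 : ℝ) < 1 / 100000 by norm_num),
    late_ev 48000 (show -(1 / 1000 : ℝ) + 13 / 100000 < -(1 / 2000) by norm_num),
    late_ev 48 (show -(9 / 10 : ℝ) < -(1 / 2000) by norm_num),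
    late_ev 18 (show -(1 / 5 : ℝ) < -(1 / 2000) by norm_num)]
    with n hnum hstab hn e1 e2 e3 e4 e5 e6 e7 p0 G hp1 hp2 hPR
  have hn' : (13 : ℝ) ≤ n := by exact_mod_cast hn
  have hn0 : (0 : ℝ) < n := by linarith
  have hn1 : (1 : ℝ) ≤ n := by linarith
  rw [Real.rpow_zero] at e1 e2 e3
  have hp0 : 0 < p0 := lt_of_lt_of_le (Real.rpow_pos_of_pos hn0 _) hp1
  have hp3 : p0 ≤ 2 := by
    have := Real.rpow_le_one_of_one_le_of_nonpos hn1 (show -(1 / 1000 : ℝ) ≤ 0 by norm_num)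
    linarith
  have hD : 1 ≤ n * p0 ^ 2 := by
    have h1 : (n : ℝ) ^ (-(1 / 2 : ℝ)) ≤ p0 :=
      (Real.rpow_le_rpow_of_exponent_le hn1 (by norm_num)).trans hp1
    have h2 : ((n : ℝ) ^ (-(1 / 2 : ℝ))) ^ 2 ≤ p0 ^ 2 := by gcongr
    rw [← Real.rpow_natCast, ← Real.rpow_mul hn0.le] at h2
    norm_num at h2
    rw [Real.rpow_neg_one] at h2
    have := mul_le_mul_of_nonneg_left h2 hn0.le
    rwa [mul_inv_cancel₀ hn0.ne'] at this
  have hD4 : n * p0 ^ 2 ≤ 4 * n := by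
    rw [mul_comm 4]; gcongr; nlinarith
  have hM : 10 * (n * p0 ^ 2) ≤ ((n ^ 10 : ℕ) : ℝ) := by
    have h1 : (13 : ℝ) ^ 9 ≤ (n : ℝ) ^ 9 := by gcongr
    push_cast
    nlinarith [mul_le_mul_of_nonneg_left h1 hn0.le]
  obtain ⟨top, cw, c0, cm, cle, ctop, htop, crat, csum⟩ := exists_windows hD hM
  have hst := hstab p0 G hp1 hp2 hPR
  have hpp := pseq_pos hD hM
  have hζ0 : 0 ≤ (n : ℝ) ^ (-(1 / 5 : ℝ)) := by positivity
  have hnu := hC cw (fun t => n * p0 ^ 2 * pseq (n * p0 ^ 2) (n ^ 10) t ^ 2 / (n ^ 10 : ℕ)) cm c0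
    (fun t => by positivity) (fun t => by
      rw [div_le_one (by positivity)]
      have := pow_le_one₀ (n := 2) (hpp t).le (pseq_le_one hD hM t)
      nlinarith) csum
  set L : ℕ := 10 * (Nat.log 2 n + 1) with hL
  have hL0 : (0 : ℝ) ≤ L := Nat.cast_nonneg _
  have hκ : p0 * ((n : ℝ) ^ (1 / 100000 : ℝ)) ^ 13 ≤
      2 * (n : ℝ) ^ (-(1 / 1000 : ℝ) + 13 / 100000) := by
    rw [← Real.rpow_natCast, ← Real.rpow_mul hn0.le, Real.rpow_add hn0, ← mul_assoc]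
    norm_num
    gcongr
  have hW : WinOK G (n ^ 10) (fun t => (1 + (n : ℝ) ^ (-(1 / 6 : ℝ))) * pseq (n * p0 ^ 2) (n ^ 10) t)
      cw top (n * p0 ^ 2 * (1 + (n : ℝ) ^ (-(1 / 4 : ℝ)))) p0 (1 / 1000000)
      ((n : ℝ) ^ (1 / 100000 : ℝ)) 1000000 (1000000 / (1000000 + 5))
      (((1000000 + 5) / 1000000) ^ top * (2 * 1000000 + 1 + ((8 * L + 10) * 1000000 + 1) +
        ((8 * L + 10) * 1000000 + 1 + 1) * (1000000 / 5))) ((n : ℝ) ^ (-(9 / 10 : ℝ))) L := by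
    refine ⟨c0, cm, cle, ctop, by norm_num, by norm_num, by norm_num, fun t ht h he => ?_,
      fun i t h1 h2 h he => ?_, fun i _ => ?_, ?_, fun t ht h he q hq => ((hst t ht h he).2 q hq).1,
      by positivity, ?_, by linarith, ?_, ?_⟩
    · have h1 := (abs_le.1 (hst t ht h he).1).2
      have h2 : (n : ℝ) ^ (-(1 / 5 : ℝ)) ≤ (n : ℝ) ^ (-(1 / 6 : ℝ)) :=
        Real.rpow_le_rpow_of_exponent_le hn1 (by norm_num)
      nlinarith [mul_le_mul_of_nonneg_right h2 (hpp t).le]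
    · exact late_ratio (hpp _) (hpp _) e1 (hst _ (cle i) h he).1 (hst t (h2.trans (cle _)) h he).1
        (crat i) (pseq_anti hD hM h2)
    · exact hnum p0 G _ hp1 hp2 hPR (hnu i 0).1 (hnu i _).2
    · simpa using hnum p0 G (fun _ => 1) hp1 hp2 hPR (fun _ => ⟨le_rfl, hC1⟩) (by simp; linarith)
    · rw [← Real.rpow_natCast, ← Real.rpow_mul hn0.le, mul_assoc, ← Real.rpow_add hn0]
      convert e2 using 3
      norm_num
    · have h1 := late_L (n := n) (by omega)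
      rw [← hL] at h1
      have h2 : Real.log (1 + 3 * (n * p0 ^ 2)) ≤ 2 * Real.log n := by
        rw [two_mul, ← Real.log_mul hn0.ne' hn0.ne']
        exact Real.log_le_log (by positivity) (by nlinarith)
      have h3 : ((1000000 + 5 : ℝ) / 1000000) ^ top ≤ 3 * (n : ℝ) ^ (5 / 1000000 : ℝ) :=
        calc ((1000000 + 5 : ℝ) / 1000000) ^ top ≤ Real.exp (5 / 1000000) ^ top := by
              gcongr; linarith [Real.add_one_le_exp (5 / 1000000 : ℝ)]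
          _ = Real.exp (top * (5 / 1000000)) := (Real.exp_nat_mul _ _).symm
          _ ≤ Real.exp (1 + Real.log n * (5 / 1000000)) := Real.exp_le_exp.2 (by linarith)
          _ = Real.exp 1 * (n : ℝ) ^ (5 / 1000000 : ℝ) := by
              rw [Real.exp_add, Real.rpow_def_of_pos hn0]
          _ ≤ _ := by gcongr; linarith [Real.exp_one_lt_d9]
      have h4 : (n : ℝ) ^ (7 / 1000000 : ℝ) = (n : ℝ) ^ (5 / 1000000 : ℝ) *
          ((n : ℝ) ^ (1 / 1000000 : ℝ) * (n : ℝ) ^ (1 / 1000000 : ℝ)) := by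
        rw [← Real.rpow_add hn0, ← Real.rpow_add hn0]; norm_num
      have h5 : 1 ≤ (n : ℝ) ^ (5 / 1000000 : ℝ) := Real.one_le_rpow hn1 (by norm_num)
      rw [h4] at e4
      exact (late_Y0 rfl hL0 h5 h3 h1).trans e4
    · refine le_trans (le_of_eq ?_) ((late_Ybud (by norm_num) _ _ top).resolve_right (by linarith))
      rw [← mul_assoc, ← mul_pow]
      norm_num
  obtain ⟨w1, w2⟩ := window hW
  have hpM := hpp (n ^ 10)
  have hκ0 : 0 ≤ p0 * ((n : ℝ) ^ (1 / 100000 : ℝ)) ^ 13 := by positivity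
  have hl0 : 0 ≤ (n : ℝ) ^ (-(9 / 10 : ℝ)) := by positivity
  have hε1 := Real.rpow_le_one_of_one_le_of_nonpos hn1 (show -(1 / 2000 : ℝ) ≤ 0 by norm_num)
  refine ⟨fun h he => le_trans ?_ (w1 h he), fun h h' he he' hne => (w2 h h' he he' hne).trans ?_⟩
  · exact late_fin1 hpM (by linarith) hζ0 (by linarith) (by linarith) (hst _ le_rfl h he).1
  · exact late_fin2 hpM (by linarith) (by linarith) hζ0 hε1 (by linarith) (hst _ le_rfl h he).1
      (hst _ le_rfl h' he').1 (mm_nn le_rfl _)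

end Crest.Agent.R030
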