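import Crest.Agent.R030.Basic

/-! # Row 30: linear stability of the belief-propagation recursion

`x t u v` is symmetric on adjacent pairs, `x 0 = 0`,
`x (t+1) = x t - ρ t · A (x t) + ρ t · r`, `|r| ≤ ε₁`, `(A x)(u,v) = D⁻¹ ∑_{w ∈ cn {u,v}} (x u w + x v w)`.
* `spec`: the adjacency matrix `B` of `G[N(u)]` satisfies `yᵀ B y ≥ - λ D ‖y‖²` with
  `λ = 2 ε² + √((2 D + D3 + n ε D3)) / D`: write `y = α 1 + z`, `z ⊥ 1` on `N(u)`; `B 1 = D (1 ± ε)`,
  `‖B z‖² = zᵀ (B² - D3 J) z ≤ (2 D + D3 + n ε D3) ‖z‖²` (entries are triple codegrees; Schur/AM-GM).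
* global `ℓ²` norm over ordered adjacent pairs: `⟨x, A x⟩ = 2 ∑_u ⟨x_u, B_u x_u⟩/D ≥ -2 λ ‖x‖²`, `‖A x‖ ≤ 4 ‖x‖`, so
  `‖x - ρ A x‖ ≤ (1 + 2 λ ρ + 8 ρ²) ‖x‖` and `‖x t‖ ≤ e³ ℓ n ε₁`;
* row norm for fixed `u`: `x_u` evolves by `B_u/D` with forcing `c(v) = D⁻¹ ∑_{w ∈ cn{u,v}} x v w`,
  `‖c‖² ≤ 2 ‖x‖² / D` (Cauchy–Schwarz), so `‖x_u‖ ≤ e² ℓ (√(2/D) e³ ℓ n ε₁ + √n ε₁)`;
* sup norm: `|A x (u,v)| ≤ √(2/D) (‖x_u‖ + ‖x_v‖)`.
-/

set_option autoImplicit false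
set_option linter.unusedSectionVars false

namespace Crest.Agent.R030
open Finset
open scoped Classical

variable {V : Type} [Fintype V] [DecidableEq V] {G : SimpleGraph V}

namespace LinAux

section Abstract
variable {ι : Type}

/-- `ℓ²` norm on a finite set -/
noncomputable def nrm (s : Finset ι) (f : ι → ℝ) : ℝ := Real.sqrt (∑ i ∈ s, f i ^ 2)

theorem nrm_nn (s : Finset ι) (f : ι → ℝ) : 0 ≤ nrm s f := Real.sqrt_nonneg _

theorem nrm_sq (s : Finset ι) (f : ι → ℝ) : nrm s f ^ 2 = ∑ i ∈ s, f i ^ 2 :=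
  Real.sq_sqrt (sum_nonneg fun _ _ => sq_nonneg _)

theorem nrm_le_of_sq {s : Finset ι} {f : ι → ℝ} {a : ℝ} (ha : 0 ≤ a)
    (h : ∑ i ∈ s, f i ^ 2 ≤ a ^ 2) : nrm s f ≤ a :=
  Real.sqrt_le_iff.2 ⟨ha, h⟩

theorem abs_inner_le (s : Finset ι) (f g : ι → ℝ) :
    |∑ i ∈ s, f i * g i| ≤ nrm s f * nrm s g := by
  apply abs_le_of_sq_le_sq' _ (mul_nonneg (nrm_nn s f) (nrm_nn s g)) |> abs_le.2
  rw [mul_pow, nrm_sq, nrm_sq]
  exact sum_mul_sq_le_sq_mul_sq s f g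

theorem nrm_add (s : Finset ι) (f g : ι → ℝ) :
    nrm s (fun i => f i + g i) ≤ nrm s f + nrm s g := by
  apply nrm_le_of_sq (add_nonneg (nrm_nn s f) (nrm_nn s g))
  have h1 : ∑ i ∈ s, (f i + g i) ^ 2
      = ∑ i ∈ s, f i ^ 2 + 2 * ∑ i ∈ s, f i * g i + ∑ i ∈ s, g i ^ 2 := by
    rw [mul_sum, ← sum_add_distrib, ← sum_add_distrib]
    exact sum_congr rfl fun i _ => by ring
  have h2 := (abs_le.1 (abs_inner_le s f g)).2
  rw [h1, ← nrm_sq, ← nrm_sq]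
  nlinarith

theorem nrm_mono {s : Finset ι} {f g : ι → ℝ} (h : ∀ i ∈ s, |f i| ≤ |g i|) : nrm s f ≤ nrm s g := by
  apply Real.sqrt_le_sqrt
  exact sum_le_sum fun i hi => sq_le_sq.2 (h i hi)

theorem nrm_smul (s : Finset ι) (f : ι → ℝ) {c : ℝ} (hc : 0 ≤ c) :
    nrm s (fun i => c * f i) = c * nrm s f := by
  unfold nrm
  have : ∑ i ∈ s, (c * f i) ^ 2 = c ^ 2 * ∑ i ∈ s, f i ^ 2 := by
    rw [mul_sum]; exact sum_congr rfl fun i _ => by ring
  rw [this, Real.sqrt_mul (sq_nonneg c), Real.sqrt_sq hc]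

/-- one step of the damped recursion -/
theorem step {s : Finset ι} {y y' L e : ι → ℝ} {ρ μ K κ : ℝ} (hρ : 0 ≤ ρ) (hκ : 0 ≤ κ)
    (hnum : 2 * μ + K * ρ ≤ 2 * κ)
    (hin : -(μ * ∑ i ∈ s, y i ^ 2) ≤ ∑ i ∈ s, y i * L i)
    (hL : ∑ i ∈ s, L i ^ 2 ≤ K * ∑ i ∈ s, y i ^ 2)
    (hrec : ∀ i ∈ s, |y' i - y i + ρ * L i| ≤ ρ * |e i|) :
    nrm s y' ≤ (1 + κ * ρ) * nrm s y + ρ * nrm s e := by
  have h1 : nrm s y' = nrm s (fun i => (y i - ρ * L i) + (y' i - y i + ρ * L i)) := by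
    congr 1; funext i; ring
  have h2 : nrm s (fun i => y' i - y i + ρ * L i) ≤ ρ * nrm s e := by
    rw [← nrm_smul s e hρ]
    apply nrm_mono
    intro i hi
    rw [abs_mul, abs_of_nonneg hρ]
    exact hrec i hi
  have h3 : nrm s (fun i => y i - ρ * L i) ≤ (1 + κ * ρ) * nrm s y := by
    apply nrm_le_of_sq (mul_nonneg (by positivity) (nrm_nn s y))
    have e1 : ∑ i ∈ s, (y i - ρ * L i) ^ 2
        = ∑ i ∈ s, y i ^ 2 - 2 * ρ * ∑ i ∈ s, y i * L i + ρ ^ 2 * ∑ i ∈ s, L i ^ 2 := by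
      rw [mul_sum, mul_sum, ← sum_sub_distrib, ← sum_add_distrib]
      exact sum_congr rfl fun i _ => by ring
    rw [e1, mul_pow, nrm_sq]
    have hS : 0 ≤ ∑ i ∈ s, y i ^ 2 := sum_nonneg fun _ _ => sq_nonneg _
    set S := ∑ i ∈ s, y i ^ 2
    have a1 : -(2 * ρ * ∑ i ∈ s, y i * L i) ≤ 2 * ρ * (μ * S) := by nlinarith
    have a2 : ρ ^ 2 * ∑ i ∈ s, L i ^ 2 ≤ ρ ^ 2 * (K * S) :=
      mul_le_mul_of_nonneg_left hL (sq_nonneg _)
    have a3 : ρ * S * (2 * μ + K * ρ) ≤ ρ * S * (2 * κ) :=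
      mul_le_mul_of_nonneg_left hnum (mul_nonneg hρ hS)
    have a4 : 0 ≤ (κ * ρ) ^ 2 * S := mul_nonneg (sq_nonneg _) hS
    nlinarith
  rw [h1]
  exact (nrm_add s _ _).trans (add_le_add h3 h2)

/-- discrete Gronwall -/
theorem gron {T : ℕ} {a ρ : ℕ → ℝ} {κ F ℓ : ℝ} (hκ : 0 ≤ κ) (hF : 0 ≤ F) (hρ : ∀ t, 0 ≤ ρ t)
    (hsum : ∑ t ∈ range T, ρ t ≤ ℓ) (h0 : a 0 ≤ 0)
    (hstep : ∀ t < T, a (t + 1) ≤ (1 + κ * ρ t) * a t + ρ t * F) :
    ∀ t ≤ T, a t ≤ Real.exp (κ * ℓ) * ℓ * F := by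
  have key : ∀ t ≤ T, a t ≤ Real.exp (κ * ∑ s ∈ range t, ρ s) * (∑ s ∈ range t, ρ s) * F := by
    intro t
    induction t with
    | zero => intro _; simpa using h0
    | succ t ih =>
      intro ht
      have ih' := ih (by omega)
      have hs := hstep t (by omega)
      rw [sum_range_succ, mul_add κ, Real.exp_add]
      have hS : 0 ≤ ∑ s ∈ range t, ρ s := sum_nonneg fun s _ => hρ s
      set S := ∑ s ∈ range t, ρ s
      have hr := hρ t
      have e1 : 1 + κ * ρ t ≤ Real.exp (κ * ρ t) := by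
        have := Real.add_one_le_exp (κ * ρ t); linarith
      have e2 : 1 ≤ Real.exp (κ * S) := Real.one_le_exp (mul_nonneg hκ hS)
      have e3 : 1 ≤ Real.exp (κ * ρ t) := Real.one_le_exp (mul_nonneg hκ hr)
      have e4 : 1 ≤ Real.exp (κ * S) * Real.exp (κ * ρ t) := one_le_mul_of_one_le_of_one_le e2 e3
      have b1 : (1 + κ * ρ t) * a t ≤ (1 + κ * ρ t) * (Real.exp (κ * S) * S * F) :=
        mul_le_mul_of_nonneg_left ih' (by positivity)
      have b2 : (1 + κ * ρ t) * (Real.exp (κ * S) * S * F)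
          ≤ Real.exp (κ * ρ t) * (Real.exp (κ * S) * S * F) :=
        mul_le_mul_of_nonneg_right e1 (by positivity)
      have b3 : 1 * (ρ t * F) ≤ (Real.exp (κ * S) * Real.exp (κ * ρ t)) * (ρ t * F) :=
        mul_le_mul_of_nonneg_right e4 (by positivity)
      nlinarith
  intro t ht
  have hS : 0 ≤ ∑ s ∈ range t, ρ s := sum_nonneg fun s _ => hρ s
  have hle : ∑ s ∈ range t, ρ s ≤ ℓ :=
    le_trans (sum_le_sum_of_subset_of_nonneg (range_subset_range.2 ht) fun s _ _ => hρ s) hsum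
  refine (key t ht).trans ?_
  gcongr

/-- Schur test for a symmetric kernel -/
theorem schur {s : Finset ι} {c : ι → ι → ℝ} {Q : ℝ} (hc : ∀ i j, c i j = c j i)
    (hQ : ∀ i ∈ s, ∑ j ∈ s, |c i j| ≤ Q) (z : ι → ℝ) :
    ∑ i ∈ s, ∑ j ∈ s, z i * z j * c i j ≤ Q * ∑ i ∈ s, z i ^ 2 := by
  have h1 : ∑ i ∈ s, ∑ j ∈ s, z i * z j * c i j
      ≤ ∑ i ∈ s, ∑ j ∈ s, (|c i j| * z i ^ 2 / 2 + |c i j| * z j ^ 2 / 2) := by
    refine sum_le_sum fun i _ => sum_le_sum fun j _ => ?_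
    have a1 : z i * z j * c i j ≤ |z i * z j| * |c i j| := by
      rw [← abs_mul]; exact le_abs_self _
    have a2 : |z i * z j| ≤ (z i ^ 2 + z j ^ 2) / 2 := by
      rw [abs_le]; constructor <;> nlinarith [sq_nonneg (z i + z j), sq_nonneg (z i - z j)]
    have a3 := mul_le_mul_of_nonneg_right a2 (abs_nonneg (c i j))
    nlinarith
  have h2 : ∑ i ∈ s, ∑ j ∈ s, |c i j| * z j ^ 2 / 2 = ∑ i ∈ s, ∑ j ∈ s, |c i j| * z i ^ 2 / 2 := by
    rw [sum_comm]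
    exact sum_congr rfl fun i _ => sum_congr rfl fun j _ => by rw [hc]
  have h3 : ∑ i ∈ s, ∑ j ∈ s, |c i j| * z i ^ 2 / 2 ≤ Q * (∑ i ∈ s, z i ^ 2) / 2 := by
    rw [mul_sum, sum_div]
    refine sum_le_sum fun i hi => ?_
    rw [← sum_div, ← sum_mul]
    have := mul_le_mul_of_nonneg_right (hQ i hi) (sq_nonneg (z i))
    linarith
  simp_rw [sum_add_distrib] at h1
  linarith

/-- spectral lower bound for a nearly regular kernel whose square is nearly constant -/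
theorem spec_abs {s : Finset ι} {b : ι → ι → ℝ} {D D3 ε Q : ℝ} (hb : ∀ i j, b i j = b j i)
    (hD : 0 ≤ D) (hε0 : 0 ≤ ε) (hε : ε ≤ 1 / 2) (hQ0 : 0 ≤ Q)
    (hrow : ∀ i ∈ s, |∑ j ∈ s, b i j - D| ≤ ε * D)
    (hsq : ∀ i ∈ s, ∑ j ∈ s, |∑ k ∈ s, b k i * b k j - D3| ≤ Q) (y : ι → ℝ) :
    -((2 * ε ^ 2 * D + Real.sqrt Q) * ∑ i ∈ s, y i ^ 2) ≤ ∑ i ∈ s, y i * ∑ j ∈ s, b i j * y j := by
  rcases s.eq_empty_or_nonempty with rfl | hne
  · simp
  have hm : (0 : ℝ) < s.card := by exact_mod_cast hne.card_pos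
  set m : ℝ := (s.card : ℝ) with hmdef
  set α : ℝ := (∑ i ∈ s, y i) / m with hα
  set z : ι → ℝ := fun i => y i - α with hz
  have hz0 : ∑ i ∈ s, z i = 0 := by
    simp only [hz, sum_sub_distrib, sum_const, nsmul_eq_mul]
    rw [hα]; field_simp; ring
  have hy : ∀ i, y i = α + z i := fun i => by simp [hz]
  -- norms
  have hyz : ∑ i ∈ s, y i ^ 2 = m * α ^ 2 + ∑ i ∈ s, z i ^ 2 := by
    have : ∑ i ∈ s, y i ^ 2 = ∑ i ∈ s, (α ^ 2 + 2 * α * z i + z i ^ 2) :=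
      sum_congr rfl fun i _ => by rw [hy i]; ring
    rw [this, sum_add_distrib, sum_add_distrib, ← mul_sum, hz0]
    simp [hmdef]
  -- expansion of the quadratic form
  set r : ι → ℝ := fun i => ∑ j ∈ s, b i j - D with hr
  have hq : ∑ i ∈ s, y i * ∑ j ∈ s, b i j * y j
      = α ^ 2 * ∑ i ∈ s, ∑ j ∈ s, b i j + 2 * α * ∑ i ∈ s, z i * r i
        + ∑ i ∈ s, z i * ∑ j ∈ s, b i j * z j := by
    have e1 : ∑ i ∈ s, z i * r i = ∑ i ∈ s, ∑ j ∈ s, z i * b i j := by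
      simp only [hr, mul_sub, sum_sub_distrib, ← sum_mul, hz0, zero_mul, sub_zero, mul_sum]
    have e2 : ∑ i ∈ s, ∑ j ∈ s, z i * b i j = ∑ i ∈ s, ∑ j ∈ s, b i j * z j := by
      rw [sum_comm]
      exact sum_congr rfl fun i _ => sum_congr rfl fun j _ => by rw [hb j i]; ring
    have e3 : ∑ i ∈ s, y i * ∑ j ∈ s, b i j * y j
        = ∑ i ∈ s, ∑ j ∈ s, (α ^ 2 * b i j + α * (z i * b i j) + α * (b i j * z j)
          + z i * (b i j * z j)) := by
      refine sum_congr rfl fun i _ => ?_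
      rw [mul_sum]
      refine sum_congr rfl fun j _ => ?_
      rw [hy i, hy j]; ring
    rw [e3, e1]
    simp only [sum_add_distrib, ← mul_sum]
    simp only [mul_sum s _ (z _)] at e2 ⊢
    rw [← e2]
    ring
  have h11 : m * (D / 2) ≤ ∑ i ∈ s, ∑ j ∈ s, b i j := by
    have : ∑ _i ∈ s, D / 2 ≤ ∑ i ∈ s, ∑ j ∈ s, b i j := by
      refine sum_le_sum fun i hi => ?_
      have := (abs_le.1 (hrow i hi)).1
      nlinarith
    simpa [hmdef] using this
  set β := nrm s z with hβ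
  have hβ0 : 0 ≤ β := nrm_nn s z
  have hβ2 : β ^ 2 = ∑ i ∈ s, z i ^ 2 := nrm_sq s z
  have hεD : 0 ≤ ε * D := mul_nonneg hε0 hD
  have hrn : nrm s r ≤ ε * D * Real.sqrt m := by
    apply nrm_le_of_sq (mul_nonneg hεD (Real.sqrt_nonneg _))
    rw [mul_pow, Real.sq_sqrt hm.le]
    have : ∑ i ∈ s, r i ^ 2 ≤ ∑ _i ∈ s, (ε * D) ^ 2 := by
      refine sum_le_sum fun i hi => ?_
      exact sq_le_sq' (abs_le.1 (hrow i hi)).1 (abs_le.1 (hrow i hi)).2
    simpa [hmdef, mul_comm] using this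
  have h12 : |∑ i ∈ s, z i * r i| ≤ β * (ε * D * Real.sqrt m) :=
    (abs_inner_le s z r).trans (mul_le_mul_of_nonneg_left hrn hβ0)
  have hBz : nrm s (fun i => ∑ j ∈ s, b i j * z j) ≤ Real.sqrt Q * β := by
    apply nrm_le_of_sq (by positivity)
    rw [mul_pow, Real.sq_sqrt hQ0, hβ2]
    have e1 : ∑ k ∈ s, (∑ j ∈ s, b k j * z j) ^ 2
        = ∑ i ∈ s, ∑ j ∈ s, z i * z j * (∑ k ∈ s, b k i * b k j - D3) := by
      have e2 : ∑ i ∈ s, ∑ j ∈ s, z i * z j * D3 = 0 := by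
        simp only [mul_assoc, ← mul_sum, ← sum_mul, hz0, zero_mul]
      simp only [mul_sub, sum_sub_distrib, e2, sub_zero]
      simp only [sq, sum_mul_sum]
      simp only [mul_sum]
      rw [sum_comm]
      refine sum_congr rfl fun i _ => ?_
      rw [sum_comm]
      exact sum_congr rfl fun j _ => sum_congr rfl fun k _ => by ring
    rw [e1]
    refine schur (fun i j => ?_) hsq z
    congr 1
    exact sum_congr rfl fun k _ => mul_comm _ _
  have h22 : |∑ i ∈ s, z i * ∑ j ∈ s, b i j * z j| ≤ β * (Real.sqrt Q * β) :=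
    (abs_inner_le s z _).trans (mul_le_mul_of_nonneg_left hBz hβ0)
  set a := |α| * Real.sqrt m with ha
  have ha0 : 0 ≤ a := mul_nonneg (abs_nonneg _) (Real.sqrt_nonneg _)
  have ha2 : a ^ 2 = m * α ^ 2 := by rw [ha, mul_pow, sq_abs, Real.sq_sqrt hm.le]; ring
  have c1 : a ^ 2 * (D / 2) ≤ α ^ 2 * ∑ i ∈ s, ∑ j ∈ s, b i j := by
    have := mul_le_mul_of_nonneg_left h11 (sq_nonneg α)
    rw [ha2]; linarith
  have c2 : -(2 * (ε * D) * a * β) ≤ 2 * α * ∑ i ∈ s, z i * r i := by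
    have d1 : |α * ∑ i ∈ s, z i * r i| ≤ |α| * (β * (ε * D * Real.sqrt m)) := by
      rw [abs_mul]; exact mul_le_mul_of_nonneg_left h12 (abs_nonneg _)
    have d2 := (abs_le.1 d1).1
    rw [ha]; linarith
  have c3 := (abs_le.1 h22).1
  have hsQ : 0 ≤ Real.sqrt Q := Real.sqrt_nonneg _
  rw [hq, hyz, ← hβ2, ← ha2]
  have c4 : 0 ≤ D / 2 * (a - 2 * ε * β) ^ 2 := mul_nonneg (by linarith) (sq_nonneg _)
  have c5 : 0 ≤ (2 * ε ^ 2 * D + Real.sqrt Q) * a ^ 2 :=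
    mul_nonneg (add_nonneg (mul_nonneg (mul_nonneg zero_le_two (sq_nonneg _)) hD) hsQ) (sq_nonneg _)
  nlinarith

end Abstract

/-- neighbourhood -/
noncomputable def Nb (G : SimpleGraph V) (u : V) : Finset V := univ.filter fun v => G.Adj u v

theorem mem_Nb {u v : V} : v ∈ Nb G u ↔ G.Adj u v := by simp [Nb]

theorem mem_cn_pair {u v w : V} : w ∈ cn G {u, v} ↔ G.Adj u w ∧ G.Adj v w := by
  simp [mem_cn]

theorem sum_cn_pair (u v : V) (y : V → ℝ) :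
    ∑ w ∈ cn G {u, v}, y w = ∑ w ∈ Nb G u, (if G.Adj v w then 1 else 0) * y w := by
  simp only [ite_mul, one_mul, zero_mul]
  rw [← sum_filter]
  refine sum_congr ?_ fun _ _ => rfl
  ext w; simp [mem_cn_pair, mem_Nb]

section PRsec
variable {D D3 ε : ℝ} (hPR : PR G D D3 ε)
include hPR

theorem card_cn_le (hD : 0 ≤ D) (hε : ε ≤ 1 / 2) {u v : V} (h : G.Adj u v) :
    ((cn G {u, v}).card : ℝ) ≤ 3 / 2 * D := by
  have := (abs_le.1 (hPR.two {u, v} (card_pair h.ne))).2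
  nlinarith

theorem spec (hD : 0 ≤ D) (hD3 : 0 ≤ D3) (hε0 : 0 ≤ ε) (hε : ε ≤ 1 / 2) (u : V) (y : V → ℝ) :
    -((2 * ε ^ 2 * D + Real.sqrt (2 * D + D3 + Fintype.card V * ε * D3)) * ∑ v ∈ Nb G u, y v ^ 2)
      ≤ ∑ v ∈ Nb G u, y v * ∑ w ∈ cn G {u, v}, y w := by
  simp_rw [sum_cn_pair]
  refine spec_abs (b := fun v w => if G.Adj v w then 1 else 0) (D3 := D3) ?_ hD hε0 hε
    (by positivity) ?_ ?_ y
  · intro i j; simp only [G.adj_comm]
  · intro v hv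
    have h1 := sum_cn_pair (G := G) u v (fun _ => 1)
    simp only [mul_one, sum_const, nsmul_eq_mul] at h1
    rw [← h1]
    exact hPR.two _ (card_pair (mem_Nb.1 hv).ne)
  · intro v hv
    have hc : ∀ v' , ∑ k ∈ Nb G u, (if G.Adj k v then (1 : ℝ) else 0) * (if G.Adj k v' then 1 else 0)
        = (cn G {u, v, v'}).card := by
      intro v'
      have : ∀ k, (if G.Adj k v then (1 : ℝ) else 0) * (if G.Adj k v' then 1 else 0)
          = if G.Adj k v ∧ G.Adj k v' then 1 else 0 := by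
        intro k; by_cases h1 : G.Adj k v <;> by_cases h2 : G.Adj k v' <;> simp [h1, h2]
      simp_rw [this]
      rw [sum_boole]
      congr 2
      ext k
      simp [mem_cn, mem_Nb, G.adj_comm k]
    simp_rw [hc]
    rw [← add_sum_erase _ _ hv]
    have b1 : |((cn G {u, v, v}).card : ℝ) - D3| ≤ 2 * D + D3 := by
      have e : ({u, v, v} : Finset V) = {u, v} := by simp
      rw [e]
      have := card_cn_le hPR hD hε (mem_Nb.1 hv)
      have h0 : (0 : ℝ) ≤ (cn G {u, v}).card := by positivity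
      rw [abs_le]; constructor <;> linarith
    have b2 : ∑ v' ∈ (Nb G u).erase v, |((cn G {u, v, v'}).card : ℝ) - D3|
        ≤ Fintype.card V * ε * D3 := by
      calc _ ≤ ∑ _v' ∈ (Nb G u).erase v, ε * D3 := by
            refine sum_le_sum fun v' hv' => hPR.three _ ?_
            have h1 := (mem_Nb.1 hv).ne
            have h2 := (mem_Nb.1 (mem_of_mem_erase hv')).ne
            have h3 := (ne_of_mem_erase hv').symm
            exact card_eq_three.2 ⟨u, v, v', h1, h2, h3, rfl⟩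
        _ = ((Nb G u).erase v).card * (ε * D3) := by simp
        _ ≤ Fintype.card V * (ε * D3) := by
            gcongr
            exact card_le_univ _
        _ = _ := by ring
    linarith

/-- `‖B y‖² ≤ (3D/2)² ‖y‖²` -/
theorem B_sq (hD : 0 ≤ D) (hε : ε ≤ 1 / 2) (u : V) (y : V → ℝ) :
    ∑ v ∈ Nb G u, (∑ w ∈ cn G {u, v}, y w) ^ 2 ≤ (3 / 2 * D) ^ 2 * ∑ v ∈ Nb G u, y v ^ 2 := by
  have h1 : ∑ v ∈ Nb G u, (∑ w ∈ cn G {u, v}, y w) ^ 2
      ≤ ∑ v ∈ Nb G u, 3 / 2 * D * ∑ w ∈ cn G {u, v}, y w ^ 2 := by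
    refine sum_le_sum fun v hv => le_trans sq_sum_le_card_mul_sum_sq ?_
    exact mul_le_mul_of_nonneg_right (card_cn_le hPR hD hε (mem_Nb.1 hv))
      (sum_nonneg fun _ _ => sq_nonneg _)
  have h2 : ∑ v ∈ Nb G u, ∑ w ∈ cn G {u, v}, y w ^ 2
      = ∑ w ∈ Nb G u, ∑ _v ∈ cn G {u, w}, y w ^ 2 := by
    apply sum_comm'
    intro v w
    simp only [mem_Nb, mem_cn_pair]
    constructor
    · rintro ⟨a, b, c⟩; exact ⟨⟨a, c.symm⟩, b⟩
    · rintro ⟨⟨a, c⟩, b⟩; exact ⟨a, b, c.symm⟩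
  have h3 : ∑ w ∈ Nb G u, ∑ _v ∈ cn G {u, w}, y w ^ 2 ≤ 3 / 2 * D * ∑ w ∈ Nb G u, y w ^ 2 := by
    rw [mul_sum]
    refine sum_le_sum fun w hw => ?_
    rw [sum_const, nsmul_eq_mul]
    exact mul_le_mul_of_nonneg_right (card_cn_le hPR hD hε (mem_Nb.1 hw)) (sq_nonneg _)
  rw [← mul_sum, h2] at h1
  have h4 := mul_le_mul_of_nonneg_left h3 (by positivity : 0 ≤ 3 / 2 * D)
  nlinarith

/-- a single entry of `B y` -/
theorem B_entry (hD : 0 ≤ D) (hε : ε ≤ 1 / 2) {u v : V} (h : G.Adj u v) (y : V → ℝ) :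
    (∑ w ∈ cn G {u, v}, y w) ^ 2 ≤ 3 / 2 * D * ∑ w ∈ Nb G u, y w ^ 2 := by
  refine le_trans sq_sum_le_card_mul_sum_sq ?_
  refine mul_le_mul (card_cn_le hPR hD hε h) ?_ (sum_nonneg fun _ _ => sq_nonneg _) (by positivity)
  refine sum_le_sum_of_subset_of_nonneg (fun w hw => mem_Nb.2 (mem_cn_pair.1 hw).1) ?_
  exact fun _ _ _ => sq_nonneg _

end PRsec

/-- ordered adjacent pairs -/
noncomputable def Pr (G : SimpleGraph V) : Finset (V × V) := univ.filter fun p => G.Adj p.1 p.2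

theorem sum_Pr (f : V × V → ℝ) : ∑ p ∈ Pr G, f p = ∑ u, ∑ v ∈ Nb G u, f (u, v) := by
  unfold Pr Nb
  rw [sum_filter, Fintype.sum_prod_type]
  simp only [sum_filter]

theorem sum_Nb_swap (f : V → V → ℝ) :
    ∑ u, ∑ v ∈ Nb G u, f u v = ∑ u, ∑ v ∈ Nb G u, f v u := by
  apply sum_comm'
  intro u v
  simp [mem_Nb, G.adj_comm]

theorem exp_three_le : Real.exp 3 ≤ 27 := by
  have h := Real.exp_one_lt_d9
  have : Real.exp 3 = Real.exp 1 ^ 3 := by rw [← Real.exp_nat_mul]; norm_num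
  rw [this]
  have h0 := (Real.exp_pos 1).le
  calc Real.exp 1 ^ 3 ≤ 3 ^ 3 := pow_le_pow_left₀ h0 (by linarith) 3
    _ = 27 := by norm_num

theorem exp_two_le : Real.exp 2 ≤ 9 := by
  have h := Real.exp_one_lt_d9
  have : Real.exp 2 = Real.exp 1 ^ 2 := by rw [← Real.exp_nat_mul]; norm_num
  rw [this]
  have h0 := (Real.exp_pos 1).le
  calc Real.exp 1 ^ 2 ≤ 3 ^ 2 := pow_le_pow_left₀ h0 (by linarith) 2
    _ = 9 := by norm_num

end LinAux
open LinAux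

theorem lin_stab {D D3 ε ℓ ε₁ lam : ℝ} (hPR : PR G D D3 ε) (hD : 1 ≤ D) (hD3 : 0 ≤ D3)
    (hDn : D ≤ Fintype.card V) (hε0 : 0 ≤ ε) (hε : ε ≤ 1 / 2)
    (hlam : 2 * ε ^ 2 + Real.sqrt (2 * D + D3 + Fintype.card V * ε * D3) / D ≤ lam)
    (hℓ : 1 ≤ ℓ) (hlamℓ : lam * ℓ ≤ 1) (hε₁ : 0 ≤ ε₁) (T : ℕ) (ρ : ℕ → ℝ) (hρ0 : ∀ t, 0 ≤ ρ t)
    (hρ : ∀ t, 8 * ρ t ≤ lam) (hsum : ∑ t ∈ range T, ρ t ≤ ℓ) (x : ℕ → V → V → ℝ)
    (hsymm : ∀ t u v, x t u v = x t v u) (h0 : ∀ u v, x 0 u v = 0)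
    (hrec : ∀ t < T, ∀ u v, G.Adj u v →
      |x (t + 1) u v - x t u v + ρ t * ((∑ w ∈ cn G {u, v}, (x t u w + x t v w)) / D)| ≤ ρ t * ε₁) :
    ∀ u v, G.Adj u v → |x T u v| ≤ 2000 * ℓ ^ 3 * ε₁ * Fintype.card V / D := by
  have hD0 : 0 < D := by linarith
  set n : ℝ := (Fintype.card V : ℝ) with hn
  have hn1 : 1 ≤ n := le_trans hD hDn
  have hlam0 : 0 ≤ lam := le_trans (by positivity) hlam
  have hlamD : 2 * ε ^ 2 * D + Real.sqrt (2 * D + D3 + n * ε * D3) ≤ lam * D := by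
    have := mul_le_mul_of_nonneg_right hlam hD0.le
    rw [add_mul, div_mul_cancel₀ _ hD0.ne'] at this
    exact this
  have hsp : ∀ u (y : V → ℝ), -(lam * ∑ v ∈ Nb G u, y v ^ 2)
      ≤ ∑ v ∈ Nb G u, y v * ((∑ w ∈ cn G {u, v}, y w) / D) := by
    intro u y
    have h1 := spec hPR hD0.le hD3 hε0 hε u y
    have hS : 0 ≤ ∑ v ∈ Nb G u, y v ^ 2 := sum_nonneg fun _ _ => sq_nonneg _
    have h2 := mul_le_mul_of_nonneg_right hlamD hS
    simp_rw [← mul_div_assoc]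
    rw [← sum_div, le_div_iff₀ hD0]
    linarith
  have hBs : ∀ u (y : V → ℝ), ∑ v ∈ Nb G u, ((∑ w ∈ cn G {u, v}, y w) / D) ^ 2
      ≤ 9 / 4 * ∑ v ∈ Nb G u, y v ^ 2 := by
    intro u y
    have h1 := B_sq hPR hD0.le hε u y
    simp_rw [div_pow]
    rw [← sum_div, div_le_iff₀ (by positivity)]
    linarith
  -- global norm
  have hglob : ∀ t ≤ T, nrm (Pr G) (fun p => x t p.1 p.2) ≤ 27 * ℓ * (n * ε₁) := by
    have hg := gron (T := T) (a := fun t => nrm (Pr G) (fun p => x t p.1 p.2)) (ρ := ρ)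
      (κ := 3 * lam) (F := n * ε₁) (ℓ := ℓ) (by positivity) (by positivity) hρ0 hsum
      (by simp [nrm, h0]) ?_
    · intro t ht
      refine (hg t ht).trans ?_
      have : Real.exp (3 * lam * ℓ) ≤ 27 :=
        le_trans (Real.exp_le_exp.2 (by linarith)) exp_three_le
      gcongr
    · intro t ht
      have hs := step (s := Pr G) (y := fun p => x t p.1 p.2) (y' := fun p => x (t + 1) p.1 p.2)
        (L := fun p => (∑ w ∈ cn G {p.1, p.2}, (x t p.1 w + x t p.2 w)) / D) (e := fun _ => ε₁)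
        (ρ := ρ t) (μ := 2 * lam) (K := 9) (κ := 3 * lam) (hρ0 t) (by positivity)
        (by have := hρ t; linarith) ?_ ?_ ?_
      · refine hs.trans ?_
        have : nrm (Pr G) (fun _ => ε₁) ≤ n * ε₁ := by
          apply nrm_le_of_sq (by positivity)
          rw [sum_const, nsmul_eq_mul, mul_pow]
          refine mul_le_mul_of_nonneg_right ?_ (sq_nonneg _)
          have h1 : (Pr G).card ≤ Fintype.card (V × V) := card_le_univ _
          rw [Fintype.card_prod] at h1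
          have h2 : ((Pr G).card : ℝ) ≤ (Fintype.card V : ℝ) * Fintype.card V := by exact_mod_cast h1
          rw [sq]; exact h2
        have := mul_le_mul_of_nonneg_left this (hρ0 t)
        linarith
      · simp only [sum_Pr, sum_add_distrib, add_div, mul_add]
        have e1 : ∑ u, ∑ v ∈ Nb G u, x t u v * ((∑ w ∈ cn G {u, v}, x t v w) / D)
            = ∑ u, ∑ v ∈ Nb G u, x t u v * ((∑ w ∈ cn G {u, v}, x t u w) / D) := by
          rw [sum_Nb_swap]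
          refine sum_congr rfl fun u _ => sum_congr rfl fun v _ => ?_
          rw [hsymm t v u, pair_comm]
        rw [e1]
        have e2 : -(lam * ∑ u, ∑ v ∈ Nb G u, x t u v ^ 2)
            ≤ ∑ u, ∑ v ∈ Nb G u, x t u v * ((∑ w ∈ cn G {u, v}, x t u w) / D) := by
          rw [mul_sum, ← sum_neg_distrib]
          exact sum_le_sum fun u _ => hsp u (x t u)
        linarith
      · simp only [sum_Pr, sum_add_distrib, add_div]
        have e1 : ∑ u, ∑ v ∈ Nb G u, ((∑ w ∈ cn G {u, v}, x t v w) / D) ^ 2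
            = ∑ u, ∑ v ∈ Nb G u, ((∑ w ∈ cn G {u, v}, x t u w) / D) ^ 2 := by
          rw [sum_Nb_swap]
          refine sum_congr rfl fun u _ => sum_congr rfl fun v _ => ?_
          rw [pair_comm]
        have e2 : ∑ u, ∑ v ∈ Nb G u, ((∑ w ∈ cn G {u, v}, x t u w) / D) ^ 2
            ≤ 9 / 4 * ∑ u, ∑ v ∈ Nb G u, x t u v ^ 2 := by
          rw [mul_sum]
          exact sum_le_sum fun u _ => hBs u (x t u)
        have e3 : ∑ u, ∑ v ∈ Nb G u,
            ((∑ w ∈ cn G {u, v}, x t u w) / D + (∑ w ∈ cn G {u, v}, x t v w) / D) ^ 2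
            ≤ ∑ u, ∑ v ∈ Nb G u, (2 * ((∑ w ∈ cn G {u, v}, x t u w) / D) ^ 2
              + 2 * ((∑ w ∈ cn G {u, v}, x t v w) / D) ^ 2) := by
          refine sum_le_sum fun u _ => sum_le_sum fun v _ => ?_
          nlinarith [sq_nonneg ((∑ w ∈ cn G {u, v}, x t u w) / D - (∑ w ∈ cn G {u, v}, x t v w) / D)]
        simp only [sum_add_distrib, ← mul_sum] at e3
        linarith
      · intro p hp
        rw [abs_of_nonneg hε₁]
        exact hrec t ht p.1 p.2 (by simpa [Pr] using hp)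
  -- row norms
  set σ := Real.sqrt (2 / D) with hσ
  have hσ0 : 0 ≤ σ := Real.sqrt_nonneg _
  have hσ2 : σ ^ 2 = 2 / D := Real.sq_sqrt (by positivity)
  set F := σ * (27 * ℓ * (n * ε₁)) + Real.sqrt n * ε₁ with hF
  have hF0 : 0 ≤ F := by positivity
  have hent : ∀ {u v : V}, G.Adj u v → ∀ y : V → ℝ,
      ((∑ w ∈ cn G {u, v}, y w) / D) ^ 2 ≤ σ ^ 2 * ∑ w ∈ Nb G u, y w ^ 2 := by
    intro u v h y
    have h1 := B_entry hPR hD0.le hε h y
    have hS : 0 ≤ ∑ w ∈ Nb G u, y w ^ 2 := sum_nonneg fun _ _ => sq_nonneg _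
    rw [hσ2, div_pow, div_le_iff₀ (by positivity)]
    have : 2 / D * (∑ w ∈ Nb G u, y w ^ 2) * D ^ 2 = 2 * D * ∑ w ∈ Nb G u, y w ^ 2 := by
      field_simp
    rw [this]
    nlinarith
  have hrow : ∀ u, ∀ t ≤ T, nrm (Nb G u) (x t u) ≤ 9 * ℓ * F := by
    intro u
    have hg := gron (T := T) (a := fun t => nrm (Nb G u) (x t u)) (ρ := ρ)
      (κ := 2 * lam) (F := F) (ℓ := ℓ) (by positivity) hF0 hρ0 hsum
      (by simp [nrm, h0]) ?_
    · intro t ht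
      refine (hg t ht).trans ?_
      have : Real.exp (2 * lam * ℓ) ≤ 9 :=
        le_trans (Real.exp_le_exp.2 (by linarith)) exp_two_le
      gcongr
    · intro t ht
      have hs := step (s := Nb G u) (y := x t u) (y' := x (t + 1) u)
        (L := fun v => (∑ w ∈ cn G {u, v}, x t u w) / D)
        (e := fun v => |(∑ w ∈ cn G {u, v}, x t v w) / D| + ε₁)
        (ρ := ρ t) (μ := lam) (K := 9 / 4) (κ := 2 * lam) (hρ0 t) (by positivity)
        (by have := hρ t; linarith) (hsp u _) (hBs u _) ?_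
      · refine hs.trans ?_
        have a1 : nrm (Nb G u) (fun _ => ε₁) ≤ Real.sqrt n * ε₁ := by
          apply nrm_le_of_sq (by positivity)
          rw [sum_const, nsmul_eq_mul, mul_pow, Real.sq_sqrt (by positivity)]
          refine mul_le_mul_of_nonneg_right ?_ (sq_nonneg _)
          rw [hn]
          exact_mod_cast card_le_univ _
        have a2 : nrm (Nb G u) (fun v => |(∑ w ∈ cn G {u, v}, x t v w) / D|)
            ≤ σ * nrm (Pr G) (fun p => x t p.1 p.2) := by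
          apply nrm_le_of_sq (mul_nonneg hσ0 (nrm_nn _ _))
          rw [mul_pow, nrm_sq, sum_Pr, mul_sum]
          calc ∑ v ∈ Nb G u, |(∑ w ∈ cn G {u, v}, x t v w) / D| ^ 2
              ≤ ∑ v ∈ Nb G u, σ ^ 2 * ∑ w ∈ Nb G v, x t v w ^ 2 := by
                refine sum_le_sum fun v hv => ?_
                rw [sq_abs, pair_comm]
                exact hent (mem_Nb.1 hv).symm _
            _ ≤ _ := by
                refine sum_le_sum_of_subset_of_nonneg (subset_univ _) fun v _ _ => ?_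
                exact mul_nonneg (sq_nonneg _) (sum_nonneg fun _ _ => sq_nonneg _)
        have a3 := mul_le_mul_of_nonneg_left (hglob t ht.le) hσ0
        have a4 := nrm_add (Nb G u) (fun v => |(∑ w ∈ cn G {u, v}, x t v w) / D|) (fun _ => ε₁)
        have a5 : nrm (Nb G u) (fun v => |(∑ w ∈ cn G {u, v}, x t v w) / D| + ε₁) ≤ F := by
          rw [hF]; linarith
        have := mul_le_mul_of_nonneg_left a5 (hρ0 t)
        linarith
      · intro v hv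
        have h1 := hrec t ht u v (mem_Nb.1 hv)
        rw [sum_add_distrib, add_div, mul_add] at h1
        rw [abs_of_nonneg (by positivity : 0 ≤ |(∑ w ∈ cn G {u, v}, x t v w) / D| + ε₁)]
        have h2 : |ρ t * ((∑ w ∈ cn G {u, v}, x t v w) / D)|
            = ρ t * |(∑ w ∈ cn G {u, v}, x t v w) / D| := by
          rw [abs_mul, abs_of_nonneg (hρ0 t)]
        have h3 := abs_le.1 h1
        have h4 := abs_le.1 h2.le
        rw [abs_le]; constructor <;> linarith [h3.1, h3.2, h4.1, h4.2]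
  -- sup norm
  intro u v huv
  have habs : ∀ {u v : V}, G.Adj u v → ∀ t ≤ T,
      |(∑ w ∈ cn G {u, v}, x t u w) / D| ≤ σ * (9 * ℓ * F) := by
    intro u v h t ht
    have h1 : |(∑ w ∈ cn G {u, v}, x t u w) / D| ≤ σ * nrm (Nb G u) (x t u) := by
      apply abs_le.2 (abs_le_of_sq_le_sq' _ (mul_nonneg hσ0 (nrm_nn _ _)))
      rw [mul_pow, nrm_sq]
      exact hent h _
    exact h1.trans (mul_le_mul_of_nonneg_left (hrow u t ht) hσ0)
  have hg := gron (T := T) (a := fun t => |x t u v|) (ρ := ρ) (κ := 0)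
    (F := ε₁ + 2 * (σ * (9 * ℓ * F))) (ℓ := ℓ) le_rfl (by positivity) hρ0 hsum (by simp [h0]) ?_
  · have h1 := hg T le_rfl
    simp only [zero_mul, Real.exp_zero, one_mul] at h1
    refine h1.trans ?_
    set k := n / D with hk
    have hk1 : 1 ≤ k := by rw [hk, le_div_iff₀ hD0]; linarith
    have s1 : σ * σ * n = 2 * k := by rw [← sq, hσ2, hk]; ring
    have s2 : σ * Real.sqrt n ≤ 2 * k := by
      apply abs_le_of_sq_le_sq' _ (by positivity) |>.2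
      rw [mul_pow, Real.sq_sqrt (by linarith : (0 : ℝ) ≤ n), sq σ, s1]
      nlinarith
    have e : 2000 * ℓ ^ 3 * ε₁ * n / D = 2000 * ℓ ^ 3 * ε₁ * k := by rw [hk]; ring
    rw [e]
    have e2 : ℓ * (ε₁ + 2 * (σ * (9 * ℓ * F)))
        = ε₁ * (ℓ + 486 * ℓ ^ 3 * (σ * σ * n) + 18 * ℓ ^ 2 * (σ * Real.sqrt n)) := by
      rw [hF]; ring
    rw [e2, s1]
    have l1 : ℓ ≤ ℓ ^ 3 * k := by
      have : ℓ ≤ ℓ ^ 3 := by nlinarith [mul_self_nonneg ℓ, sq_nonneg (ℓ - 1)]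
      nlinarith
    have l2 : ℓ ^ 2 * (σ * Real.sqrt n) ≤ ℓ ^ 3 * (2 * k) := by
      have : ℓ ^ 2 ≤ ℓ ^ 3 := pow_le_pow_right₀ hℓ (by norm_num)
      exact mul_le_mul this s2 (by positivity) (by positivity)
    have l3 : 0 ≤ ℓ ^ 3 * k := by positivity
    have l4 : ℓ + 486 * ℓ ^ 3 * (2 * k) + 18 * ℓ ^ 2 * (σ * Real.sqrt n) ≤ 2000 * ℓ ^ 3 * k := by
      nlinarith
    have := mul_le_mul_of_nonneg_left l4 hε₁
    linarith
  · intro t ht
    have h1 := hrec t ht u v huv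
    rw [sum_add_distrib, add_div, mul_add] at h1
    have a1 := habs huv t ht.le
    have a2 := habs huv.symm t ht.le
    rw [pair_comm] at a2
    have b1 : |ρ t * ((∑ w ∈ cn G {u, v}, x t u w) / D)| ≤ ρ t * (σ * (9 * ℓ * F)) := by
      rw [abs_mul, abs_of_nonneg (hρ0 t)]; exact mul_le_mul_of_nonneg_left a1 (hρ0 t)
    have b2 : |ρ t * ((∑ w ∈ cn G {u, v}, x t v w) / D)| ≤ ρ t * (σ * (9 * ℓ * F)) := by
      rw [abs_mul, abs_of_nonneg (hρ0 t)]; exact mul_le_mul_of_nonneg_left a2 (hρ0 t)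
    have c1 := abs_le.1 h1
    have c2 := abs_le.1 b1
    have c3 := abs_le.1 b2
    have c4 := le_abs_self (x t u v)
    have c5 := neg_abs_le (x t u v)
    simp only [zero_mul, add_zero, one_mul]
    rw [abs_le]; constructor <;> linarith [c1.1, c1.2, c2.1, c2.2, c3.1, c3.2]

end Crest.Agent.R030
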