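import Crest.Agent.R030.Basic

/-! # Row 30: the mean-field density and the time windows -/

set_option autoImplicit false
set_option linter.unusedSectionVars false

namespace Crest.Agent.R030
open Finset
open scoped Classical

variable {D : ℝ} {M : ℕ}

theorem pseq_succ (D : ℝ) (M t : ℕ) :
    pseq D M (t + 1) = pseq D M t * (1 - D * pseq D M t ^ 2 / M) := rfl

theorem pseq_Mpos (hD : 1 ≤ D) (hM : 10 * D ≤ M) : (0 : ℝ) < M := by linarith

theorem pseq_DM (hD : 1 ≤ D) (hM : 10 * D ≤ M) : D / M ≤ 1 / 10 := by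
  have := pseq_Mpos hD hM
  rw [div_le_iff₀ this]; linarith

theorem pseq_x_le {p : ℝ} (hD : 1 ≤ D) (hM : 10 * D ≤ M) (h0 : 0 ≤ p) (h1 : p ≤ 1) :
    D * p ^ 2 / M ≤ D / M := by
  have hM0 := pseq_Mpos hD hM
  have hp : p ^ 2 ≤ 1 := pow_le_one₀ h0 h1
  apply div_le_div_of_nonneg_right _ hM0.le
  nlinarith

theorem pseq_pos_le (hD : 1 ≤ D) (hM : 10 * D ≤ M) (t : ℕ) :
    0 < pseq D M t ∧ pseq D M t ≤ 1 := by
  induction t with
  | zero => simp [pseq]
  | succ t ih =>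
    obtain ⟨h0, h1⟩ := ih
    have hM0 := pseq_Mpos hD hM
    have hx := pseq_x_le hD hM h0.le h1
    have hδ := pseq_DM hD hM
    have hx0 : 0 ≤ D * pseq D M t ^ 2 / M := by positivity
    rw [pseq_succ]
    refine ⟨mul_pos h0 (by linarith), ?_⟩
    nlinarith

theorem pseq_pos (hD : 1 ≤ D) (hM : 10 * D ≤ M) (t : ℕ) : 0 < pseq D M t :=
  (pseq_pos_le hD hM t).1

theorem pseq_le_one (hD : 1 ≤ D) (hM : 10 * D ≤ M) (t : ℕ) : pseq D M t ≤ 1 :=
  (pseq_pos_le hD hM t).2

theorem pseq_rate_pos (hD : 1 ≤ D) (hM : 10 * D ≤ M) (t : ℕ) : 0 < D * pseq D M t ^ 2 / M := by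
  have hM0 := pseq_Mpos hD hM
  have h0 := pseq_pos hD hM t
  positivity

theorem pseq_rate_le' (hD : 1 ≤ D) (hM : 10 * D ≤ M) (t : ℕ) : D * pseq D M t ^ 2 / M ≤ D / M :=
  pseq_x_le hD hM (pseq_pos hD hM t).le (pseq_le_one hD hM t)

theorem pseq_rate_le (hD : 1 ≤ D) (hM : 10 * D ≤ M) (t : ℕ) : D * pseq D M t ^ 2 / M ≤ 1 / 10 :=
  (pseq_rate_le' hD hM t).trans (pseq_DM hD hM)

theorem pseq_anti (hD : 1 ≤ D) (hM : 10 * D ≤ M) : Antitone (pseq D M) := by
  apply antitone_nat_of_succ_le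
  intro t
  have h0 := pseq_pos hD hM t
  have hx := pseq_rate_pos hD hM t
  rw [pseq_succ]
  nlinarith

/-- `p⁻²` grows by at least `2D/M` per step -/
theorem pseq_upper (hD : 1 ≤ D) (hM : 10 * D ≤ M) (t : ℕ) :
    pseq D M t ^ 2 * (1 + 2 * D * t / M) ≤ 1 := by
  induction t with
  | zero => simp [pseq]
  | succ t ih =>
    have hM0 := pseq_Mpos hD hM
    have hx0 := pseq_rate_pos hD hM t
    have hx1 := pseq_rate_le hD hM t
    rw [pseq_succ]
    set x := D * pseq D M t ^ 2 / M with hx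
    have e : (pseq D M t * (1 - x)) ^ 2 * (1 + 2 * D * ((t + 1 : ℕ) : ℝ) / M) =
        (1 - x) ^ 2 * (pseq D M t ^ 2 * (1 + 2 * D * t / M) + 2 * x) := by
      rw [hx]; push_cast; field_simp; ring
    rw [e]
    have h1 : (1 - x) ^ 2 * (pseq D M t ^ 2 * (1 + 2 * D * t / M) + 2 * x) ≤
        (1 - x) ^ 2 * (1 + 2 * x) := by
      apply mul_le_mul_of_nonneg_left _ (sq_nonneg _)
      linarith
    have h2 : (1 - x) ^ 2 * (1 + 2 * x) ≤ 1 := by
      have : (1 - x) ^ 2 * (1 + 2 * x) = 1 - x ^ 2 * (3 - 2 * x) := by ring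
      rw [this]
      have : 0 ≤ x ^ 2 * (3 - 2 * x) := mul_nonneg (sq_nonneg _) (by linarith)
      linarith
    linarith

/-- `p⁻²` grows by at most `2D/M (1 + 4D/M)` per step -/
theorem pseq_lower (hD : 1 ≤ D) (hM : 10 * D ≤ M) (t : ℕ) :
    1 ≤ pseq D M t ^ 2 * (1 + 2 * D * (1 + 4 * D / M) * t / M) := by
  induction t with
  | zero => simp [pseq]
  | succ t ih =>
    have hM0 := pseq_Mpos hD hM
    have hx0 := pseq_rate_pos hD hM t
    have hx1 := pseq_rate_le hD hM t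
    have hx2 := pseq_rate_le' hD hM t
    rw [pseq_succ]
    set x := D * pseq D M t ^ 2 / M with hx
    have e : (pseq D M t * (1 - x)) ^ 2 * (1 + 2 * D * (1 + 4 * D / M) * ((t + 1 : ℕ) : ℝ) / M) =
        (1 - x) ^ 2 * (pseq D M t ^ 2 * (1 + 2 * D * (1 + 4 * D / M) * t / M)
          + 2 * x * (1 + 4 * (D / M))) := by
      rw [hx]; push_cast; field_simp; ring
    rw [e]
    have h1 : (1 - x) ^ 2 * (1 + 2 * x * (1 + 4 * x)) ≤
        (1 - x) ^ 2 * (pseq D M t ^ 2 * (1 + 2 * D * (1 + 4 * D / M) * t / M)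
          + 2 * x * (1 + 4 * (D / M))) := by
      apply mul_le_mul_of_nonneg_left _ (sq_nonneg _)
      have : 2 * x * (1 + 4 * x) ≤ 2 * x * (1 + 4 * (D / M)) := by
        apply mul_le_mul_of_nonneg_left _ (by linarith)
        linarith
      linarith
    have h2 : 1 ≤ (1 - x) ^ 2 * (1 + 2 * x * (1 + 4 * x)) := by
      have : (1 - x) ^ 2 * (1 + 2 * x * (1 + 4 * x)) = 1 + x ^ 2 * (5 - 14 * x + 8 * x ^ 2) := by
        ring
      rw [this]
      have : 0 ≤ x ^ 2 * (5 - 14 * x + 8 * x ^ 2) :=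
        mul_nonneg (sq_nonneg _) (by nlinarith [sq_nonneg x])
      linarith
    linarith

/-- `p n ≤ exp (-∑ ρ₀)` -/
theorem pseq_le_exp (hD : 1 ≤ D) (hM : 10 * D ≤ M) (n : ℕ) :
    pseq D M n ≤ Real.exp (-∑ t ∈ range n, D * pseq D M t ^ 2 / M) := by
  induction n with
  | zero => simp [pseq]
  | succ n ih =>
    rw [pseq_succ, sum_range_succ, neg_add, Real.exp_add]
    have hx1 := pseq_rate_le hD hM n
    apply mul_le_mul ih _ (by linarith) (Real.exp_pos _).le
    have := Real.add_one_le_exp (-(D * pseq D M n ^ 2 / M))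
    linarith

theorem pseq_M_lower (hD : 1 ≤ D) (hM : 10 * D ≤ M) : 1 ≤ pseq D M M ^ 2 * (1 + 3 * D) := by
  have hM0 := pseq_Mpos hD hM
  have h := pseq_lower hD hM M
  have hδ := pseq_DM hD hM
  have e : 2 * D * (1 + 4 * D / M) * (M : ℝ) / M = 2 * D * (1 + 4 * (D / M)) := by
    field_simp
  rw [e] at h
  refine h.trans (mul_le_mul_of_nonneg_left ?_ (sq_nonneg _))
  nlinarith

/-- `∑ ρ₀ ≤ log (1/p M) ≤ log (1+3D) / 2` -/
theorem sum_rho0_le (hD : 1 ≤ D) (hM : 10 * D ≤ M) :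
    ∑ t ∈ range M, D * pseq D M t ^ 2 / M ≤ Real.log (1 + 3 * D) / 2 := by
  have h1 := pseq_le_exp hD hM M
  have h2 := pseq_M_lower hD hM
  have h0 := pseq_pos hD hM M
  set S := ∑ t ∈ range M, D * pseq D M t ^ 2 / M
  have h3 : pseq D M M ^ 2 ≤ Real.exp (-S) ^ 2 := pow_le_pow_left₀ h0.le h1 2
  have h4 : 1 ≤ Real.exp (-S) ^ 2 * (1 + 3 * D) :=
    h2.trans (mul_le_mul_of_nonneg_right h3 (by linarith))
  have h5 := Real.log_le_log one_pos h4
  rw [Real.log_one, Real.log_mul (by positivity) (by positivity), Real.log_pow, Real.log_exp] at h5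
  push_cast at h5
  linarith

/-- `p = D p² / (D p)` and `1/p ≤ √(1+3D) ≤ 2 √D` -/
theorem sum_pseq_le (hD : 1 ≤ D) (hM : 10 * D ≤ M) :
    ∑ t ∈ range M, pseq D M t / M ≤ Real.log (1 + 3 * D) / Real.sqrt D := by
  have hM0 := pseq_Mpos hD hM
  have hD0 : 0 < D := by linarith
  have hs : 0 < Real.sqrt D := Real.sqrt_pos.2 hD0
  have hss : Real.sqrt D * Real.sqrt D = D := Real.mul_self_sqrt hD0.le
  have key : ∀ t ∈ range M, pseq D M t / M ≤ (2 / Real.sqrt D) * (D * pseq D M t ^ 2 / M) := by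
    intro t ht
    have h0 := pseq_pos hD hM t
    have hM' := pseq_pos hD hM M
    have hle : pseq D M M ≤ pseq D M t := pseq_anti hD hM (mem_range.1 ht).le
    have h2 := pseq_M_lower hD hM
    have h3 : pseq D M M ^ 2 ≤ pseq D M t ^ 2 := pow_le_pow_left₀ hM'.le hle 2
    have h4 : 1 ≤ (2 * Real.sqrt D * pseq D M t) ^ 2 := by
      have : (2 * Real.sqrt D * pseq D M t) ^ 2 = pseq D M t ^ 2 * (4 * D) := by
        rw [mul_pow, mul_pow, sq (Real.sqrt D), hss]; ring
      rw [this]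
      refine h2.trans (mul_le_mul h3 (by linarith) (by linarith) (sq_nonneg _))
    have h5 : 1 ≤ 2 * Real.sqrt D * pseq D M t := by
      by_contra hc
      push Not at hc
      have : 0 ≤ 2 * Real.sqrt D * pseq D M t := by positivity
      nlinarith
    have e : (2 / Real.sqrt D) * (D * pseq D M t ^ 2 / M) =
        (2 * Real.sqrt D * pseq D M t) * (pseq D M t / M) := by
      have : D * pseq D M t ^ 2 = Real.sqrt D * Real.sqrt D * pseq D M t ^ 2 := by rw [hss]
      rw [this]; field_simp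
    rw [e]
    exact le_mul_of_one_le_left (by positivity) h5
  refine (sum_le_sum key).trans ?_
  rw [← mul_sum]
  have := sum_rho0_le hD hM
  calc 2 / Real.sqrt D * ∑ t ∈ range M, D * pseq D M t ^ 2 / M
      ≤ 2 / Real.sqrt D * (Real.log (1 + 3 * D) / 2) :=
        mul_le_mul_of_nonneg_left this (by positivity)
    _ = Real.log (1 + 3 * D) / Real.sqrt D := by field_simp

/-- `p a ≤ exp (2 ∑_{a ≤ t < b} ρ₀) p b` -/
theorem pseq_ratio (hD : 1 ≤ D) (hM : 10 * D ≤ M) {a b : ℕ} (hab : a ≤ b) :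
    pseq D M a ≤ Real.exp (2 * ∑ t ∈ Ico a b, D * pseq D M t ^ 2 / M) * pseq D M b := by
  induction b, hab using Nat.le_induction with
  | base => simp
  | succ b hab ih =>
    rw [sum_Ico_succ_top hab, mul_add, Real.exp_add, pseq_succ, mul_assoc]
    refine ih.trans (mul_le_mul_of_nonneg_left ?_ (Real.exp_pos _).le)
    have hx0 := pseq_rate_pos hD hM b
    have hx1 := pseq_rate_le hD hM b
    have h0 := pseq_pos hD hM b
    set x := D * pseq D M b ^ 2 / M
    have h1 := Real.add_one_le_exp (2 * x)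
    have h2 : 1 ≤ Real.exp (2 * x) * (1 - x) := by
      have : (2 * x + 1) * (1 - x) ≤ Real.exp (2 * x) * (1 - x) :=
        mul_le_mul_of_nonneg_right h1 (by linarith)
      nlinarith
    calc pseq D M b = pseq D M b * 1 := (mul_one _).symm
      _ ≤ pseq D M b * (Real.exp (2 * x) * (1 - x)) := mul_le_mul_of_nonneg_left h2 h0.le
      _ = Real.exp (2 * x) * (pseq D M b * (1 - x)) := by ring

/-- windows: `cw i` is the last time `t ≤ M` with `∑_{s<t} ρ₀ s ≤ i` -/
theorem exists_windows (hD : 1 ≤ D) (hM : 10 * D ≤ M) :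
    ∃ (top : ℕ) (cw : ℕ → ℕ), cw 0 = 0 ∧ Monotone cw ∧ (∀ i, cw i ≤ M) ∧ cw top = M ∧
      (top : ℝ) ≤ Real.log (1 + 3 * D) / 2 + 1 ∧
      (∀ i, pseq D M (cw i) ≤ Real.exp 4 * pseq D M (cw (i + 1))) ∧
      (∀ i, ∑ t ∈ Ico (cw i) (cw (i + 1)), D * pseq D M t ^ 2 / M ≤ 2) := by
  set S : ℕ → ℝ := fun n => ∑ t ∈ range n, D * pseq D M t ^ 2 / M with hS
  set cw : ℕ → ℕ := fun i => Nat.findGreatest (fun t => S t ≤ (i : ℝ)) M with hcw
  have hS0 : S 0 = 0 := by simp [hS]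
  have hSnn : ∀ n, 0 ≤ S n := fun n => sum_nonneg fun t _ => (pseq_rate_pos hD hM t).le
  have hmono : Monotone cw := by
    intro i j hij
    apply Nat.findGreatest_mono_left
    intro t ht
    exact ht.trans (by exact_mod_cast hij)
  have hle : ∀ i, cw i ≤ M := fun i => Nat.findGreatest_le M
  have hspec : ∀ i, S (cw i) ≤ (i : ℝ) := by
    intro i
    exact Nat.findGreatest_spec (P := fun t => S t ≤ (i : ℝ)) (Nat.zero_le M)
      (by simp only [hS0]; positivity)
  have hsum : ∀ i, ∑ t ∈ Ico (cw i) (cw (i + 1)), D * pseq D M t ^ 2 / M ≤ 2 := by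
    intro i
    have hii := hmono (Nat.le_succ i)
    rcases (hle i).eq_or_lt with h | h
    · have : cw (i + 1) = cw i := le_antisymm (h ▸ hle (i + 1)) hii
      rw [this]; simp
    · have h1 : ¬ S (cw i + 1) ≤ (i : ℝ) :=
        Nat.findGreatest_is_greatest (P := fun t => S t ≤ (i : ℝ)) (Nat.lt_succ_self _) h
      have h2 : S (cw i + 1) = S (cw i) + D * pseq D M (cw i) ^ 2 / M := by
        simp only [hS, sum_range_succ]
      have h3 := pseq_rate_le hD hM (cw i)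
      have h4 := hspec (i + 1)
      have h5 : ∑ t ∈ Ico (cw i) (cw (i + 1)), D * pseq D M t ^ 2 / M =
          S (cw (i + 1)) - S (cw i) := sum_Ico_eq_sub _ hii
      rw [h5]
      push_cast at h4
      push Not at h1
      linarith
  refine ⟨⌈S M⌉₊, cw, ?_, hmono, hle, ?_, ?_, ?_, hsum⟩
  · rw [hcw]
    simp only
    rw [Nat.findGreatest_eq_zero_iff]
    intro n hn _ hc
    have : 0 < S n := sum_pos (fun t _ => pseq_rate_pos hD hM t) (by simpa using hn.ne')
    simp only [Nat.cast_zero] at hc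
    linarith
  · exact Nat.findGreatest_eq (P := fun t => S t ≤ ((⌈S M⌉₊ : ℕ) : ℝ)) (Nat.le_ceil _)
  · have h1 := (Nat.ceil_lt_add_one (hSnn M)).le
    have h2 : S M ≤ Real.log (1 + 3 * D) / 2 := sum_rho0_le hD hM
    linarith
  · intro i
    refine (pseq_ratio hD hM (hmono (Nat.le_succ i))).trans ?_
    apply mul_le_mul_of_nonneg_right _ (pseq_pos hD hM _).le
    apply Real.exp_le_exp.2
    have := hsum i
    linarith

end Crest.Agent.R030
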