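import Crest.Agent.R030.Basic

/-! # Row 30: belief propagation (basic bounds) and the product measure -/

set_option autoImplicit false
set_option linter.unusedSectionVars false

namespace Crest.Agent.R030
open Finset
open scoped Classical

variable {V : Type} [Fintype V] [DecidableEq V] {G : SimpleGraph V} {M : ℕ}

/-! ## BP bounds (joint induction on `t ≤ M`: `0 ≤ abar t ≤ t/M`) -/

theorem abar_succ (t : ℕ) (h : Finset V) (q : V) :
    abar G M (t + 1) h q = abar G M t h q + mu G M t h q / M := rfl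

theorem abar_eq_sum (t : ℕ) (h : Finset V) (q : V) :
    abar G M t h q = ∑ s ∈ range t, mu G M s h q / M := by
  induction t with
  | zero => simp [abar]
  | succ t ih => rw [abar_succ, sum_range_succ, ih]

theorem mu_bd_aux {t : ℕ} (H : ∀ h q, 0 ≤ abar G M t h q ∧ abar G M t h q ≤ 1)
    (h : Finset V) (q : V) : 0 ≤ mu G M t h q ∧ mu G M t h q ≤ 1 := by
  have h1 : ∀ f T, 0 ≤ mdir G M t f T ∧ mdir G M t f T ≤ 1 := by
    intro f T
    unfold mdir
    exact ⟨prod_nonneg fun q' _ => by linarith [(H f q').2],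
      prod_le_one (fun q' _ => by linarith [(H f q').2]) fun q' _ => by linarith [(H f q').1]⟩
  unfold mu
  exact ⟨prod_nonneg fun x _ => (h1 _ _).1, prod_le_one (fun x _ => (h1 _ _).1) fun x _ => (h1 _ _).2⟩

theorem cast_div_le_one {t : ℕ} (ht : t ≤ M) : (t : ℝ) / M ≤ 1 := by
  apply div_le_one_of_le₀
  · exact_mod_cast ht
  · positivity

theorem abar_bd {t : ℕ} (ht : t ≤ M) :
    ∀ (h : Finset V) (q : V), 0 ≤ abar G M t h q ∧ abar G M t h q ≤ t / M := by
  induction t with
  | zero => intro h q; simp [abar]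
  | succ t ih =>
    intro h q
    have ht' : t ≤ M := by omega
    have ih' := ih ht'
    have hm := mu_bd_aux (G := G) (M := M) (t := t)
      (fun h q => ⟨(ih' h q).1, (ih' h q).2.trans (cast_div_le_one ht')⟩) h q
    have hM : (0 : ℝ) ≤ M := by positivity
    rw [abar_succ]
    refine ⟨add_nonneg (ih' h q).1 (div_nonneg hm.1 hM), ?_⟩
    push_cast
    rw [add_div]
    exact add_le_add (ih' h q).2 (div_le_div_of_nonneg_right hm.2 hM)

theorem abar_nn {t : ℕ} (ht : t ≤ M) (h : Finset V) (q : V) : 0 ≤ abar G M t h q :=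
  (abar_bd ht h q).1

theorem abar_le {t : ℕ} (ht : t ≤ M) (h : Finset V) (q : V) : abar G M t h q ≤ t / M :=
  (abar_bd ht h q).2

theorem abar_le_one {t : ℕ} (ht : t ≤ M) (h : Finset V) (q : V) : abar G M t h q ≤ 1 :=
  (abar_le ht h q).trans (cast_div_le_one ht)

theorem mu_bd {t : ℕ} (ht : t ≤ M) (h : Finset V) (q : V) :
    0 ≤ mu G M t h q ∧ mu G M t h q ≤ 1 :=
  mu_bd_aux (fun h q => ⟨abar_nn ht h q, abar_le_one ht h q⟩) h q

theorem abar_mono {s t : ℕ} (hst : s ≤ t) (ht : t ≤ M) (h : Finset V) (q : V) :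
    abar G M s h q ≤ abar G M t h q := by
  rw [abar_eq_sum, abar_eq_sum]
  apply sum_le_sum_of_subset_of_nonneg (range_subset_range.2 hst)
  intro i hi _
  have := mem_range.1 hi
  exact div_nonneg (mu_bd (by omega) h q).1 (by positivity)

theorem mu_zero (h : Finset V) (q : V) : mu G M 0 h q = 1 := by simp [mu, mdir, abar]

theorem mu_nn {t : ℕ} (ht : t ≤ M) (h : Finset V) (q : V) : 0 ≤ mu G M t h q := (mu_bd ht h q).1

theorem mu_le_one {t : ℕ} (ht : t ≤ M) (h : Finset V) (q : V) : mu G M t h q ≤ 1 :=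
  (mu_bd ht h q).2

theorem mu_anti {s t : ℕ} (hst : s ≤ t) (ht : t ≤ M) (h : Finset V) (q : V) :
    mu G M t h q ≤ mu G M s h q := by
  unfold mu mdir
  refine prod_le_prod (fun x _ => prod_nonneg fun q' _ => ?_) fun x _ =>
    prod_le_prod (fun q' _ => ?_) fun q' _ => ?_
  · linarith [abar_le_one (G := G) ht {x, q} q']
  · linarith [abar_le_one (G := G) ht {x, q} q']
  · linarith [abar_mono (G := G) hst ht {x, q} q']

theorem mm_zero (h : Finset V) : mm G M 0 h = 1 := by simp [mm, abar]

theorem mm_nn {t : ℕ} (ht : t ≤ M) (h : Finset V) : 0 ≤ mm G M t h :=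
  prod_nonneg fun q _ => by linarith [abar_le_one (G := G) ht h q]

theorem mm_le_one {t : ℕ} (ht : t ≤ M) (h : Finset V) : mm G M t h ≤ 1 :=
  prod_le_one (fun q _ => by linarith [abar_le_one (G := G) ht h q])
    fun q _ => by linarith [abar_nn (G := G) ht h q]

theorem mm_anti {s t : ℕ} (hst : s ≤ t) (ht : t ≤ M) (h : Finset V) :
    mm G M t h ≤ mm G M s h :=
  prod_le_prod (fun q _ => by linarith [abar_le_one (G := G) ht h q])
    fun q _ => by linarith [abar_mono (G := G) hst ht h q]

/-- `mu ≤ pt` follows from `mu ≤ pt²` and `mu ≤ 1` -/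
theorem NumOK.mu_le' {pt : ℕ → ℝ} {D qq η Z : ℝ} {L : ℕ} (hN : NumOK G M pt D qq η Z L)
    {t : ℕ} (ht : t < M) {h : Finset V} {q : V} (he : IsEdge G h) (hq : q ∈ cn G h) :
    mu G M t h q ≤ pt t := by
  have h1 := hN.mu_le t ht h q he hq
  have h2 := mu_le_one (G := G) ht.le h q
  have h3 := hN.pt_nn t
  by_cases h4 : pt t ≤ 1
  · nlinarith
  · linarith

/-! ## the measure -/

theorem wt_nn (hM : 0 < M) (i : Idx V) (v : Fin (M + 1)) : 0 ≤ wt G M i v := by
  have hv : (v : ℕ) ≤ M := by have := v.2; omega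
  rcases i with T | ⟨h, q⟩
  · simp only [wt]; split_ifs <;> positivity
  · simp only [wt]
    split_ifs with h1 h2 h2
    · norm_num
    · linarith [mu_le_one (G := G) hv h q]
    · linarith [mu_nn (G := G) (t := (v : ℕ) - 1) (M := M) (by omega) h q]
    · linarith [mu_anti (G := G) (s := (v : ℕ) - 1) (t := v) (M := M) (by omega) hv h q]

/-- tail sums of the weights of an ideal variable -/
theorem wt_tail_aux (g : ℕ → ℝ) (a : ℕ) (ha : a ≤ M) :
    ∑ v ∈ range (M + 1), (if a ≤ v then
      ((if v = 0 then 1 else g (v - 1)) - (if v = M then 0 else g v)) else 0)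
      = if a = 0 then 1 else g (a - 1) := by
  set u : ℕ → ℝ := fun v => if v = 0 then 1 else if v = M + 1 then 0 else g (v - 1) with hu
  have h1 : ∑ v ∈ range (M + 1), (if a ≤ v then
      ((if v = 0 then 1 else g (v - 1)) - (if v = M then 0 else g v)) else 0)
      = ∑ v ∈ Ico a (M + 1), (u v - u (v + 1)) := by
    rw [← sum_filter]
    apply sum_congr
    · ext v; simp only [mem_filter, mem_range, mem_Ico]; omega
    · intro v hv
      have := (mem_Ico.1 hv).2
      have h2 : v ≠ M + 1 := by omega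
      simp [hu, h2]
  rw [h1, sum_Ico_eq_sum_range]
  have h3 := sum_range_sub' (fun i => u (a + i)) (M + 1 - a)
  simp only [add_zero] at h3
  have h4 : a + (M + 1 - a) = M + 1 := by omega
  rw [h4] at h3
  simp only [← add_assoc] at h3
  rw [h3]
  have h5 : a ≠ M + 1 := by omega
  simp [hu, h5]

theorem wt_sum (hM : 0 < M) (i : Idx V) : ∑ v, wt G M i v = 1 := by
  rcases i with T | ⟨h, q⟩
  · simp only [wt]
    rw [Fin.sum_univ_eq_sum_range (fun v => if v < M then 1 / (M : ℝ) else 0) (M + 1),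
      sum_range_succ, if_neg (lt_irrefl M), add_zero,
      sum_congr rfl (fun v hv => if_pos (mem_range.1 hv))]
    have : (M : ℝ) ≠ 0 := by positivity
    simp [this]
  · simp only [wt]
    have := wt_tail_aux (M := M) (fun v => mu G M v h q) 0 (Nat.zero_le _)
    simp only [zero_le, if_true] at this
    rw [Fin.sum_univ_eq_sum_range (fun v => (if v = 0 then 1 else mu G M (v - 1) h q) -
      (if v = M then 0 else mu G M v h q)) (M + 1)]
    exact this

theorem Ex_add (f g : Om V M → ℝ) : Ex G M (fun ω => f ω + g ω) = Ex G M f + Ex G M g := by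
  simp only [Ex, mul_add, sum_add_distrib]

theorem Ex_sub (f g : Om V M → ℝ) : Ex G M (fun ω => f ω - g ω) = Ex G M f - Ex G M g := by
  simp only [Ex, mul_sub, sum_sub_distrib]

theorem Ex_const_mul (c : ℝ) (f : Om V M → ℝ) : Ex G M (fun ω => c * f ω) = c * Ex G M f := by
  simp only [Ex, mul_sum]
  exact sum_congr rfl fun ω _ => by ring

theorem Ex_sum {κ : Type} (s : Finset κ) (f : κ → Om V M → ℝ) :
    Ex G M (fun ω => ∑ k ∈ s, f k ω) = ∑ k ∈ s, Ex G M (f k) := by
  simp only [Ex, mul_sum]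
  rw [sum_comm]

theorem wprod_nn (hM : 0 < M) (ω : Om V M) : 0 ≤ ∏ i, wt G M i (ω i) :=
  prod_nonneg fun i _ => wt_nn hM i _

theorem wprod_sum (hM : 0 < M) : ∑ ω : Om V M, ∏ i, wt G M i (ω i) = 1 := by
  have := prod_univ_sum (fun _ : Idx V => (univ : Finset (Fin (M + 1)))) (fun i v => wt G M i v)
  simp only [wt_sum hM, prod_const_one, Fintype.piFinset_univ] at this
  exact this.symm

theorem Ex_const (hM : 0 < M) (c : ℝ) : Ex G M (fun _ => c) = c := by
  simp only [Ex]
  rw [← sum_mul, wprod_sum hM, one_mul]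

theorem Ex_mono (hM : 0 < M) {f g : Om V M → ℝ} (h : ∀ ω, f ω ≤ g ω) : Ex G M f ≤ Ex G M g :=
  sum_le_sum fun ω _ => mul_le_mul_of_nonneg_left (h ω) (wprod_nn hM ω)

theorem Ex_nn (hM : 0 < M) {f : Om V M → ℝ} (h : ∀ ω, 0 ≤ f ω) : 0 ≤ Ex G M f :=
  sum_nonneg fun ω _ => mul_nonneg (wprod_nn hM ω) (h ω)

theorem abs_Ex_le (hM : 0 < M) (f : Om V M → ℝ) : |Ex G M f| ≤ Ex G M (fun ω => |f ω|) := by
  unfold Ex
  refine (abs_sum_le_sum_abs _ _).trans (le_of_eq (sum_congr rfl fun ω _ => ?_))
  rw [abs_mul, abs_of_nonneg (wprod_nn hM ω)]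

/-- labels equal to `M` have weight zero -/
theorem Ex_mono_ae (hM : 0 < M) {f g : Om V M → ℝ}
    (h : ∀ ω, (∀ T, lab ω T < M) → f ω ≤ g ω) : Ex G M f ≤ Ex G M g := by
  refine sum_le_sum fun ω _ => ?_
  by_cases hω : ∀ T, lab ω T < M
  · exact mul_le_mul_of_nonneg_left (h ω hω) (wprod_nn hM ω)
  · push Not at hω
    obtain ⟨T, hT⟩ := hω
    have : ∏ i, wt G M i (ω i) = 0 := by
      apply prod_eq_zero (mem_univ (Sum.inl T))
      simp only [wt]
      rw [if_neg]
      unfold lab at hT
      omega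
    rw [this]; simp

theorem Ex_congr_ae (hM : 0 < M) {f g : Om V M → ℝ}
    (h : ∀ ω, (∀ T, lab ω T < M) → f ω = g ω) : Ex G M f = Ex G M g :=
  le_antisymm (Ex_mono_ae hM fun ω hω => (h ω hω).le) (Ex_mono_ae hM fun ω hω => (h ω hω).ge)

/-- swapping the coordinates in `s` between two samples -/
noncomputable def swp (s : Set (Idx V)) (p : Om V M × Om V M) : Om V M × Om V M :=
  (fun i => if i ∈ s then p.1 i else p.2 i, fun i => if i ∈ s then p.2 i else p.1 i)

theorem swp_swp (s : Set (Idx V)) (p : Om V M × Om V M) : swp s (swp s p) = p := by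
  ext i <;> simp only [swp] <;> split_ifs <;> rfl

/-- independence -/
theorem Ex_mul_of_indep (hM : 0 < M) {f g : Om V M → ℝ} {s t : Set (Idx V)}
    (hf : DependsOn f s) (hg : DependsOn g t) (hst : Disjoint s t) :
    Ex G M (fun ω => f ω * g ω) = Ex G M f * Ex G M g := by
  set w : Om V M → ℝ := fun ω => ∏ i, wt G M i (ω i) with hw
  have h1 : Ex G M f * Ex G M g = ∑ p : Om V M × Om V M, w p.1 * w p.2 * (f p.1 * g p.2) := by
    unfold Ex
    rw [sum_mul_sum, ← univ_product_univ, sum_product]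
    exact sum_congr rfl fun a _ => sum_congr rfl fun b _ => by simp only [hw]; ring
  have h2 : Ex G M (fun ω => f ω * g ω)
      = ∑ p : Om V M × Om V M, w p.1 * w p.2 * (f p.1 * g p.1) := by
    rw [← univ_product_univ, sum_product]
    unfold Ex
    refine sum_congr rfl fun a _ => ?_
    have : ∑ b : Om V M, w a * w b * (f a * g a) = (∑ b : Om V M, w b) * (w a * (f a * g a)) := by
      rw [sum_mul]; exact sum_congr rfl fun b _ => by ring
    rw [this, wprod_sum hM, one_mul]
  rw [h1, h2]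
  let e : Om V M × Om V M ≃ Om V M × Om V M := ⟨swp s, swp s, swp_swp s, swp_swp s⟩
  rw [← e.sum_comp]
  refine sum_congr rfl fun p _ => ?_
  have h3 : w (e p).1 * w (e p).2 = w p.1 * w p.2 := by
    simp only [hw, ← prod_mul_distrib]
    refine prod_congr rfl fun i _ => ?_
    show wt G M i (if i ∈ s then p.1 i else p.2 i) * wt G M i (if i ∈ s then p.2 i else p.1 i) = _
    split_ifs
    · rfl
    · ring
  have h4 : f (e p).1 = f p.1 := hf fun i hi => by
    show (if i ∈ s then p.1 i else p.2 i) = _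
    rw [if_pos hi]
  have h5 : g (e p).1 = g p.2 := hg fun i hi => by
    show (if i ∈ s then p.1 i else p.2 i) = _
    rw [if_neg (Set.disjoint_right.1 hst hi)]
  rw [h3, h4, h5]

theorem Ex_prod_of_indep (hM : 0 < M) {κ : Type} (s : Finset κ) (f : κ → Om V M → ℝ)
    (S : κ → Set (Idx V)) (hf : ∀ k ∈ s, DependsOn (f k) (S k))
    (hS : ∀ k ∈ s, ∀ k' ∈ s, k ≠ k' → Disjoint (S k) (S k')) :
    Ex G M (fun ω => ∏ k ∈ s, f k ω) = ∏ k ∈ s, Ex G M (f k) := by
  induction s using Finset.induction_on with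
  | empty => simpa using Ex_const hM 1
  | insert a s ha ih =>
    simp only [prod_insert ha]
    rw [← ih (fun k hk => hf k (mem_insert_of_mem hk))
      (fun k hk k' hk' => hS k (mem_insert_of_mem hk) k' (mem_insert_of_mem hk'))]
    refine Ex_mul_of_indep hM (hf a (mem_insert_self _ _)) (t := ⋃ k ∈ s, S k) ?_ ?_
    · intro x y hxy
      refine prod_congr rfl fun k hk => hf k (mem_insert_of_mem hk) fun i hi => hxy i ?_
      exact Set.mem_biUnion (t := S) (mem_coe.2 hk) hi
    · rw [Set.disjoint_left]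
      intro i hi hi'
      simp only [Set.mem_iUnion] at hi'
      obtain ⟨k, hk, hik⟩ := hi'
      exact Set.disjoint_left.1 (hS a (mem_insert_self _ _) k (mem_insert_of_mem hk)
        (fun e => ha (e ▸ hk))) hi hik

/-- expectation of a function of one coordinate -/
theorem Ex_coord (hM : 0 < M) (j : Idx V) (φ : Fin (M + 1) → ℝ) :
    Ex G M (fun ω => φ (ω j)) = ∑ v, wt G M j v * φ v := by
  have := prod_univ_sum (fun _ : Idx V => (univ : Finset (Fin (M + 1))))
    (fun i v => wt G M i v * if i = j then φ v else 1)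
  simp only [Fintype.piFinset_univ, prod_mul_distrib, prod_ite_eq', mem_univ, if_true] at this
  unfold Ex
  rw [← this, prod_eq_single j]
  · simp
  · intro i _ hij
    simp [hij, wt_sum hM]
  · simp

theorem Ex_ind {s : ℕ} (hs : s < M) (T : Finset V) : Ex G M (fun ω => ind ω T s) = 1 / M := by
  have hM : 0 < M := by omega
  have := Ex_coord (G := G) hM (Sum.inl T) (fun v => if (v : ℕ) = s then 1 else 0)
  unfold ind lab
  rw [this, sum_eq_single ⟨s, by omega⟩]
  · simp [wt, hs]
  · intro v _ hv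
    rw [if_neg (fun e => hv (Fin.ext e)), mul_zero]
  · simp

theorem act_eq_sum_ind' (ω : Om V M) (T : Finset V) (c : ℕ) :
    act ω T c = ∑ s ∈ range c, ind ω T s := by
  unfold act ind
  rw [sum_ite_eq]
  simp

theorem Ex_act (hM : 0 < M) {c : ℕ} (hc : c ≤ M) (T : Finset V) :
    Ex G M (fun ω => act ω T c) = c / M := by
  simp only [act_eq_sum_ind']
  rw [Ex_sum, sum_congr rfl fun s hs => Ex_ind (lt_of_lt_of_le (mem_range.1 hs) hc) T]
  simp [div_eq_mul_inv]

theorem Ex_lt_tau {a : ℕ} (ha : a < M) (h : Finset V) (q : V) :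
    Ex G M (fun ω => if a < (ω (Sum.inr (h, q)) : ℕ) then 1 else 0) = mu G M a h q := by
  have hM : 0 < M := by omega
  rw [Ex_coord (G := G) hM (Sum.inr (h, q)) (fun v => if a < (v : ℕ) then 1 else 0)]
  have := wt_tail_aux (M := M) (fun v => mu G M v h q) (a + 1) ha
  simp only [Nat.add_one_ne_zero, if_false, Nat.add_sub_cancel] at this
  rw [← this, ← Fin.sum_univ_eq_sum_range (fun v => if a + 1 ≤ v then
    ((if v = 0 then 1 else mu G M (v - 1) h q) - (if v = M then 0 else mu G M v h q)) else 0)]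
  refine sum_congr rfl fun v _ => ?_
  simp only [wt, Nat.succ_le_iff]
  split_ifs <;> simp

theorem Ex_ind_bit {s : ℕ} (hs : s < M) (h : Finset V) (q : V) :
    Ex G M (fun ω => ind ω (insert q h) s * bit ω h q) = mu G M s h q / M := by
  have hM : 0 < M := by omega
  have h1 : (fun ω : Om V M => ind ω (insert q h) s * bit ω h q) = fun ω =>
      ind ω (insert q h) s * if s < (ω (Sum.inr (h, q)) : ℕ) then 1 else 0 := by
    funext ω
    unfold ind bit
    by_cases hl : lab ω (insert q h) = s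
    · rw [hl]
    · simp [hl]
  rw [h1, Ex_mul_of_indep hM (s := {Sum.inl (insert q h)}) (t := {Sum.inr (h, q)}), Ex_ind hs,
    Ex_lt_tau hs]
  · ring
  · intro x y hxy
    have hl : lab x (insert q h) = lab y (insert q h) :=
      congrArg Fin.val (hxy _ (Set.mem_singleton _))
    show ind x _ s = ind y _ s
    unfold ind
    rw [hl]
  · intro x y hxy
    simp only
    rw [hxy _ (Set.mem_singleton _)]
  · simp

theorem Ex_act_bit (hM : 0 < M) {c : ℕ} (hc : c ≤ M) (h : Finset V) (q : V) :
    Ex G M (fun ω => act ω (insert q h) c * bit ω h q) = abar G M c h q := by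
  simp only [act_eq_sum_ind', sum_mul]
  rw [Ex_sum, abar_eq_sum]
  exact sum_congr rfl fun s hs => Ex_ind_bit (lt_of_lt_of_le (mem_range.1 hs) hc) h q

/-! ## pointwise facts -/

theorem act_nn (ω : Om V M) (T : Finset V) (c : ℕ) : 0 ≤ act ω T c := by
  unfold act; split_ifs <;> norm_num
theorem act_le_one (ω : Om V M) (T : Finset V) (c : ℕ) : act ω T c ≤ 1 := by
  unfold act; split_ifs <;> norm_num
theorem ind_nn (ω : Om V M) (T : Finset V) (c : ℕ) : 0 ≤ ind ω T c := by
  unfold ind; split_ifs <;> norm_num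
theorem ind_le_one (ω : Om V M) (T : Finset V) (c : ℕ) : ind ω T c ≤ 1 := by
  unfold ind; split_ifs <;> norm_num
theorem bit_nn (ω : Om V M) (h : Finset V) (q : V) : 0 ≤ bit ω h q := by
  unfold bit; split_ifs <;> norm_num
theorem bit_le_one (ω : Om V M) (h : Finset V) (q : V) : bit ω h q ≤ 1 := by
  unfold bit; split_ifs <;> norm_num
theorem bit_cases (ω : Om V M) (h : Finset V) (q : V) : bit ω h q = 0 ∨ bit ω h q = 1 := by
  unfold bit; split_ifs <;> norm_num
theorem act_eq_sum_ind (ω : Om V M) (T : Finset V) (c : ℕ) :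
    act ω T c = ∑ s ∈ range c, ind ω T s := act_eq_sum_ind' ω T c
theorem prod_zero_or_one {κ : Type} (s : Finset κ) (f : κ → ℝ) (hf : ∀ k ∈ s, f k = 0 ∨ f k = 1) :
    ∏ k ∈ s, f k = 0 ∨ ∏ k ∈ s, f k = 1 := by
  by_cases h : ∃ k ∈ s, f k = 0
  · obtain ⟨k, hk, h0⟩ := h
    exact Or.inl (prod_eq_zero hk h0)
  · push Not at h
    exact Or.inr (prod_eq_one fun k hk => (hf k hk).resolve_left (h k hk))
theorem XX_cases (e : Finset V) (w : V) (a : ℕ) (ω : Om V M) :
    XX G e w a ω = 0 ∨ XX G e w a ω = 1 := by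
  unfold XX
  refine prod_zero_or_one _ _ fun x _ => prod_zero_or_one _ _ fun q' _ => ?_
  unfold act bit
  split_ifs <;> norm_num

/-! ## dependence on triangles -/

theorem DepTri.mono {I : Om V M → ℝ} {𝒮 𝒮' : Set (Finset V)} (hI : DepTri I 𝒮) (h : 𝒮 ⊆ 𝒮') :
    DepTri I 𝒮' := fun _ _ hxy => hI fun i hi => hxy i (h hi)

theorem DepTri.mul {I I' : Om V M → ℝ} {𝒮 𝒮' : Set (Finset V)} (hI : DepTri I 𝒮)
    (hI' : DepTri I' 𝒮') : DepTri (fun ω => I ω * I' ω) (𝒮 ∪ 𝒮') := by
  intro x y hxy
  show I x * I' x = I y * I' y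
  rw [hI fun i hi => hxy i (Or.inl hi), hI' fun i hi => hxy i (Or.inr hi)]

theorem depTri_ind (T : Finset V) (s : ℕ) : DepTri (fun ω : Om V M => ind ω T s) {T} := by
  intro x y hxy
  have hl : lab x T = lab y T := congrArg Fin.val (hxy (Sum.inl T) rfl)
  show ind x _ s = ind y _ s
  unfold ind
  rw [hl]

theorem depTri_act (T : Finset V) (c : ℕ) : DepTri (fun ω : Om V M => act ω T c) {T} := by
  intro x y hxy
  have hl : lab x T = lab y T := congrArg Fin.val (hxy (Sum.inl T) rfl)
  show act x _ c = act y _ c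
  unfold act
  rw [hl]

theorem depTri_bit (h : Finset V) (q : V) :
    DepTri (fun ω : Om V M => bit ω h q) {insert q h} := by
  intro x y hxy
  have hl : lab x (insert q h) = lab y (insert q h) :=
    congrArg Fin.val (hxy (Sum.inl (insert q h)) rfl)
  show bit x h q = bit y h q
  unfold bit
  rw [hl, hxy (Sum.inr (h, q)) rfl]

theorem Ex_mul_of_depTri (hM : 0 < M) {I J : Om V M → ℝ} {𝒮 𝒮' : Set (Finset V)}
    (hI : DepTri I 𝒮) (hJ : DepTri J 𝒮') (hd : Disjoint 𝒮 𝒮') :
    Ex G M (fun ω => I ω * J ω) = Ex G M I * Ex G M J := by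
  refine Ex_mul_of_indep hM hI hJ ?_
  rw [Set.disjoint_left]
  intro i hi hi'
  exact Set.disjoint_left.1 hd hi hi'

theorem Ex_mul_ind {I : Om V M → ℝ} {𝒮 : Set (Finset V)} (hI : DepTri I 𝒮) {T : Finset V}
    (hT : T ∉ 𝒮) {s : ℕ} (hs : s < M) :
    Ex G M (fun ω => I ω * ind ω T s) = Ex G M I / M := by
  rw [Ex_mul_of_depTri (by omega) hI (depTri_ind T s) (Set.disjoint_singleton_right.2 hT),
    Ex_ind hs]
  ring

theorem Ex_mul_act (hM : 0 < M) {I : Om V M → ℝ} {𝒮 : Set (Finset V)} (hI : DepTri I 𝒮)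
    {T : Finset V} (hT : T ∉ 𝒮) {c : ℕ} (hc : c ≤ M) :
    Ex G M (fun ω => I ω * act ω T c) = Ex G M I * (c / M) := by
  rw [Ex_mul_of_depTri hM hI (depTri_act T c) (Set.disjoint_singleton_right.2 hT), Ex_act hM hc]

theorem Ex_mul_ind_bit {I : Om V M → ℝ} {𝒮 : Set (Finset V)} (hI : DepTri I 𝒮) {h : Finset V}
    {q : V} (hT : insert q h ∉ 𝒮) {s : ℕ} (hs : s < M) :
    Ex G M (fun ω => I ω * (ind ω (insert q h) s * bit ω h q)) = Ex G M I * (mu G M s h q / M) := by
  have hJ : DepTri (fun ω : Om V M => ind ω (insert q h) s * bit ω h q) {insert q h} :=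
    ((depTri_ind (insert q h) s).mul (depTri_bit h q)).mono (by simp)
  rw [Ex_mul_of_depTri (by omega) hI hJ (Set.disjoint_singleton_right.2 hT), Ex_ind_bit hs]

/-! ## the canonical availability -/

theorem dependsOn_XX (e : Finset V) (w : V) (a : ℕ) :
    DependsOn (XX (M := M) G e w a) {i | Xi e w (tri i)} := by
  intro x y hxy
  unfold XX
  refine prod_congr rfl fun z hz => prod_congr rfl fun q' hq' => ?_
  have hX : Xi e w (insert q' {z, w}) := ⟨by simp, ⟨z, hz, by simp⟩, (mem_filter.1 hq').2⟩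
  have hJ : DepTri (fun ω : Om V M => act ω (insert q' {z, w}) a * bit ω {z, w} q')
      {insert q' {z, w}} :=
    ((depTri_act (insert q' {z, w}) a).mul (depTri_bit {z, w} q')).mono (by simp)
  have := hJ (x := x) (y := y) fun i hi => hxy i (by
    have : tri i = insert q' {z, w} := hi
    show Xi e w (tri i)
    rw [this]; exact hX)
  simp only at this
  rw [this]

/-- the factors of `XX` involve pairwise different triangles -/
theorem Ex_XX (hM : 0 < M) {e : Finset V} {w : V} (he : IsEdge G e) (hw : w ∈ cn G e) {a : ℕ}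
    (ha : a ≤ M) : Ex G M (XX G e w a) = mu G M a e w := by
  set s : Finset (V × V) := univ.filter fun p => p.1 ∈ e ∧
    p.2 ∈ (cn G {p.1, w}).filter (fun q' => insert q' {p.1, w} ≠ insert w e) with hs
  have hprod : ∀ F : V → V → ℝ, ∏ x ∈ e,
      ∏ q' ∈ (cn G {x, w}).filter (fun q' => insert q' {x, w} ≠ insert w e), F x q'
      = ∏ p ∈ s, F p.1 p.2 := by
    intro F
    symm
    apply prod_finset_product' s e
      (fun x => (cn G {x, w}).filter (fun q' => insert q' {x, w} ≠ insert w e))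
    intro p
    simp only [hs, mem_filter, mem_univ, true_and]
  have hwe : w ∉ e := not_mem_of_mem_cn hw
  have h1 : XX (M := M) G e w a = fun ω => ∏ p ∈ s,
      (1 - act ω (insert p.2 {p.1, w}) a * bit ω {p.1, w} p.2) := by
    funext ω
    unfold XX
    exact hprod fun x q' => 1 - act ω (insert q' {x, w}) a * bit ω {x, w} q'
  have h2 : mu G M a e w = ∏ p ∈ s, (1 - abar G M a {p.1, w} p.2) := by
    unfold mu mdir
    exact hprod fun x q' => 1 - abar G M a {x, w} q'
  rw [h1, h2, Ex_prod_of_indep hM s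
    (fun p ω => 1 - act ω (insert p.2 {p.1, w}) a * bit ω {p.1, w} p.2)
    (fun p => {i | tri i ∈ ({insert p.2 {p.1, w}} : Set (Finset V))})]
  · refine prod_congr rfl fun p _ => ?_
    rw [Ex_sub, Ex_const hM, Ex_act_bit hM ha]
  · intro p _ x y hxy
    have hJ : DepTri (fun ω : Om V M => act ω (insert p.2 {p.1, w}) a * bit ω {p.1, w} p.2)
        {insert p.2 {p.1, w}} :=
      ((depTri_act (insert p.2 {p.1, w}) a).mul (depTri_bit {p.1, w} p.2)).mono (by simp)
    have := hJ hxy
    simp only at this ⊢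
    rw [this]
  · rintro ⟨x, q⟩ hp ⟨y, r⟩ hp' hne
    rw [Set.disjoint_left]
    intro i hi hi'
    have hi1 : tri i = insert q {x, w} := hi
    have hi2 : tri i = insert r {y, w} := hi'
    have heq : (insert q {x, w} : Finset V) = insert r {y, w} := hi1.symm.trans hi2
    simp only [hs, mem_filter, mem_univ, true_and] at hp hp'
    obtain ⟨hx, hq, hqT⟩ := hp
    obtain ⟨hy, hr, hrT⟩ := hp'
    by_cases hxy : x = y
    · subst hxy
      have : q ∈ (insert r {x, w} : Finset V) := by rw [← heq]; simp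
      rcases mem_insert.1 this with h | h
      · exact hne (by rw [h])
      · exact not_mem_of_mem_cn hq h
    · have : y ∈ (insert q {x, w} : Finset V) := by rw [heq]; simp
      simp only [mem_insert, mem_singleton] at this
      rcases this with h | h | h
      · apply hqT
        have he2 : e = {x, y} := by
          symm
          apply eq_of_subset_of_card_le
          · intro z hz
            simp only [mem_insert, mem_singleton] at hz
            rcases hz with rfl | rfl
            · exact hx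
            · exact hy
          · rw [he.card, card_pair hxy]
        rw [he2, ← h]
        ext z; simp only [mem_insert, mem_singleton]; tauto
      · exact hxy h.symm
      · exact hwe (h ▸ hy)

end Crest.Agent.R030
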