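import Crest.Agent.R030.Lin
import Crest.Agent.R030.PSeq
import Crest.Agent.R030.Prob

/-! # Row 30: belief propagation follows the mean-field density

`x t u v = mm t {u,v} / p t - 1`.  Strong induction on `t ≤ M`: assume `|x s| ≤ ζ` on edges for `s ≤ t`.
Then `abar s ≤ ∑ 4 p²/M ≤ 4ℓ/D` (first `abar ≤ 1/4`, `mdir t f T = mm t f / (1 - abar t f q')`), and
`mm (s+1) h = mm s h ∏_q (1 - z q)`, `z q = mu s h q / (M (1 - abar s h q))`, `p (s+1) = p s (1 - ρ s)`, `ρ s = D p²/M`, so the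
recursion of `lin_stab` holds with `ε₁ = 100 (ε + ζ² + ℓ/D + D/M)`, and `lin_stab` gives `|x (t+1)| ≤ ζ`.
-/

set_option autoImplicit false
set_option linter.unusedSectionVars false

namespace Crest.Agent.R030
open Finset Filter
open scoped Classical

variable {V : Type} [Fintype V] [DecidableEq V] {G : SimpleGraph V} {M : ℕ}

theorem prod_one_sub_bounds {ι : Type} (s : Finset ι) (z : ι → ℝ) (h0 : ∀ i ∈ s, 0 ≤ z i)
    (h1 : ∀ i ∈ s, z i ≤ 1) :
    1 - ∑ i ∈ s, z i ≤ ∏ i ∈ s, (1 - z i) ∧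
      ∏ i ∈ s, (1 - z i) ≤ 1 - ∑ i ∈ s, z i + (∑ i ∈ s, z i) ^ 2 := by
  induction s using Finset.induction_on with
  | empty => simp
  | insert a s ha ih =>
    rw [prod_insert ha, sum_insert ha]
    obtain ⟨i1, i2⟩ := ih (fun i hi => h0 i (mem_insert_of_mem hi))
      (fun i hi => h1 i (mem_insert_of_mem hi))
    have z0 := h0 a (mem_insert_self _ _)
    have z1 := h1 a (mem_insert_self _ _)
    have S0 : 0 ≤ ∑ i ∈ s, z i := sum_nonneg fun i hi => h0 i (mem_insert_of_mem hi)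
    set S := ∑ i ∈ s, z i
    set P := ∏ i ∈ s, (1 - z i)
    constructor
    · nlinarith [mul_le_mul_of_nonneg_left i1 (sub_nonneg.2 z1), mul_nonneg z0 S0]
    · nlinarith [mul_le_mul_of_nonneg_left i2 (sub_nonneg.2 z1), mul_nonneg z0 S0,
        mul_nonneg z0 (sq_nonneg S), sq_nonneg (z a)]

theorem rec_num {ρ x x' A e θ ζ η μ : ℝ} (hρ0 : 0 ≤ ρ) (hρ : ρ ≤ μ) (hμ : μ ≤ 1 / 100)
    (hx : |x| ≤ ζ) (hζ : ζ ≤ 1 / 100) (hA : |A| ≤ 3 * ζ) (he : |e| ≤ η) (hθ0 : 0 ≤ θ)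
    (hθ : θ ≤ 2 * ρ ^ 2) (h : (1 - ρ) * (x' + 1) = (1 + x) * (1 - ρ * (1 + A + e) + θ)) :
    |x' - x + ρ * A| ≤ ρ * (2 * η + 10 * ζ ^ 2 + 10 * μ) := by
  have hζ0 : 0 ≤ ζ := (abs_nonneg _).trans hx
  have hη0 : 0 ≤ η := (abs_nonneg _).trans he
  have h1 : (1 - ρ) * (x' - x + ρ * A) = -(ρ * (A * (x + ρ))) + (1 + x) * (θ - ρ * e) := by
    linear_combination h
  have h2 : |A * (x + ρ)| ≤ 3 * ζ * (ζ + μ) := by
    rw [abs_mul]
    refine mul_le_mul hA ((abs_add_le _ _).trans (add_le_add hx ?_)) (abs_nonneg _) (by positivity)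
    rw [abs_of_nonneg hρ0]; exact hρ
  have h3 : |θ - ρ * e| ≤ ρ * (2 * μ + η) := by
    refine (abs_sub _ _).trans ?_
    rw [abs_of_nonneg hθ0, abs_mul, abs_of_nonneg hρ0]
    nlinarith [mul_le_mul_of_nonneg_left he hρ0, mul_le_mul_of_nonneg_left hρ hρ0]
  have h4 : |1 + x| ≤ 1 + 1 / 100 := by
    refine (abs_add_le _ _).trans ?_
    rw [abs_one]; linarith
  have h5 : |(1 - ρ) * (x' - x + ρ * A)| ≤ ρ * (3 * ζ * (ζ + μ)) + (1 + 1 / 100) * (ρ * (2 * μ + η)) := by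
    rw [h1]
    refine (abs_add_le _ _).trans (add_le_add ?_ ?_)
    · rw [abs_neg, abs_mul, abs_of_nonneg hρ0]
      exact mul_le_mul_of_nonneg_left h2 hρ0
    · rw [abs_mul]
      exact mul_le_mul h4 h3 (abs_nonneg _) (by norm_num)
  rw [abs_mul, abs_of_nonneg (by linarith : 0 ≤ 1 - ρ)] at h5
  have hμ0 : 0 ≤ μ := hρ0.trans hρ
  have h6 : 99 / 100 * |x' - x + ρ * A| ≤ (1 - ρ) * |x' - x + ρ * A| :=
    mul_le_mul_of_nonneg_right (by linarith) (abs_nonneg _)
  have h7 : 3 * ζ * (ζ + μ) + (1 + 1 / 100) * (2 * μ + η)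
      ≤ 99 / 100 * (2 * η + 10 * ζ ^ 2 + 10 * μ) := by
    nlinarith [mul_le_mul_of_nonneg_right hζ hμ0, sq_nonneg ζ]
  nlinarith [mul_le_mul_of_nonneg_left h7 hρ0]

theorem w_num {y1 y2 a1 a2 a3 ζ a : ℝ} (h1 : |y1| ≤ ζ) (h2 : |y2| ≤ ζ) (hζ : ζ ≤ 1 / 100)
    (ha : a ≤ 4 / 100) (p1 : 0 ≤ a1) (p2 : 0 ≤ a2) (p3 : 0 ≤ a3) (q1 : a1 ≤ a) (q2 : a2 ≤ a)
    (q3 : a3 ≤ a) :
    |(1 + y1) * (1 + y2) / ((1 - a1) * (1 - a2) * (1 - a3)) - 1 - (y1 + y2)| ≤ ζ ^ 2 + 4 * a := by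
  have hζ0 : 0 ≤ ζ := (abs_nonneg _).trans h1
  have ha0 : 0 ≤ a := p1.trans q1
  set d := (1 - a1) * (1 - a2) * (1 - a3) with hd
  have hd1 : d ≤ 1 := by
    apply mul_le_one₀ (mul_le_one₀ (by linarith) (by linarith) (by linarith)) <;> linarith
  have hd2 : 1 - 3 * a ≤ d := by
    have e1 : 1 - 2 * a ≤ (1 - a1) * (1 - a2) := by nlinarith [mul_nonneg p1 p2]
    have e2 : (1 - 2 * a) * (1 - a3) ≤ d := mul_le_mul_of_nonneg_right e1 (by linarith)
    nlinarith [mul_nonneg ha0 p3]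
  have hd0 : 0 < d := by linarith
  have hy : |y1 * y2| ≤ ζ ^ 2 := by
    rw [abs_mul, sq]; exact mul_le_mul h1 h2 (abs_nonneg _) hζ0
  obtain ⟨l1, u1⟩ := abs_le.1 h1
  obtain ⟨l2, u2⟩ := abs_le.1 h2
  have hN0 : 0 ≤ (1 + y1) * (1 + y2) := mul_nonneg (by linarith) (by linarith)
  have hN1 : (1 + y1) * (1 + y2) ≤ 103 / 100 := by nlinarith
  set N := (1 + y1) * (1 + y2) with hN
  have e : N / d - 1 - (y1 + y2) = y1 * y2 + (N / d - N) := by rw [hN]; ring
  have b0 : 0 ≤ N / d - N := by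
    rw [sub_nonneg, le_div_iff₀ hd0]; nlinarith
  have b1 : N / d - N ≤ 4 * a := by
    rw [sub_le_iff_le_add, div_le_iff₀ hd0]
    nlinarith [mul_le_mul_of_nonneg_left hd2 hN0, mul_le_mul_of_nonneg_left hd2 ha0,
      mul_le_mul_of_nonneg_left hN1 ha0, mul_le_mul_of_nonneg_left ha ha0]
  rw [e]
  refine (abs_add_le _ _).trans (add_le_add hy ?_)
  rw [abs_of_nonneg b0]; exact b1

theorem step_num {ι : Type} (N : Finset ι) {ρ D ζ a ε μ x x' : ℝ} (y w : ι → ℝ)
    (hρ0 : 0 ≤ ρ) (hρ : ρ ≤ μ) (hμ : μ ≤ 1 / 100) (hD : 1 ≤ D) (hx : |x| ≤ ζ) (hζ : ζ ≤ 1 / 100)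
    (ha0 : 0 ≤ a) (ha : a ≤ 4 / 100) (hε : ε ≤ 1 / 100) (hN : |(N.card : ℝ) - D| ≤ ε * D)
    (hy : ∀ q ∈ N, |y q| ≤ 2 * ζ) (hw : ∀ q ∈ N, |w q - 1 - y q| ≤ ζ ^ 2 + 4 * a)
    (h : (1 - ρ) * (x' + 1) = (1 + x) * ∏ q ∈ N, (1 - ρ / D * w q)) :
    |x' - x + ρ * ((∑ q ∈ N, y q) / D)| ≤ ρ * (2 * ε + 20 * ζ ^ 2 + 20 * a + 10 * μ) := by
  have hζ0 : 0 ≤ ζ := (abs_nonneg _).trans hx
  have hD0 : 0 < D := by linarith
  have hζ2 : ζ ^ 2 ≤ 1 / 10000 := by nlinarith
  obtain ⟨hN1, hN2⟩ := abs_le.1 hN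
  have hNc : (N.card : ℝ) ≤ 101 / 100 * D := by nlinarith
  have hw0 : ∀ q ∈ N, 0 ≤ w q ∧ w q ≤ 2 := fun q hq => by
    obtain ⟨a1, a2⟩ := abs_le.1 (hw q hq)
    obtain ⟨b1, b2⟩ := abs_le.1 (hy q hq)
    constructor <;> linarith
  have hρD0 : 0 ≤ ρ / D := by positivity
  have hρD : ρ / D ≤ 1 / 100 := by
    rw [div_le_iff₀ hD0]; nlinarith
  obtain ⟨P1, P2⟩ := prod_one_sub_bounds N (fun q => ρ / D * w q)
    (fun q hq => mul_nonneg hρD0 (hw0 q hq).1)
    (fun q hq => by nlinarith [mul_le_mul hρD (hw0 q hq).2 (hw0 q hq).1 (by norm_num)])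
  set A := (∑ q ∈ N, y q) / D with hA
  set e := ((N.card : ℝ) - D) / D + (∑ q ∈ N, (w q - 1 - y q)) / D with he
  have hS : ∑ q ∈ N, ρ / D * w q = ρ * (1 + A + e) := by
    rw [← mul_sum, hA, he, sum_sub_distrib, sum_sub_distrib]
    simp only [sum_const, nsmul_eq_mul, mul_one]
    field_simp
    ring
  have hAb : |A| ≤ 3 * ζ := by
    rw [hA, abs_div, abs_of_pos hD0, div_le_iff₀ hD0]
    have := (abs_sum_le_sum_abs _ _).trans (sum_le_sum hy)
    simp only [sum_const, nsmul_eq_mul] at this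
    nlinarith [mul_le_mul_of_nonneg_right hNc hζ0]
  have heb : |e| ≤ ε + 101 / 100 * (ζ ^ 2 + 4 * a) := by
    refine (abs_add_le _ _).trans (add_le_add ?_ ?_)
    · rw [abs_div, abs_of_pos hD0, div_le_iff₀ hD0]; exact hN
    · rw [abs_div, abs_of_pos hD0, div_le_iff₀ hD0]
      have := (abs_sum_le_sum_abs _ _).trans (sum_le_sum hw)
      simp only [sum_const, nsmul_eq_mul] at this
      have h2 : 0 ≤ ζ ^ 2 + 4 * a := by positivity
      nlinarith [mul_le_mul_of_nonneg_right hNc h2]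
  rw [hS] at P1 P2
  obtain ⟨A1, A2⟩ := abs_le.1 hAb
  obtain ⟨e1, e2⟩ := abs_le.1 heb
  have hq : (1 + A + e) ^ 2 ≤ 2 := by
    have u1 : 1 + A + e ≤ 14 / 10 := by linarith
    have u2 : 0 ≤ 1 + A + e := by linarith
    nlinarith
  have := rec_num (θ := ∏ q ∈ N, (1 - ρ / D * w q) - (1 - ρ * (1 + A + e))) (x' := x')
    hρ0 hρ hμ hx hζ hAb heb (by linarith)
    (by nlinarith [mul_le_mul_of_nonneg_left hq (sq_nonneg ρ)]) (by rw [h]; ring)
  refine this.trans (mul_le_mul_of_nonneg_left ?_ hρ0)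
  nlinarith [sq_nonneg ζ]

/-- removing the single ignored triangle from the survival product -/
theorem mm_eq_mdir {u v q : V} (huv : G.Adj u v) (hq : q ∈ cn G {u, v}) (t : ℕ) :
    v ∈ cn G {u, q} ∧
      mm G M t {u, q} = mdir G M t {u, q} (insert q {u, v}) * (1 - abar G M t {u, q} v) := by
  have hv : v ∈ cn G {u, q} := by
    rw [mem_cn]
    intro z hz
    simp only [mem_insert, mem_singleton] at hz
    rcases hz with rfl | rfl
    · exact huv
    · exact (mem_cn.1 hq v (by simp)).symm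
  refine ⟨hv, ?_⟩
  unfold mm mdir
  rw [← prod_erase_mul _ _ hv]
  congr 1
  refine prod_congr ?_ fun _ _ => rfl
  ext r
  simp only [mem_erase, mem_filter]
  constructor
  · rintro ⟨h1, h2⟩
    refine ⟨h2, fun hh => ?_⟩
    have : r ∈ (insert q {u, v} : Finset V) := by rw [← hh]; simp
    simp only [mem_insert, mem_singleton] at this
    rcases this with h | h | h
    · exact not_mem_of_mem_cn h2 (by simp [h])
    · exact not_mem_of_mem_cn h2 (by simp [h])
    · exact h1 h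
  · rintro ⟨h1, h2⟩
    refine ⟨?_, h1⟩
    rintro rfl
    apply h2
    ext z; simp only [mem_insert, mem_singleton]; tauto

theorem mu_pair {u v q : V} (huv : G.Adj u v) (t : ℕ) :
    mu G M t {u, v} q
      = mdir G M t {u, q} (insert q {u, v}) * mdir G M t {v, q} (insert q {v, u}) := by
  unfold mu
  rw [prod_pair huv.ne, pair_comm v u]

theorem bp_stab {D D3 ε ℓ lam ζ : ℝ} (hPR : PR G D D3 ε) (hD : 1 ≤ D) (hD3 : 0 ≤ D3)
    (hDn : D ≤ Fintype.card V) (hε0 : 0 ≤ ε) (hε : ε ≤ 1 / 100)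
    (hlam : 2 * ε ^ 2 + Real.sqrt (2 * D + D3 + Fintype.card V * ε * D3) / D ≤ lam)
    (hℓ : 1 ≤ ℓ) (hℓD : Real.log (1 + 3 * D) / 2 ≤ ℓ) (hlamℓ : lam * ℓ ≤ 1)
    (hM : 100 * D ≤ M) (hMl : 8 * D / M ≤ lam) (hℓ' : 100 * ℓ ≤ D) (hζ : ζ ≤ 1 / 100)
    (hζ' : 2000 * ℓ ^ 3 * (100 * (ε + ζ ^ 2 + ℓ / D + D / M)) * Fintype.card V / D ≤ ζ) :
    ∀ t ≤ M, ∀ h, IsEdge G h → |mm G M t h - pseq D M t| ≤ ζ * pseq D M t ∧
      ∀ q ∈ cn G h, abar G M t h q ≤ 4 * ℓ / D ∧
        mu G M t h q ≤ ((1 + 2 * ζ + 10 * ℓ / D) * pseq D M t) ^ 2 := by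
  have hD0 : 0 < D := by linarith
  have hM10 : 10 * D ≤ M := by linarith
  have hM0 : (0 : ℝ) < M := by linarith
  have hp0 := pseq_pos hD hM10
  have hp1 := pseq_le_one hD hM10
  set p := pseq D M with hp
  have hb0 : 0 ≤ ℓ / D := by positivity
  have hb : ℓ / D ≤ 1 / 100 := by rw [div_le_iff₀ hD0]; linarith
  have hμ0 : 0 ≤ D / M := by positivity
  have hμ : D / M ≤ 1 / 100 := by rw [div_le_iff₀ hM0]; linarith
  have hζ0 : 0 ≤ ζ := le_trans (by positivity) hζ'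
  have h4 : 4 * ℓ / D = 4 * (ℓ / D) := by ring
  have h10 : 10 * ℓ / D = 10 * (ℓ / D) := by ring
  set ρ : ℕ → ℝ := fun t => D * p t ^ 2 / M with hρ
  have hρ0 : ∀ t, 0 ≤ ρ t := fun t => by simp only [hρ]; positivity
  have hρ1 : ∀ t, ρ t ≤ D / M := fun t => by
    simp only [hρ]
    apply div_le_div_of_nonneg_right _ hM0.le
    have : p t ^ 2 ≤ 1 := pow_le_one₀ (hp0 t).le (hp1 t)
    nlinarith
  have hsum : ∀ T ≤ M, ∑ t ∈ range T, ρ t ≤ ℓ := fun T hT =>
    (sum_le_sum_of_subset_of_nonneg (range_subset_range.2 hT) fun t _ _ => hρ0 t).trans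
      ((sum_rho0_le hD hM10).trans hℓD)
  set x : ℕ → V → V → ℝ := fun t u v => mm G M t {u, v} / p t - 1 with hx
  have hxm : ∀ t u v, mm G M t {u, v} = (1 + x t u v) * p t := fun t u v => by
    have := (hp0 t).ne'
    simp only [hx]; field_simp; ring
  -- `mu` bound from the bounds at the same time
  have hmu : ∀ t ≤ M, (∀ u v, G.Adj u v → |x t u v| ≤ ζ) →
      (∀ h, IsEdge G h → ∀ q ∈ cn G h, abar G M t h q ≤ 4 * ℓ / D) →
      ∀ h, IsEdge G h → ∀ q ∈ cn G h, mu G M t h q ≤ ((1 + 2 * ζ + 10 * ℓ / D) * p t) ^ 2 := by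
    intro t ht hxt hat h he q hq
    have key : ∀ u v, G.Adj u v → q ∈ cn G {u, v} →
        0 ≤ mdir G M t {u, q} (insert q {u, v}) ∧
        mdir G M t {u, q} (insert q {u, v}) ≤ (1 + 2 * ζ + 10 * ℓ / D) * p t := by
      intro u v huv hq
      obtain ⟨hv, hm⟩ := mm_eq_mdir (M := M) huv hq t
      have huq : G.Adj u q := mem_cn.1 hq u (by simp)
      have a1 := hat _ (isEdge_pair huq) v hv
      have a2 := (abs_le.1 (hxt u q huq)).2
      have m0 : 0 ≤ mdir G M t {u, q} (insert q {u, v}) :=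
        prod_nonneg fun r _ => by linarith [abar_le_one (G := G) ht {u, q} r]
      refine ⟨m0, ?_⟩
      rw [hxm] at hm
      rw [h4] at a1
      rw [h10]
      have e1 : mdir G M t {u, q} (insert q {u, v}) * (1 - 4 * (ℓ / D)) ≤ (1 + ζ) * p t := by
        nlinarith [mul_le_mul_of_nonneg_left a1 m0, mul_le_mul_of_nonneg_right a2 (hp0 t).le]
      have e2 : 1 + ζ ≤ (1 + 2 * ζ + 10 * (ℓ / D)) * (1 - 4 * (ℓ / D)) := by
        nlinarith [mul_le_mul_of_nonneg_left hb hζ0, mul_le_mul_of_nonneg_left hb hb0]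
      have e3 : 0 < 1 - 4 * (ℓ / D) := by linarith
      refine le_of_mul_le_mul_right (e1.trans ?_) e3
      nlinarith [mul_le_mul_of_nonneg_right e2 (hp0 t).le]
    obtain ⟨u, v, huv, rfl⟩ := he
    rw [mu_pair huv, sq]
    have k1 := key u v huv hq
    have k2 := key v u huv.symm (by rw [pair_comm]; exact hq)
    exact mul_le_mul k1.2 k2.2 k2.1 (k1.1.trans k1.2)
  -- `abar` bound from the bounds at earlier times
  have hab : ∀ t ≤ M, (∀ s < t, ∀ u v, G.Adj u v → |x s u v| ≤ ζ) →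
      ∀ h, IsEdge G h → ∀ q ∈ cn G h, abar G M t h q ≤ 4 * ℓ / D := by
    intro t
    induction t using Nat.strong_induction_on with
    | _ t ih =>
      intro ht hxt h he q hq
      rw [abar_eq_sum]
      have e1 : ∑ s ∈ range t, mu G M s h q / M ≤ ∑ s ∈ range t, 4 / D * ρ s := by
        refine sum_le_sum fun s hs => ?_
        have hs' := mem_range.1 hs
        have e2 := hmu s (by omega) (hxt s hs')
          (ih s hs' (by omega) fun r hr => hxt r (hr.trans hs')) h he q hq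
        have e3 : ((1 + 2 * ζ + 10 * ℓ / D) * p s) ^ 2 ≤ (2 * p s) ^ 2 := by
          apply pow_le_pow_left₀ (mul_nonneg (by positivity) (hp0 s).le)
          rw [h10]
          exact mul_le_mul_of_nonneg_right (by linarith) (hp0 s).le
        have e4 : 4 / D * ρ s = (2 * p s) ^ 2 / M := by simp only [hρ]; field_simp; ring
        rw [e4]
        exact div_le_div_of_nonneg_right (e2.trans e3) hM0.le
      rw [← mul_sum] at e1
      refine e1.trans ?_
      have e5 : 4 * ℓ / D = 4 / D * ℓ := by ring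
      rw [e5]
      exact mul_le_mul_of_nonneg_left (hsum t ht) (by positivity)
  -- the recursion
  have hrec : ∀ s < M, (∀ r ≤ s, ∀ u v, G.Adj u v → |x r u v| ≤ ζ) → ∀ u v, G.Adj u v →
      |x (s + 1) u v - x s u v + ρ s * ((∑ w ∈ cn G {u, v}, (x s u w + x s v w)) / D)|
        ≤ ρ s * (100 * (ε + ζ ^ 2 + ℓ / D + D / M)) := by
    intro s hs hxs u v huv
    have ha := hab s hs.le fun r hr => hxs r hr.le
    have hxs' := hxs s le_rfl
    have hlt : ∀ h, IsEdge G h → ∀ q ∈ cn G h, 0 < 1 - abar G M s h q := fun h he q hq => by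
      have := ha h he q hq
      rw [h4] at this; linarith
    have hst := step_num (cn G {u, v}) (ρ := ρ s) (D := D) (ζ := ζ) (a := 4 * ℓ / D) (ε := ε)
      (μ := D / M) (x := x s u v) (x' := x (s + 1) u v) (fun w => x s u w + x s v w)
      (fun q => (1 + x s u q) * (1 + x s v q) /
        ((1 - abar G M s {u, q} v) * (1 - abar G M s {v, q} u) * (1 - abar G M s {u, v} q)))
      (hρ0 s) (hρ1 s) hμ hD (hxs' u v huv) hζ (by positivity) (by rw [h4]; linarith) hε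
      (hPR.two _ (card_pair huv.ne)) ?_ ?_ ?_
    · refine hst.trans (mul_le_mul_of_nonneg_left ?_ (hρ0 s))
      rw [h4]
      nlinarith [sq_nonneg ζ]
    · intro q hq
      have a1 := hxs' u q (mem_cn.1 hq u (by simp))
      have a2 := hxs' v q (mem_cn.1 hq v (by simp))
      exact (abs_add_le _ _).trans (by linarith)
    · intro q hq
      have huq : G.Adj u q := mem_cn.1 hq u (by simp)
      have hvq : G.Adj v q := mem_cn.1 hq v (by simp)
      have hq' : q ∈ cn G {v, u} := by rw [pair_comm]; exact hq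
      exact w_num (hxs' u q huq) (hxs' v q hvq) hζ (by rw [h4]; linarith)
        (abar_nn hs.le _ _) (abar_nn hs.le _ _) (abar_nn hs.le _ _)
        (ha _ (isEdge_pair huq) v (mm_eq_mdir (M := M) huv hq s).1)
        (ha _ (isEdge_pair hvq) u (mm_eq_mdir (M := M) huv.symm hq' s).1)
        (ha _ (isEdge_pair huv) q hq)
    · have e1 : p (s + 1) = p s * (1 - ρ s) := rfl
      have e2 : mm G M (s + 1) {u, v} = mm G M s {u, v} * ∏ q ∈ cn G {u, v}, (1 - ρ s / D *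
          ((1 + x s u q) * (1 + x s v q) / ((1 - abar G M s {u, q} v) * (1 - abar G M s {v, q} u) *
            (1 - abar G M s {u, v} q)))) := by
        unfold mm
        rw [← prod_mul_distrib]
        refine prod_congr rfl fun q hq => ?_
        have huq : G.Adj u q := mem_cn.1 hq u (by simp)
        have hvq : G.Adj v q := mem_cn.1 hq v (by simp)
        have hq' : q ∈ cn G {v, u} := by rw [pair_comm]; exact hq
        obtain ⟨m1, m2⟩ := mm_eq_mdir (M := M) huv hq s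
        obtain ⟨m3, m4⟩ := mm_eq_mdir (M := M) huv.symm hq' s
        have n1 := (hlt _ (isEdge_pair huq) v m1).ne'
        have n2 := (hlt _ (isEdge_pair hvq) u m3).ne'
        have n3 := (hlt _ (isEdge_pair huv) q hq).ne'
        rw [hxm] at m2 m4
        have f1 : mdir G M s {u, q} (insert q {u, v})
            = (1 + x s u q) * p s / (1 - abar G M s {u, q} v) := by
          rw [m2]; field_simp
        have f2 : mdir G M s {v, q} (insert q {v, u})
            = (1 + x s v q) * p s / (1 - abar G M s {v, q} u) := by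
          rw [m4]; field_simp
        rw [abar_succ, mu_pair huv, f1, f2]
        simp only [hρ]
        field_simp
        ring
      rw [hxm, hxm, e1] at e2
      refine mul_left_cancel₀ (hp0 s).ne' ?_
      linear_combination e2
  -- the bootstrap
  have hall : ∀ t ≤ M, ∀ u v, G.Adj u v → |x t u v| ≤ ζ := by
    intro t
    induction t using Nat.strong_induction_on with
    | _ t ih =>
      intro ht u v huv
      refine le_trans (lin_stab (ε₁ := 100 * (ε + ζ ^ 2 + ℓ / D + D / M)) hPR hD hD3 hDn hε0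
        (by linarith) hlam hℓ hlamℓ (by positivity) t ρ hρ0 (fun r => ?_) (hsum t ht) x
        (fun r u v => ?_) (fun u v => ?_) (fun s hs => ?_) u v huv) hζ'
      · have := hρ1 r
        have e : 8 * D / M = 8 * (D / M) := by ring
        linarith
      · simp only [hx, pair_comm]
      · simp only [hx, mm_zero, hp, pseq]; norm_num
      · exact hrec s (by omega) fun r hr => ih r (by omega) (by omega)
  intro t ht h he
  have ha := hab t ht fun s hs => hall s (by omega)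
  refine ⟨?_, fun q hq => ⟨ha h he q hq, hmu t ht (hall t ht) ha h he q hq⟩⟩
  obtain ⟨u, v, huv, rfl⟩ := he
  rw [hxm]
  have e : (1 + x t u v) * p t - p t = x t u v * p t := by ring
  rw [e, abs_mul, abs_of_pos (hp0 t)]
  exact mul_le_mul_of_nonneg_right (hall t ht u v huv) (hp0 t).le

theorem stab_ev_aux : ∀ᶠ n : ℕ in atTop, (10 : ℝ) ^ 6 ≤ (n : ℝ) ^ (1 / 1000 : ℝ) ∧
    Real.log n ≤ (n : ℝ) ^ (1 / 1000 : ℝ) := by
  have h1 : ∀ᶠ x : ℝ in atTop, (10 : ℝ) ^ 6 ≤ x ^ (1 / 1000 : ℝ) :=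
    (tendsto_rpow_atTop (by norm_num)).eventually_ge_atTop _
  have h2 : ∀ᶠ x : ℝ in atTop, Real.log x ≤ x ^ (1 / 1000 : ℝ) := by
    have := (isLittleO_log_rpow_atTop (r := 1 / 1000) (by norm_num)).eventuallyLE
    filter_upwards [this, eventually_ge_atTop 0] with x hx hx0
    rw [Real.norm_eq_abs, Real.norm_eq_abs, abs_of_nonneg (Real.rpow_nonneg hx0 _)] at hx
    exact (le_abs_self _).trans hx
  exact tendsto_natCast_atTop_atTop.eventually (h1.and h2)

/-- the regime of the late phase -/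
theorem stab_ev : ∀ᶠ n : ℕ in atTop, ∀ (p0 : ℝ) (G : SimpleGraph (Fin n)),
    (n : ℝ) ^ (-(1 / 1000 : ℝ)) ≤ p0 → p0 ≤ 2 * (n : ℝ) ^ (-(1 / 1000 : ℝ)) →
    PR G (n * p0 ^ 2) (n * p0 ^ 3) ((n : ℝ) ^ (-(1 / 4 : ℝ))) →
    ∀ t ≤ n ^ 10, ∀ h, IsEdge G h →
      |mm G (n ^ 10) t h - pseq (n * p0 ^ 2) (n ^ 10) t|
          ≤ (n : ℝ) ^ (-(1 / 5 : ℝ)) * pseq (n * p0 ^ 2) (n ^ 10) t ∧
      ∀ q ∈ cn G h, abar G (n ^ 10) t h q ≤ (n : ℝ) ^ (-(9 / 10 : ℝ)) ∧
        mu G (n ^ 10) t h q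
          ≤ ((1 + (n : ℝ) ^ (-(1 / 6 : ℝ))) * pseq (n * p0 ^ 2) (n ^ 10) t) ^ 2 := by
  filter_upwards [stab_ev_aux, eventually_ge_atTop 1] with n ⟨hy, hlog⟩ hn1 p0 G hp1 hp2 hPR
  have hn1' : (1 : ℝ) ≤ n := by exact_mod_cast hn1
  have hn0 : (0 : ℝ) < n := by linarith
  set y : ℝ := (n : ℝ) ^ (1 / 1000 : ℝ) with hydef
  have hy1 : 1 ≤ y := by linarith
  have hy0 : 0 < y := by linarith
  have hpow : ∀ k : ℕ, y ^ k = (n : ℝ) ^ ((k : ℝ) / 1000) := fun k => by
    rw [hydef, ← Real.rpow_natCast, ← Real.rpow_mul hn0.le]; congr 1; ring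
  have hneg : ∀ k : ℕ, (n : ℝ) ^ (-((k : ℝ) / 1000)) = 1 / y ^ k := fun k => by
    rw [hpow, Real.rpow_neg hn0.le, one_div]
  have hn : (n : ℝ) = y ^ 1000 := by rw [hpow]; norm_num
  have r1 : (n : ℝ) ^ (-(1 / 1000 : ℝ)) = 1 / y ^ 1 := by rw [← hneg]; norm_num
  have r4 : (n : ℝ) ^ (-(1 / 4 : ℝ)) = 1 / y ^ 250 := by rw [← hneg]; norm_num
  have r5 : (n : ℝ) ^ (-(1 / 5 : ℝ)) = 1 / y ^ 200 := by rw [← hneg]; norm_num
  have r9 : (n : ℝ) ^ (-(9 / 10 : ℝ)) = 1 / y ^ 900 := by rw [← hneg]; norm_num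
  have r6 : 1 / y ^ 167 ≤ (n : ℝ) ^ (-(1 / 6 : ℝ)) := by
    rw [← hneg]
    exact Real.rpow_le_rpow_of_exponent_le hn1' (by norm_num)
  have key : ∀ (C : ℝ) (a b : ℕ), C ≤ 10 ^ 6 → a + 1 ≤ b → C * y ^ a ≤ y ^ b := by
    intro C a b hC hab
    calc C * y ^ a ≤ y * y ^ a := mul_le_mul_of_nonneg_right (hC.trans hy) (by positivity)
      _ = y ^ (a + 1) := by ring
      _ ≤ y ^ b := pow_le_pow_right₀ hy1 hab
  have keyd : ∀ (C : ℝ) (a b : ℕ), C ≤ 10 ^ 6 → a + 1 ≤ b → C * (1 / y ^ b) ≤ 1 / y ^ a := by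
    intro C a b hC hab
    rw [mul_one_div, div_le_div_iff₀ (by positivity) (by positivity), one_mul]
    exact key C a b hC hab
  have mono : ∀ a b : ℕ, a ≤ b → 1 / y ^ b ≤ 1 / y ^ a := fun a b hab =>
    one_div_le_one_div_of_le (by positivity) (pow_le_pow_right₀ hy1 hab)
  rw [r1] at hp1 hp2
  rw [r4] at hPR
  rw [r5, r9]
  have hp0 : 0 < p0 := lt_of_lt_of_le (by positivity) hp1
  have hp3 : p0 ≤ 1 := hp2.trans (by simpa using keyd 2 0 1 (by norm_num) le_rfl)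
  have hyp : 1 ≤ y * p0 := by
    rw [pow_one, div_le_iff₀ hy0] at hp1; linarith
  set D : ℝ := n * p0 ^ 2 with hD
  set D3 : ℝ := n * p0 ^ 3 with hD3
  have hDlo : y ^ 998 ≤ D := by
    have : D = y ^ 998 * (y * p0) ^ 2 := by rw [hD, hn]; ring
    rw [this]
    exact le_mul_of_one_le_right (by positivity) (one_le_pow₀ hyp)
  have hDhi : D ≤ y ^ 1000 := by
    rw [hD, ← hn]
    exact mul_le_of_le_one_right hn0.le (pow_le_one₀ hp0.le hp3)
  have hD3hi : D3 ≤ y ^ 1000 := by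
    rw [hD3, ← hn]
    exact mul_le_of_le_one_right hn0.le (pow_le_one₀ hp0.le hp3)
  have hD30 : 0 ≤ D3 := by positivity
  have hD1 : 1 ≤ D := (one_le_pow₀ hy1).trans hDlo
  have hD0 : 0 < D := by linarith
  have hM : ((n ^ 10 : ℕ) : ℝ) = y ^ 10000 := by
    rw [Nat.cast_pow, hn, ← pow_mul]
  have hcard : (Fintype.card (Fin n) : ℝ) = y ^ 1000 := by rw [Fintype.card_fin, hn]
  have hyD : y / D ≤ 1 / y ^ 997 := by
    rw [div_le_div_iff₀ hD0 (by positivity), one_mul, ← pow_succ']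
    exact hDlo
  have hDM : D / y ^ 10000 ≤ 1 / y ^ 9000 := by
    rw [div_le_div_iff₀ (by positivity) (by positivity), one_mul]
    calc D * y ^ 9000 ≤ y ^ 1000 * y ^ 9000 := mul_le_mul_of_nonneg_right hDhi (by positivity)
      _ = y ^ 10000 := by rw [← pow_add]
  have main := bp_stab (G := G) (M := n ^ 10) (D := D) (D3 := D3) (ε := 1 / y ^ 250) (ℓ := y)
    (lam := 1 / y ^ 100) (ζ := 1 / y ^ 200) hPR hD1 hD30 (by rw [hcard]; exact hDhi)
    (by positivity) ?_ ?_ hy1 ?_ ?_ ?_ ?_ ?_ ?_ ?_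
  · intro t ht h he
    obtain ⟨m1, m2⟩ := main t ht h he
    refine ⟨m1, fun q hq => ⟨(m2 q hq).1.trans ?_, (m2 q hq).2.trans ?_⟩⟩
    · have := keyd 4 900 997 (by norm_num) (by norm_num)
      rw [mul_div_assoc]
      linarith
    · have hM10 : 10 * D ≤ ((n ^ 10 : ℕ) : ℝ) := by
        rw [hM]
        have := key 10 1000 10000 (by norm_num) (by norm_num)
        linarith
      have hpp := pseq_pos hD1 hM10 t
      apply pow_le_pow_left₀ (by positivity)
      refine mul_le_mul_of_nonneg_right ?_ hpp.le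
      have a1 := keyd 4 167 200 (by norm_num) (by norm_num)
      have a2 := keyd 20 167 997 (by norm_num) (by norm_num)
      rw [mul_div_assoc]
      linarith
  · have := keyd 100 0 250 (by norm_num) (by norm_num)
    rw [pow_zero] at this
    linarith
  · have a1 : 2 * D + D3 + Fintype.card (Fin n) * (1 / y ^ 250) * D3 ≤ (2 * y ^ 875) ^ 2 := by
      rw [hcard]
      have b1 : y ^ 1000 * (1 / y ^ 250) = y ^ 750 := by field_simp
      have b2 : y ^ 750 * D3 ≤ y ^ 1750 := by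
        calc y ^ 750 * D3 ≤ y ^ 750 * y ^ 1000 := mul_le_mul_of_nonneg_left hD3hi (by positivity)
          _ = y ^ 1750 := by rw [← pow_add]
      have b3 : y ^ 1000 ≤ y ^ 1750 := pow_le_pow_right₀ hy1 (by norm_num)
      have b4 : (2 * y ^ 875) ^ 2 = 4 * y ^ 1750 := by rw [mul_pow, ← pow_mul]; norm_num
      rw [b1, b4]
      linarith
    have a2 : Real.sqrt (2 * D + D3 + Fintype.card (Fin n) * (1 / y ^ 250) * D3) ≤ 2 * y ^ 875 :=
      Real.sqrt_le_iff.2 ⟨by positivity, a1⟩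
    have a3 : Real.sqrt (2 * D + D3 + Fintype.card (Fin n) * (1 / y ^ 250) * D3) / D
        ≤ 2 * (1 / y ^ 123) := by
      rw [div_le_iff₀ hD0]
      refine a2.trans ?_
      have b1 : y ^ 875 = 1 / y ^ 123 * y ^ 998 := by field_simp
      rw [b1, mul_assoc]
      exact mul_le_mul_of_nonneg_left (mul_le_mul_of_nonneg_left hDlo (by positivity)) (by norm_num)
    have a4 : (1 / y ^ 250) ^ 2 = 1 / y ^ 500 := by rw [div_pow, ← pow_mul]; norm_num
    have a5 := keyd 4 100 123 (by norm_num) (by norm_num)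
    have a6 := mono 123 500 (by norm_num)
    rw [a4]
    linarith
  · have a1 : 1 + 3 * D ≤ (n : ℝ) ^ 2 := by
      rw [hn, ← pow_mul]
      have b1 := key 4 1000 (1000 * 2) (by norm_num) (by norm_num)
      have b2 : 1 ≤ y ^ 1000 := one_le_pow₀ hy1
      linarith
    have a2 := Real.log_le_log (by linarith) a1
    rw [Real.log_pow] at a2
    push_cast at a2
    linarith
  · rw [one_div_mul_eq_div, div_le_one (by positivity)]
    simpa using pow_le_pow_right₀ hy1 (show 1 ≤ 100 by norm_num)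
  · rw [hM]
    have := key 100 1000 10000 (by norm_num) (by norm_num)
    linarith
  · rw [hM, mul_div_assoc]
    have := keyd 8 100 9000 (by norm_num) (by norm_num)
    linarith
  · have := key 100 1 998 (by norm_num) (by norm_num)
    rw [pow_one] at this
    linarith
  · have := keyd 100 0 200 (by norm_num) (by norm_num)
    rw [pow_zero] at this
    linarith
  · rw [hM, hcard]
    have a4 : (1 / y ^ 200) ^ 2 = 1 / y ^ 400 := by rw [div_pow, ← pow_mul]; norm_num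
    have a1 : 1 / y ^ 250 + (1 / y ^ 200) ^ 2 + y / D + D / y ^ 10000 ≤ 4 * (1 / y ^ 250) := by
      have b1 := mono 250 400 (by norm_num)
      have b2 := mono 250 997 (by norm_num)
      have b3 := mono 250 9000 (by norm_num)
      rw [a4]
      linarith
    have a2 : y ^ 1000 / D ≤ y ^ 2 := by
      rw [div_le_iff₀ hD0]
      calc y ^ 1000 = y ^ 2 * y ^ 998 := by rw [← pow_add]
        _ ≤ y ^ 2 * D := mul_le_mul_of_nonneg_left hDlo (by positivity)
    calc 2000 * y ^ 3 * (100 * (1 / y ^ 250 + (1 / y ^ 200) ^ 2 + y / D + D / y ^ 10000))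
          * y ^ 1000 / D
        = 2000 * y ^ 3 * (100 * (1 / y ^ 250 + (1 / y ^ 200) ^ 2 + y / D + D / y ^ 10000))
          * (y ^ 1000 / D) := mul_div_assoc _ _ _
      _ ≤ 2000 * y ^ 3 * (100 * (4 * (1 / y ^ 250))) * y ^ 2 := by gcongr
      _ = 800000 * (1 / y ^ 245) := by field_simp; norm_num
      _ ≤ 1 / y ^ 200 := keyd _ _ _ (by norm_num) (by norm_num)

end Crest.Agent.R030
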