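import Crest.Agent.R030.ValCan

/-! # Row 30: telescoping and pattern bookkeeping -/

set_option autoImplicit false
set_option linter.unusedSectionVars false

namespace Crest.Agent.R030
open Finset
open scoped Classical

variable {V : Type} [Fintype V] [DecidableEq V] {G : SimpleGraph V} {M : ℕ}

/-- telescoping a difference of products along the fixed order `sel`
(hint: `Finset.prod_add_ordered` with `linearOrderOfSTO WellOrderingRel`, or induction on the max) -/
theorem prod_sub_prod_sel {ι : Type} [DecidableEq ι] (s : Finset ι) (f g : ι → ℝ) :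
    ∏ i ∈ s, f i - ∏ i ∈ s, g i
      = ∑ i ∈ s, (f i - g i) * ∏ j ∈ s.erase i, (if sel i j then f j else g j) := by
  let _ : LinearOrder ι := linearOrderOfSTO WellOrderingRel
  have hlt : ∀ i j : ι, sel i j ↔ j < i := fun _ _ => Iff.rfl
  induction s using Finset.induction_on_max with
  | empty => simp
  | insert a s ha ih =>
    have has : a ∉ s := fun h => lt_irrefl _ (ha a h)
    rw [prod_insert has, prod_insert has, sum_insert has, erase_insert has]
    have h1 : ∏ j ∈ s, (if sel a j then f j else g j) = ∏ j ∈ s, f j :=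
      prod_congr rfl fun j hj => if_pos ((hlt _ _).2 (ha j hj))
    have h2 : ∑ i ∈ s, (f i - g i) * ∏ j ∈ (insert a s).erase i, (if sel i j then f j else g j)
        = g a * ∑ i ∈ s, (f i - g i) * ∏ j ∈ s.erase i, (if sel i j then f j else g j) := by
      rw [mul_sum]
      refine sum_congr rfl fun i hi => ?_
      have hia : a ≠ i := fun h => has (h ▸ hi)
      rw [erase_insert_of_ne hia, prod_insert (fun h => has (mem_of_mem_erase h)),
        if_neg (fun h => lt_asymm (ha i hi) ((hlt _ _).1 h))]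
      ring
    rw [h1, h2, ← ih]
    ring

theorem alive_sub (h : Finset V) (c : ℕ) (A B : V → Om V M → ℝ) (S : Finset V) (ω : Om V M) :
    alive G h c A S ω - alive G h c B S ω
      = -∑ q ∈ cn G h \ S, act ω (insert q h) c * (A q ω - B q ω)
          * alive G h c (mixA A B q) (insert q S) ω := by
  unfold alive
  rw [prod_sub_prod_sel, ← sum_neg_distrib]
  refine sum_congr rfl fun q _ => ?_
  rw [sdiff_insert]
  have : ∏ j ∈ (cn G h \ S).erase q, (if sel q j then 1 - act ω (insert j h) c * A j ω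
      else 1 - act ω (insert j h) c * B j ω)
      = ∏ j ∈ (cn G h \ S).erase q, (1 - act ω (insert j h) c * mixA A B q j ω) := by
    refine prod_congr rfl fun j _ => ?_
    unfold mixA
    split_ifs <;> rfl
  rw [this]
  ring

theorem abs_alive_sub_le {A B : V → Om V M → ℝ} (hA : Bd A) (hB : Bd B) (h : Finset V) (c : ℕ)
    (S : Finset V) (ω : Om V M) :
    |alive G h c A S ω - alive G h c B S ω|
      ≤ ∑ q ∈ cn G h \ S, act ω (insert q h) c * |A q ω - B q ω|
          * alive G h c (mixA A B q) (insert q S) ω := by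
  rw [alive_sub, abs_neg]
  refine (abs_sum_le_sum_abs _ _).trans (le_of_eq (sum_congr rfl fun q _ => ?_))
  rw [abs_mul, abs_mul, abs_of_nonneg (act_nn _ _ _),
    abs_of_nonneg (alive_nn (hA.mixA hB q) _ _ _ _)]

/-- `1 - ∏ (1 - z) ≤ ∑ z` -/
theorem one_sub_prod_le_sum {ι : Type} (s : Finset ι) (z : ι → ℝ) (h0 : ∀ i ∈ s, 0 ≤ z i)
    (h1 : ∀ i ∈ s, z i ≤ 1) : 1 - ∏ i ∈ s, (1 - z i) ≤ ∑ i ∈ s, z i := by
  induction s using Finset.induction_on with
  | empty => simp
  | insert a s ha ih =>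
    rw [prod_insert ha, sum_insert ha]
    have h2 := ih (fun i hi => h0 i (mem_insert_of_mem hi)) (fun i hi => h1 i (mem_insert_of_mem hi))
    have h3 : ∏ i ∈ s, (1 - z i) ≤ 1 :=
      prod_le_one (fun i hi => sub_nonneg.2 (h1 i (mem_insert_of_mem hi)))
        (fun i hi => by linarith [h0 i (mem_insert_of_mem hi)])
    have h4 := h0 a (mem_insert_self _ _)
    nlinarith

variable {σ : Thr V} {ctop : ℕ} {P : Pat V M} {X : Finset V} {h : Finset V} {own : Prop}

theorem Pat.WFx.Fx_nn {Dr : Finset (Finset V)} (hP : P.WFx G σ ctop Dr X) (ω : Om V M) :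
    0 ≤ P.Fx G Dr ω :=
  prod_nonneg fun f hf => alive_nn (hP.val f (mem_sdiff.1 hf).1 (mem_sdiff.1 hf).2).bd _ _ _ _

theorem Pat.WFx.Fx_le_one {Dr : Finset (Finset V)} (hP : P.WFx G σ ctop Dr X) (ω : Om V M) :
    P.Fx G Dr ω ≤ 1 :=
  prod_le_one
    (fun f hf => alive_nn (hP.val f (mem_sdiff.1 hf).1 (mem_sdiff.1 hf).2).bd _ _ _ _)
    (fun f hf => alive_le_one (hP.val f (mem_sdiff.1 hf).1 (mem_sdiff.1 hf).2).bd _ _ _ _)

theorem Base.wgt_nn {B : Base V} (hK : 0 ≤ B.K) {pt : ℕ → ℝ} (hpt : ∀ t, 0 ≤ pt t) (P : Pat V M) :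
    0 ≤ B.wgt pt P :=
  mul_nonneg hK (prod_nonneg fun _ _ => hpt _)

theorem tele_notMem_drp {f : Finset V} (hf : ¬ (own ∧ f = h)) : f ∉ drp own h := by
  unfold drp
  split_ifs with ho
  · rw [mem_singleton]; exact fun e => hf ⟨ho, e⟩
  · exact notMem_empty _

theorem tele_old (hP : P.WFx G σ ctop (drp own h) X) {u : ℕ} (hown : own → h ∈ P.H ∧ P.c h = u)
    {C : V → Om V M → ℝ} (hC : Bd C) {W' S : Finset V} (hW : P.W ⊆ W') (hS : S ⊆ W')
    (ω : Om V M) :
    alive G h u C S ω * P.Fx G (drp own h) ω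
      ≤ ∏ f ∈ P.H, alive G f (P.c f) (if own ∧ f = h then C else P.A f) W' ω := by
  by_cases ho : own
  · obtain ⟨h1, h2⟩ := hown ho
    rw [← mul_prod_erase _ _ h1, if_pos ⟨ho, rfl⟩, h2]
    refine mul_le_mul (alive_mono_skip hC _ _ hS _) ?_ (hP.Fx_nn ω) (alive_nn hC _ _ _ _)
    unfold Pat.Fx
    have hd : drp own h = {h} := if_pos ho
    rw [hd, sdiff_singleton_eq_erase]
    have hb : ∀ f ∈ P.H.erase h, Bd (P.A f) := fun f hf =>
      (hP.val f (mem_of_mem_erase hf) (tele_notMem_drp fun e => ne_of_mem_erase hf e.2)).bd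
    refine prod_le_prod (fun f hf => alive_nn (hb f hf) _ _ _ _) fun f hf => ?_
    rw [if_neg fun e => ne_of_mem_erase hf e.2]
    exact alive_mono_skip (hb f hf) _ _ hW _
  · refine (mul_le_of_le_one_left (hP.Fx_nn ω) (alive_le_one hC _ _ _ _)).trans ?_
    unfold Pat.Fx
    have hd : drp own h = ∅ := if_neg ho
    rw [hd, sdiff_empty]
    have hb : ∀ f ∈ P.H, Bd (P.A f) := fun f hf =>
      (hP.val f hf (tele_notMem_drp fun e => ho e.1)).bd
    refine prod_le_prod (fun f hf => alive_nn (hb f hf) _ _ _ _) fun f hf => ?_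
    rw [if_neg fun e => ho e.1]
    exact alive_mono_skip (hb f hf) _ _ hW _

/-! ### `close` -/

theorem Pat.close_le {B : Base V} (hB : B.Le P) (C : V → Om V M → ℝ) (Y : Finset V) :
    B.Le (P.close h own C Y) :=
  ⟨hB.W.trans subset_union_left, hB.H, hB.c⟩

theorem Pat.close_wgt (B : Base V) (pt : ℕ → ℝ) (C : V → Om V M → ℝ) (Y : Finset V) :
    B.wgt pt (P.close h own C Y) = B.wgt pt P := rfl

theorem Pat.close_wf (hP : P.WFx G σ ctop (drp own h) X) {C : V → Om V M → ℝ} {Y : Finset V}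
    (hX : X ⊆ Y) (hC : own → Val G σ (P.W ∪ Y) h C) :
    (P.close h own C Y).WFx G σ ctop ∅ ∅ := by
  refine ⟨hP.edge, fun f hf => (hP.sub f hf).trans subset_union_left, hP.time, fun f hf _ => ?_⟩
  change Val G σ ((P.W ∪ Y) ∪ ∅) f (if own ∧ f = h then C else P.A f)
  rw [union_empty]
  split_ifs with ho
  · rw [ho.2]; exact hC ho.1
  · exact (hP.val f hf (tele_notMem_drp ho)).mono (union_subset_union_right hX)

theorem Pat.close_Fx (hP : P.WFx G σ ctop (drp own h) X) {u : ℕ} (hown : own → h ∈ P.H ∧ P.c h = u)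
    {C : V → Om V M → ℝ} (hC : Bd C) {Y S : Finset V} (hS : S ⊆ P.W ∪ Y) (ω : Om V M) :
    alive G h u C S ω * P.Fx G (drp own h) ω ≤ (P.close h own C Y).Fx G ∅ ω := by
  refine (tele_old hP hown hC subset_union_left hS ω).trans (le_of_eq ?_)
  unfold Pat.Fx
  rw [sdiff_empty]
  rfl

/-! ### `step` -/

section step
variable {C : V → Om V M → ℝ} {q : V} {s : ℕ} {fam : Finset V → V → Om V M → ℝ}

theorem Pat.step_le {B : Base V} (hB : B.Le P) : B.Le (P.step h own C q s fam) := by
  refine ⟨hB.W.trans (subset_insert _ _), hB.H.trans subset_union_left, fun f hf => ?_⟩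
  change (if f ∈ P.H then P.c f else s) = _
  rw [if_pos (hB.H hf), hB.c f hf]

theorem Pat.step_wgt {B : Base V} (hB : B.Le P) (pt : ℕ → ℝ) (hq : q ∉ h) :
    B.wgt pt (P.step h own C q s fam)
      = B.wgt pt P * pt s ^ (h.filter fun x => ({x, q} : Finset V) ∉ P.H).card := by
  unfold Base.wgt
  have h1 : (P.step h own C q s fam).H \ B.H0 = (P.H \ B.H0) ∪
      (h.filter fun x => ({x, q} : Finset V) ∉ P.H).image fun x => ({x, q} : Finset V) := by
    ext f
    simp only [Pat.step, mem_sdiff, mem_union, mem_image, mem_filter]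
    constructor
    · rintro ⟨hf | ⟨x, hx, rfl⟩, hf0⟩
      · exact Or.inl ⟨hf, hf0⟩
      · by_cases hh : ({x, q} : Finset V) ∈ P.H
        · exact Or.inl ⟨hh, hf0⟩
        · exact Or.inr ⟨x, ⟨hx, hh⟩, rfl⟩
    · rintro (⟨hf, hf0⟩ | ⟨x, ⟨hx, hh⟩, rfl⟩)
      · exact ⟨Or.inl hf, hf0⟩
      · exact ⟨Or.inr ⟨x, hx, rfl⟩, fun e => hh (hB.H e)⟩
  have h2 : Disjoint (P.H \ B.H0)
      ((h.filter fun x => ({x, q} : Finset V) ∉ P.H).image fun x => ({x, q} : Finset V)) := by
    rw [disjoint_right]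
    intro f hf hf'
    obtain ⟨x, hx, rfl⟩ := mem_image.1 hf
    exact (mem_filter.1 hx).2 (mem_sdiff.1 hf').1
  rw [h1, prod_union h2, mul_assoc]
  congr 2
  · refine prod_congr rfl fun f hf => ?_
    change pt (if f ∈ P.H then P.c f else s) = _
    rw [if_pos (mem_sdiff.1 hf).1]
  · rw [← card_image_of_injOn (f := fun x => ({x, q} : Finset V))
      (fun x hx y _ hxy => pair_inj_of_not_mem hq (mem_filter.1 (mem_coe.1 hx)).1 hxy),
      ← prod_const]
    refine prod_congr rfl fun f hf => ?_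
    obtain ⟨x, hx, rfl⟩ := mem_image.1 hf
    change pt (if ({x, q} : Finset V) ∈ P.H then P.c {x, q} else s) = _
    rw [if_neg (mem_filter.1 hx).2]

theorem Pat.step_card_H (B : Base V) (he : IsEdge G h) :
    ((P.step h own C q s fam).H \ B.H0).card ≤ (P.H \ B.H0).card + 2 := by
  have h1 : (P.step h own C q s fam).H \ B.H0 ⊆
      (P.H \ B.H0) ∪ h.image fun x => ({x, q} : Finset V) := by
    intro f hf
    simp only [Pat.step, mem_sdiff, mem_union] at hf ⊢
    tauto
  refine (card_le_card h1).trans ((card_union_le _ _).trans ?_)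
  have := card_image_le (s := h) (f := fun x => ({x, q} : Finset V))
  rw [he.card] at this
  omega

theorem Pat.step_card_W (B : Base V) :
    ((P.step h own C q s fam).W \ B.W0).card ≤ (P.W \ B.W0).card + 1 := by
  have h1 : (P.step h own C q s fam).W \ B.W0 ⊆ insert q (P.W \ B.W0) := by
    intro f hf
    simp only [Pat.step, mem_sdiff, mem_insert] at hf ⊢
    tauto
  exact (card_le_card h1).trans (card_insert_le _ _)

theorem Pat.step_c_new {x : V} (hx : x ∈ h) (hn : ({x, q} : Finset V) ∉ P.H) :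
    ({x, q} : Finset V) ∈ (P.step h own C q s fam).H ∧ (P.step h own C q s fam).c {x, q} = s :=
  ⟨mem_union_right _ (mem_image.2 ⟨x, hx, rfl⟩), if_neg hn⟩

/-- well-formedness after a step; `Dr'` is `∅` or contains only new edges -/
theorem Pat.step_wf (hP : P.WFx G σ ctop (drp own h) X) (hW : h ⊆ P.W) (hq : q ∈ cn G h)
    (hs : s ≤ ctop) (hC : own → Val G σ (insert q P.W ∪ X) h C) {Dr' : Finset (Finset V)}
    (hDr : Disjoint Dr' P.H)
    (hfam : ∀ x ∈ h, ({x, q} : Finset V) ∉ Dr' → Val G σ (insert q P.W ∪ X) {x, q} (fam {x, q})) :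
    (P.step h own C q s fam).WFx G σ ctop Dr' X := by
  refine ⟨fun f hf => ?_, fun f hf => ?_, fun f _ => ?_, fun f hf hf' => ?_⟩
  · rcases mem_union.1 hf with hf | hf
    · exact hP.edge f hf
    · obtain ⟨x, hx, rfl⟩ := mem_image.1 hf
      exact isEdge_free hq hx
  · rcases mem_union.1 hf with hf | hf
    · exact (hP.sub f hf).trans (subset_insert _ _)
    · obtain ⟨x, hx, rfl⟩ := mem_image.1 hf
      exact insert_subset (mem_insert_of_mem (hW hx)) (singleton_subset_iff.2 (mem_insert_self _ _))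
  · change (if f ∈ P.H then P.c f else s) ≤ ctop
    split_ifs with hf
    · exact hP.time f hf
    · exact hs
  · change Val G σ (insert q P.W ∪ X) f
      (if f ∈ P.H then (if own ∧ f = h then C else P.A f) else fam f)
    split_ifs with h1 h2
    · rw [h2.2]; exact hC h2.1
    · exact (hP.val f h1 (tele_notMem_drp h2)).mono
        (union_subset_union_left (subset_insert _ _))
    · rcases mem_union.1 hf with hf | hf
      · exact absurd hf h1
      · obtain ⟨x, hx, rfl⟩ := mem_image.1 hf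
        exact hfam x hx hf'

theorem tele_step (hP : P.WFx G σ ctop (drp own h) X) {u : ℕ} (hown : own → h ∈ P.H ∧ P.c h = u)
    (hq : q ∈ cn G h) (hC : Bd C) (hfam : ∀ y ∈ h, Bd (fam {y, q})) {S : Finset V}
    (hS : S ⊆ insert q P.W) {S' : V → Finset V} (hS' : ∀ y ∈ h, S' y ⊆ insert q P.W)
    {T : Finset V} (hT : T ⊆ h) {Dr' : Finset (Finset V)} (hDr : Disjoint Dr' P.H)
    (hTD : ∀ y ∈ h, ({y, q} : Finset V) ∉ P.H → ({y, q} : Finset V) ∉ Dr' → y ∈ T)
    (ω : Om V M) :
    alive G h u C S ω * (∏ y ∈ T, alive G {y, q} s (fam {y, q}) (S' y) ω)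
        * P.Fx G (drp own h) ω
      ≤ (P.step h own C q s fam).Fx G Dr' ω := by
  have hqh := not_mem_of_mem_cn hq
  set N := ((h.image fun x => ({x, q} : Finset V)) \ P.H) \ Dr' with hN
  have h1 : (P.step h own C q s fam).H \ Dr' = P.H ∪ N := by
    ext f
    simp only [Pat.step, hN, mem_sdiff, mem_union]
    have : f ∈ P.H → f ∉ Dr' := fun hf => disjoint_right.1 hDr hf
    tauto
  have h2 : Disjoint P.H N := by
    rw [disjoint_right]
    intro f hf
    exact (mem_sdiff.1 (mem_sdiff.1 hf).1).2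
  have h3 : (P.step h own C q s fam).Fx G Dr' ω =
      (∏ f ∈ P.H, alive G f (P.c f) (if own ∧ f = h then C else P.A f) (insert q P.W) ω) *
        ∏ f ∈ N, alive G f s (fam f) (insert q P.W) ω := by
    unfold Pat.Fx
    rw [h1, prod_union h2]
    congr 1
    · refine prod_congr rfl fun f hf => ?_
      simp only [Pat.step, if_pos hf]
    · refine prod_congr rfl fun f hf => ?_
      simp only [Pat.step, if_neg (mem_sdiff.1 (mem_sdiff.1 hf).1).2]
  have h4 : ∏ y ∈ T, alive G {y, q} s (fam {y, q}) (S' y) ω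
      ≤ ∏ f ∈ N, alive G f s (fam f) (insert q P.W) ω := by
    calc ∏ y ∈ T, alive G {y, q} s (fam {y, q}) (S' y) ω
        ≤ ∏ y ∈ T, alive G {y, q} s (fam {y, q}) (insert q P.W) ω :=
          prod_le_prod (fun y hy => alive_nn (hfam y (hT hy)) _ _ _ _)
            fun y hy => alive_mono_skip (hfam y (hT hy)) _ _ (hS' y (hT hy)) _
      _ = ∏ f ∈ T.image fun x => ({x, q} : Finset V), alive G f s (fam f) (insert q P.W) ω := by
          rw [prod_image (fun x hx y _ hxy => pair_inj_of_not_mem hqh (hT (mem_coe.1 hx)) hxy)]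
      _ ≤ _ := by
          refine prod_le_prod_of_subset_of_le_one ?_ ?_ ?_
          · intro f hf
            obtain ⟨hf1, hf2⟩ := mem_sdiff.1 hf
            obtain ⟨hf0, hf1⟩ := mem_sdiff.1 hf1
            obtain ⟨x, hx, rfl⟩ := mem_image.1 hf0
            exact mem_image.2 ⟨x, hTD x hx hf1 hf2, rfl⟩
          · intro f hf
            obtain ⟨x, hx, rfl⟩ := mem_image.1 hf
            exact alive_nn (hfam x (hT hx)) _ _ _ _
          · intro f hf _
            obtain ⟨x, hx, rfl⟩ := mem_image.1 hf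
            exact alive_le_one (hfam x (hT hx)) _ _ _ _
  have h5 := tele_old hP hown hC (subset_insert q P.W) hS ω
  have h6 : 0 ≤ alive G h u C S ω * P.Fx G (drp own h) ω :=
    mul_nonneg (alive_nn hC _ _ _ _) (hP.Fx_nn ω)
  rw [h3, mul_right_comm]
  exact mul_le_mul h5 h4 (prod_nonneg fun y hy => alive_nn (hfam y (hT hy)) _ _ _ _)
    (h6.trans h5)

/-- the step with the new marked edge `{x,q}` left out (if it is new) -/
theorem Pat.step_Fx (hP : P.WFx G σ ctop (drp own h) X) {u : ℕ} (hown : own → h ∈ P.H ∧ P.c h = u)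
    (hq : q ∈ cn G h) (hC : Bd C) (hfam : ∀ y ∈ h, Bd (fam {y, q})) {S : Finset V}
    (hS : S ⊆ insert q P.W) {S' : V → Finset V} (hS' : ∀ y ∈ h, S' y ⊆ insert q P.W) {x : V}
    (hx : x ∈ h) (ω : Om V M) :
    alive G h u C S ω * (∏ y ∈ h.erase x, alive G {y, q} s (fam {y, q}) (S' y) ω)
        * P.Fx G (drp own h) ω
      ≤ (P.step h own C q s fam).Fx G (drp (({x, q} : Finset V) ∉ P.H) {x, q}) ω := by
  refine tele_step hP hown hq hC hfam hS hS' (erase_subset _ _) ?_ ?_ ω
  · unfold drp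
    split_ifs with h1
    · exact disjoint_empty_left _
    · exact disjoint_singleton_left.2 h1
  · intro y hy h1 h2
    refine mem_erase.2 ⟨?_, hy⟩
    rintro rfl
    apply h2
    unfold drp
    rw [if_pos h1]
    exact mem_singleton_self _

/-- the step with both free edges kept -/
theorem Pat.step_Fx_all (hP : P.WFx G σ ctop (drp own h) X) {u : ℕ}
    (hown : own → h ∈ P.H ∧ P.c h = u) (hq : q ∈ cn G h) (hC : Bd C)
    (hfam : ∀ y ∈ h, Bd (fam {y, q})) {S : Finset V} (hS : S ⊆ insert q P.W)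
    {S' : V → Finset V} (hS' : ∀ y ∈ h, S' y ⊆ insert q P.W) (ω : Om V M) :
    alive G h u C S ω * (∏ y ∈ h, alive G {y, q} s (fam {y, q}) (S' y) ω) * P.Fx G (drp own h) ω
      ≤ (P.step h own C q s fam).Fx G ∅ ω :=
  tele_step hP hown hq hC hfam hS hS' Subset.rfl (disjoint_empty_left _) (fun _ hy _ _ => hy) ω

end step

/-- `Ext` applied after closing the marked root -/
theorem Ext.close {B : Base V} {pt : ℕ → ℝ} {cap : ℕ} (hM : 0 < M) (hE : Ext G M B pt cap)
    (hP : P.WFx G σ B.ctop (drp own h) X) (hB : B.Le P) {u : ℕ}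
    (hown : own → h ∈ P.H ∧ P.c h = u) {C : V → Om V M → ℝ} {Y S : Finset V} (hX : X ⊆ Y)
    (hC : Val G σ (P.W ∪ Y) h C) (hS : S ⊆ P.W ∪ Y) (hne : P.W ∪ Y ≠ B.W0)
    (hcW : ((P.W ∪ Y) \ B.W0).card ≤ cap) (hcH : (P.H \ B.H0).card ≤ cap)
    {I : Om V M → ℝ} (hI : ∀ ω, 0 ≤ I ω) (hD : DepTri I {T | T ⊆ P.W ∪ Y}) :
    Ex G M (fun ω => I ω * (alive G h u C S ω * P.Fx G (drp own h) ω))
      ≤ Ex G M I * B.wgt pt P := by
  have h1 := hE σ (P.close h own C Y) (Pat.close_wf hP hX fun _ => hC) (Pat.close_le hB C Y) hne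
    hcW hcH I hI hD
  rw [Pat.close_wgt] at h1
  refine le_trans (Ex_mono hM fun ω => ?_) h1
  exact mul_le_mul_of_nonneg_left (Pat.close_Fx hP hown hC.bd hS ω) (hI ω)

end Crest.Agent.R030
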