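import Crest.Agent.R030.Prob

/-! # Row 30: valuations -/

set_option autoImplicit false
set_option linter.unusedSectionVars false

namespace Crest.Agent.R030
open Finset
open scoped Classical

variable {V : Type} [Fintype V] [DecidableEq V] {G : SimpleGraph V} {M : ℕ}

/-- the family takes values in `[0,1]` -/
def Bd (A : V → Om V M → ℝ) : Prop := ∀ q ω, 0 ≤ A q ω ∧ A q ω ≤ 1

theorem factor_bd {A : V → Om V M → ℝ} (hA : Bd A) (T : Finset V) (c : ℕ) (q : V) (ω : Om V M) :
    0 ≤ 1 - act ω T c * A q ω ∧ 1 - act ω T c * A q ω ≤ 1 := by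
  have h1 := act_nn ω T c
  have h2 := act_le_one ω T c
  obtain ⟨h3, h4⟩ := hA q ω
  constructor <;> nlinarith [mul_nonneg h1 h3, mul_le_one₀ h2 h3 h4]

theorem alive_nn {A : V → Om V M → ℝ} (hA : Bd A) (h : Finset V) (c : ℕ) (S : Finset V)
    (ω : Om V M) : 0 ≤ alive G h c A S ω := prod_nonneg fun q _ => (factor_bd hA _ c q ω).1

theorem alive_le_one {A : V → Om V M → ℝ} (hA : Bd A) (h : Finset V) (c : ℕ) (S : Finset V)
    (ω : Om V M) : alive G h c A S ω ≤ 1 := prod_le_one (fun q _ => (factor_bd hA _ c q ω).1) fun q _ => (factor_bd hA _ c q ω).2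

theorem alive_mono_skip {A : V → Om V M → ℝ} (hA : Bd A) (h : Finset V) (c : ℕ) {S S' : Finset V}
    (hS : S ⊆ S') (ω : Om V M) : alive G h c A S ω ≤ alive G h c A S' ω := 
  prod_le_prod_of_subset_of_le_one (sdiff_subset_sdiff Subset.rfl hS)
    (fun q _ => (factor_bd hA _ c q ω).1) fun q _ _ => (factor_bd hA _ c q ω).2

theorem alive_anti_time {A : V → Om V M → ℝ} (hA : Bd A) (h : Finset V) {c c' : ℕ} (hc : c ≤ c')
    (S : Finset V) (ω : Om V M) : alive G h c' A S ω ≤ alive G h c A S ω := by
  refine prod_le_prod (fun q _ => (factor_bd hA _ c' q ω).1) fun q _ => ?_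
  have : act ω (insert q h) c ≤ act ω (insert q h) c' := by
    unfold act; split_ifs <;> first | omega | norm_num
  nlinarith [mul_le_mul_of_nonneg_right this (hA q ω).1]

theorem alive_zero (A : V → Om V M → ℝ) (h : Finset V) (S : Finset V) (ω : Om V M) :
    alive G h 0 A S ω = 1 := by simp [alive, act]

/-- apexes whose term vanishes may be skipped or not -/
theorem alive_skip_congr {A : V → Om V M → ℝ} {h : Finset V} {c : ℕ} {S S' : Finset V}
    {ω : Om V M} (hS : S ⊆ S')
    (h0 : ∀ q ∈ cn G h, q ∈ S' → q ∉ S → act ω (insert q h) c * A q ω = 0) :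
    alive G h c A S ω = alive G h c A S' ω := by
  refine (prod_subset (sdiff_subset_sdiff Subset.rfl hS) fun q hq hq' => ?_).symm
  rw [mem_sdiff] at hq hq'
  rw [h0 q hq.1 (by by_contra hh; exact hq' ⟨hq.1, hh⟩) hq.2, sub_zero]

theorem alive_congr {A B : V → Om V M → ℝ} {h : Finset V} {c : ℕ} {S : Finset V} {ω : Om V M}
    (hAB : ∀ q ∈ cn G h, q ∉ S → act ω (insert q h) c * A q ω = act ω (insert q h) c * B q ω) :
    alive G h c A S ω = alive G h c B S ω := 
  prod_congr rfl fun q hq => by rw [hAB q (mem_sdiff.1 hq).1 (mem_sdiff.1 hq).2]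

variable {σ : Thr V}

theorem Val.bd {W h : Finset V} {A : V → Om V M → ℝ} (hA : Val G σ W h A) : Bd A := by
  cases hA with
  | mk _ _ _ sub nn le1 _ _ => exact fun q ω => ⟨nn q ω, le1 q ω⟩

theorem Val.mono {W W' h : Finset V} {A : V → Om V M → ℝ} (hA : Val G σ W h A) (hW : W ⊆ W') :
    Val G σ W' h A := by
  induction hA generalizing W' with
  | mk W h A sub nn le1 _ rule ih =>
    exact Val.mk W' h A sub nn le1
      (fun q hq hqW x hx => ih q hq (fun hh => hqW (hW hh)) x hx (insert_subset_insert q hW))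
      fun q hq hqW => rule q hq fun hh => hqW (hW hh)

theorem Val.ex {W h : Finset V} {A : V → Om V M → ℝ} (hA : Val G σ W h A) :
    ∃ sub : V → V → V → Om V M → ℝ,
      (∀ q ∈ cn G h, q ∉ W → ∀ x ∈ h, Val G σ (insert q W) {x, q} (sub q x)) ∧
      ∀ q ∈ cn G h, q ∉ W → ∀ ω, A q ω = if lab ω (insert q h) < σ h q then bit ω h q
        else ∏ x ∈ h, alive G {x, q} (lab ω (insert q h)) (sub q x) ∅ ω := by
  cases hA with
  | mk _ _ _ sub _ _ hsub rule => exact ⟨sub, hsub, rule⟩

/-- unfolding a valuation at one good node -/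
theorem Val.elim {W h : Finset V} {A : V → Om V M → ℝ} (hA : Val G σ W h A) {q : V}
    (hq : q ∈ cn G h) (hqW : q ∉ W) :
    ∃ fam : Finset V → V → Om V M → ℝ, (∀ x ∈ h, Val G σ (insert q W) {x, q} (fam {x, q})) ∧
      ∀ ω, A q ω = if lab ω (insert q h) < σ h q then bit ω h q
        else ∏ x ∈ h, alive G {x, q} (lab ω (insert q h)) (fam {x, q}) ∅ ω := by
  obtain ⟨sub, hsub, rule⟩ := hA.ex
  have key : ∀ x ∈ h, (if hx : ∃ y ∈ h, ({x, q} : Finset V) = {y, q} then sub q hx.choose
      else fun _ _ => 0) = sub q x := fun x hx => by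
    have hx' : ∃ y ∈ h, ({x, q} : Finset V) = {y, q} := ⟨x, hx, rfl⟩
    rw [dif_pos hx', ← pair_inj_of_not_mem (not_mem_of_mem_cn hq) hx hx'.choose_spec.2]
  refine ⟨fun f => if hx : ∃ y ∈ h, f = {y, q} then sub q hx.choose else fun _ _ => 0,
    fun x hx => ?_, fun ω => ?_⟩
  · beta_reduce
    rw [key x hx]; exact hsub q hq hqW x hx
  · rw [rule q hq hqW]
    congr 1
    refine prod_congr rfl fun x hx => ?_
    beta_reduce
    rw [key x hx]

/-- a family assembled apex by apex from valuations is a valuation -/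
theorem Val.diag {W h : Finset V} {𝔄 : V → V → Om V M → ℝ} (hA : ∀ q, Val G σ W h (𝔄 q)) :
    Val G σ W h (fun q => 𝔄 q q) := by
  choose sub hsub rule using fun q => (hA q).ex
  exact Val.mk W h _ (fun q => sub q q) (fun q ω => ((hA q).bd q ω).1) (fun q ω => ((hA q).bd q ω).2)
    (fun q => hsub q q) fun q => rule q q

theorem Val.mixA {W h : Finset V} {A B : V → Om V M → ℝ} (hA : Val G σ W h A)
    (hB : Val G σ W h B) (q : V) : Val G σ W h (mixA A B q) := by
  have := Val.diag (𝔄 := fun q' => if sel q q' then A else B) (G := G) (σ := σ) (W := W) (h := h)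
    fun q' => by split_ifs <;> assumption
  convert this using 1
  funext q'
  simp only [R030.mixA]
  split_ifs <;> rfl

theorem Bd.mixA {A B : V → Om V M → ℝ} (hA : Bd A) (hB : Bd B) (q : V) : Bd (mixA A B q) := by
  intro q' ω
  simp only [R030.mixA]
  split_ifs
  · exact hA q' ω
  · exact hB q' ω

/-! ## the real process -/

theorem ral_eq_alive (ω : Om V M) (c : ℕ) (h : Finset V) :
    ral G ω c h = alive G h c (realA G h) ∅ ω := by
  rw [ral, alive, sdiff_empty]
  refine prod_congr rfl fun q _ => ?_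
  unfold act realA
  split_ifs <;> simp

theorem prod_cases {ι : Type} (s : Finset ι) (f : ι → ℝ) (hf : ∀ i ∈ s, f i = 0 ∨ f i = 1) :
    ∏ i ∈ s, f i = 0 ∨ ∏ i ∈ s, f i = 1 := by
  by_cases h : ∃ i ∈ s, f i = 0
  · obtain ⟨i, hi, h0⟩ := h
    exact .inl (prod_eq_zero hi h0)
  · exact .inr (prod_eq_one fun i hi => (hf i hi).resolve_left fun h0 => h ⟨i, hi, h0⟩)

theorem ral_cases (ω : Om V M) (c : ℕ) (h : Finset V) : ral G ω c h = 0 ∨ ral G ω c h = 1 := by
  induction c using Nat.strong_induction_on generalizing h with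
  | _ c ih =>
    rw [ral]
    refine prod_cases _ _ fun q _ => ?_
    split_ifs with hl
    · rcases prod_cases h (fun x => ral G ω (lab ω (insert q h)) {x, q})
        fun x _ => ih _ hl _ with h0 | h0 <;> simp [h0]
    · simp

theorem compl_induction {P : Finset V → Prop}
    (h : ∀ W, (∀ q, q ∉ W → P (insert q W)) → P W) (W : Finset V) : P W := by
  induction hn : (univ \ W).card using Nat.strong_induction_on generalizing W with
  | _ n ih => exact h W fun q hq => ih _ (hn ▸ card_compl_insert_lt hq) _ rfl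

theorem val_realA (W h : Finset V) : Val G (fun _ _ => 0) W h (realA (M := M) G h) := by
  induction W using compl_induction generalizing h with
  | h W ih =>
    have hb : ∀ q (ω : Om V M), realA G h q ω = 0 ∨ realA G h q ω = 1 := fun q ω =>
      prod_cases _ _ fun x _ => ral_cases _ _ _
    refine Val.mk W h _ (fun q x => realA G {x, q}) (fun q ω => ?_) (fun q ω => ?_)
      (fun q _ hq x _ => ih q hq _) fun q _ _ ω => ?_
    · rcases hb q ω with h0 | h0 <;> simp [h0]
    · rcases hb q ω with h0 | h0 <;> simp [h0]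
    · rw [if_neg (Nat.not_lt_zero _), realA]
      exact prod_congr rfl fun x _ => ral_eq_alive _ _ _

/-! ## canonical valuations -/

theorem can_of_mem {ov : Ov V} {ω : Om V M} {W h : Finset V} {q : V} (hq : q ∈ W) :
    can G σ ov ω W h q = 0 := by
  rw [can, dif_pos hq]

theorem can_of_some {ov : Ov V} {ω : Om V M} {W h : Finset V} {q : V} (hq : q ∉ W) {α : ℝ}
    (ho : ov h q = some α) : can G σ ov ω W h q = α := by
  rw [can, dif_neg hq, ho]

theorem can_none {ov : Ov V} {ω : Om V M} {W h : Finset V} {q : V} (hq : q ∉ W)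
    (ho : ov h q = none) : can G σ ov ω W h q =
      if lab ω (insert q h) < σ h q then bit ω h q
      else ∏ x ∈ h, ∏ q' ∈ cn G {x, q}, (1 - act ω (insert q' {x, q}) (lab ω (insert q h)) *
        can G σ ov ω (insert q W) {x, q} q') := by
  rw [can, dif_neg hq, ho]

theorem can_of_none {ovf : Om V M → Ov V} {ω : Om V M} {W h : Finset V} {q : V} (hq : q ∉ W)
    (ho : ovf ω h q = none) : can G σ (ovf ω) ω W h q =
      if lab ω (insert q h) < σ h q then bit ω h q
      else ∏ x ∈ h, alive G {x, q} (lab ω (insert q h)) (canF G σ ovf (insert q W) {x, q}) ∅ ω := by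
  rw [can_none hq ho]
  simp only [alive, sdiff_empty, canF]

theorem can_bd {ov : Ov V} (ho : OvBd ov) (ω : Om V M) (W h : Finset V) (q : V) :
    0 ≤ can G σ ov ω W h q ∧ can G σ ov ω W h q ≤ 1 := by
  induction W using compl_induction generalizing h q with
  | h W ih =>
    by_cases hq : q ∈ W
    · rw [can_of_mem hq]; norm_num
    rcases ho' : ov h q with _ | α
    · rw [can_none hq ho']
      split_ifs
      · exact ⟨bit_nn _ _ _, bit_le_one _ _ _⟩
      · have hf : ∀ x q', 0 ≤ 1 - act ω (insert q' {x, q}) (lab ω (insert q h)) *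
            can G σ ov ω (insert q W) {x, q} q' ∧ 1 - act ω (insert q' {x, q})
            (lab ω (insert q h)) * can G σ ov ω (insert q W) {x, q} q' ≤ 1 := fun x q' =>
          factor_bd (A := fun q' _ => can G σ ov ω (insert q W) {x, q} q')
            (fun q' _ => ih q hq _ q') _ _ q' ω
        exact ⟨prod_nonneg fun x _ => prod_nonneg fun q' _ => (hf x q').1,
          prod_le_one (fun x _ => prod_nonneg fun q' _ => (hf x q').1) fun x _ =>
            prod_le_one (fun q' _ => (hf x q').1) fun q' _ => (hf x q').2⟩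
    · rw [can_of_some hq ho']; exact ho h q α ho'

theorem canF_bd {ovf : Om V M → Ov V} (ho : ∀ ω, OvBd (ovf ω)) (W h : Finset V) :
    Bd (canF G σ ovf W h) := fun q ω => can_bd (ho ω) ω W h q

theorem ovBd_noOv : OvBd (noOv : Ov V) := fun _ _ _ h => by simp [noOv] at h

theorem ovBd_ovT (e : Finset V) (w : V) {α : ℝ} (h0 : 0 ≤ α) (h1 : α ≤ 1) (j : Bool) :
    OvBd (ovT e w α j) := by
  intro h q β hβ
  unfold ovT at hβ
  split_ifs at hβ
  · obtain rfl := Option.some.inj hβ; exact ⟨h0, h1⟩
  · obtain rfl := Option.some.inj hβ; norm_num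

/-- canonical valuations are valuations relative to any larger vertex set that hides the overrides -/
theorem val_canF {ovf : Om V M → Ov V} (ho : ∀ ω, OvBd (ovf ω)) {W W' h : Finset V} (hW : W ⊆ W')
    (he : IsEdge G h)
    (hov : ∀ ω h' q', q' ∉ W' → IsEdge G h' → (h' = h ∨ ¬ h' ⊆ W') → ovf ω h' q' = none) :
    Val G σ W' h (canF G σ ovf W h) := by
  induction W' using compl_induction generalizing W h with
  | h W' ih =>
    refine Val.mk W' h _ (fun q x => canF G σ ovf (insert q W) {x, q})
      (fun q ω => (canF_bd ho W h q ω).1) (fun q ω => (canF_bd ho W h q ω).2)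
      (fun q hq hqW x hx => ih q hqW (insert_subset_insert q hW) (isEdge_free hq hx)
        fun ω h' q' hq' he' hh => hov ω h' q' (fun hm => hq' (mem_insert_of_mem hm)) he'
          (.inr fun hs => ?_))
      fun q _ hqW ω => can_of_none (fun hh => hqW (hW hh)) (hov ω h q hqW he (.inl rfl))
    rcases hh with rfl | hh
    · exact hqW (hs (by simp))
    · exact hh (hs.trans (subset_insert _ _))

theorem val_canF_noOv {W W' h : Finset V} (hW : W ⊆ W') (he : IsEdge G h) :
    Val G σ W' h (canF (M := M) G σ (fun _ => noOv) W h) := val_canF (fun _ => ovBd_noOv) hW he fun _ _ _ _ _ _ => rfl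

theorem val_canF_ovT {e : Finset V} {w : V} (_hee : IsEdge G e) (hwe : w ∉ e) {α : Om V M → ℝ}
    (h0 : ∀ ω, 0 ≤ α ω) (h1 : ∀ ω, α ω ≤ 1) {j : Bool} {W W' h : Finset V} (hW : W ⊆ W')
    (hT : insert w e ⊆ W') (he : IsEdge G h) (hj : j = true → ¬ (h ⊆ insert w e ∧ w ∈ h)) :
    Val G σ W' h (canF G σ (fun ω => ovT e w (α ω) j) W h) := by
  refine val_canF (fun ω => ovBd_ovT e w (h0 ω) (h1 ω) j) hW he fun ω h' q' hq' he' hh => ?_
  have hw : q' ≠ w := fun h => hq' (hT (by simp [h]))
  unfold ovT
  rw [if_neg fun h => hw h.2, if_neg]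
  rintro ⟨hj', hw', ⟨v, hv, hv'⟩, -⟩
  have hwh : w ∈ h' := (mem_insert.1 hw').resolve_left hw.symm
  have hvh : v ∈ h' := (mem_insert.1 hv').resolve_left fun h =>
    hq' (hT (mem_insert_of_mem (h ▸ hv)))
  have hvw : v ≠ w := fun h => hwe (h ▸ hv)
  have e1 : ({v, w} : Finset V) = h' := eq_of_subset_of_card_le
    (by simp [insert_subset_iff, hvh, hwh]) (by rw [he'.card, card_pair hvw])
  have e2 : h' ⊆ insert w e := by
    rw [← e1]; simp [insert_subset_iff, hv]
  rcases hh with rfl | hh
  · exact hj hj' ⟨e2, hwh⟩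
  · exact hh (e2.trans hT)

/-- the same with a value `al q` that depends on the apex at the root -/
theorem val_can_ovT_al {e : Finset V} {w : V} (hee : IsEdge G e) (hwe : w ∉ e) {al : V → ℝ}
    (h0 : ∀ q, 0 ≤ al q) (h1 : ∀ q, al q ≤ 1) {j : Bool} {W W' h : Finset V} (hW : W ⊆ W')
    (hT : insert w e ⊆ W') (he : IsEdge G h) (hj : j = true → ¬ (h ⊆ insert w e ∧ w ∈ h)) :
    Val G σ W' h (fun q (ω : Om V M) => can G σ (ovT e w (al q) j) ω W h q) := 
  Val.diag (𝔄 := fun q => canF G σ (fun _ => ovT e w (al q) j) W h) fun q =>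
    val_canF_ovT (α := fun _ => al q) hee hwe (fun _ => h0 q) (fun _ => h1 q) hW hT he hj

theorem can_congr_ov {ov ov' : Ov V} {W : Finset V} (hov : ∀ h q, q ∉ W → ov h q = ov' h q)
    (ω : Om V M) (h : Finset V) (q : V) : can G σ ov ω W h q = can G σ ov' ω W h q := by
  induction W using compl_induction generalizing h q with
  | h W ih =>
    by_cases hq : q ∈ W
    · rw [can_of_mem hq, can_of_mem hq]
    rcases ho' : ov h q with _ | α
    · rw [can_none hq ho', can_none hq (hov h q hq ▸ ho')]
      simp only [ih q hq fun h q' hq' => hov h q' fun hm => hq' (mem_insert_of_mem hm)]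
    · rw [can_of_some hq ho', can_of_some hq (hov h q hq ▸ ho')]

/-- below a node containing `w` there is no good copy of `(e,w)` -/
theorem can_ovT_of_mem {e : Finset V} {w : V} {W : Finset V} (hw : w ∈ W) (α α' : ℝ) (j : Bool)
    (ω : Om V M) (h : Finset V) (q : V) :
    can G σ (ovT e w α j) ω W h q = can G σ (ovT e w α' j) ω W h q := 
  can_congr_ov (fun h q hq => by
    have : q ≠ w := fun e => hq (e ▸ hw)
    simp [ovT, this]) ω h q

theorem can_ovT_false_of_mem {e : Finset V} {w : V} {W : Finset V} (hw : w ∈ W) (α : ℝ)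
    (ω : Om V M) (h : Finset V) (q : V) :
    can G σ (ovT e w α false) ω W h q = can G σ noOv ω W h q := 
  can_congr_ov (fun h q hq => by
    have : q ≠ w := fun e => hq (e ▸ hw)
    simp [ovT, this, noOv]) ω h q

theorem ovT_true_Xi {e : Finset V} {w : V} (α : ℝ) {h : Finset V} {q : V}
    (hX : Xi e w (insert q h)) : ovT e w α true h q = some 0 := by
  unfold ovT
  rw [if_neg, if_pos ⟨rfl, hX⟩]
  rintro ⟨rfl, rfl⟩
  exact hX.2.2 rfl

theorem can_ovT_true_Xi {e : Finset V} {w : V} (α : ℝ) (ω : Om V M) (W : Finset V) {h : Finset V}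
    {q : V} (hX : Xi e w (insert q h)) : can G σ (ovT e w α true) ω W h q = 0 := by
  by_cases hq : q ∈ W
  · exact can_of_mem hq
  · exact can_of_some hq (ovT_true_Xi α hX)

theorem can_raise_off {e : Finset V} {w : V} {a : ℕ} (hσ : σ e w = a) {ω : Om V M}
    (hl : lab ω (insert w e) ≠ a) (W h : Finset V) (q : V) :
    can G (raise σ e w a) noOv ω W h q = can G σ noOv ω W h q := by
  induction W using compl_induction generalizing h q with
  | h W ih =>
    by_cases hq : q ∈ W
    · rw [can_of_mem hq, can_of_mem hq]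
    rw [can_none hq rfl, can_none hq rfl]
    simp only [ih q hq]
    refine if_congr ?_ rfl rfl
    unfold raise
    split_ifs with hh
    · obtain ⟨rfl, rfl⟩ := hh
      omega
    · rfl

theorem can_raise_on {e : Finset V} {w : V} {a : ℕ} {ω : Om V M}
    (hl : lab ω (insert w e) = a) (W h : Finset V) (q : V) :
    can G (raise σ e w a) noOv ω W h q = can G σ (ovT e w (bit ω e w) false) ω W h q := by
  induction W using compl_induction generalizing h q with
  | h W ih =>
    by_cases hq : q ∈ W
    · rw [can_of_mem hq, can_of_mem hq]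
    by_cases hh : h = e ∧ q = w
    · obtain ⟨rfl, rfl⟩ := hh
      rw [can_none hq rfl, can_of_some hq (α := bit ω h q) (by simp [ovT]), if_pos]
      simp [raise, hl]
    · rw [can_none hq rfl, can_none hq (by simp [ovT, hh])]
      simp only [ih q hq, raise, if_neg hh]

/-- thresholds only matter on pairs in `Tg` -/
theorem can_congr_thr {σ' : Thr V} (hσ : ∀ p ∈ Tg G, σ p.1 p.2 = σ' p.1 p.2) (ov : Ov V)
    (ω : Om V M) (W : Finset V) {h : Finset V} {q : V} (he : IsEdge G h) (hq : q ∈ cn G h) :
    can G σ ov ω W h q = can G σ' ov ω W h q := by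
  induction W using compl_induction generalizing h q with
  | h W ih =>
    by_cases hqW : q ∈ W
    · rw [can_of_mem hqW, can_of_mem hqW]
    rcases ho' : ov h q with _ | α
    · rw [can_none hqW ho', can_none hqW ho', hσ (h, q) (mem_Tg.2 ⟨he, hq⟩)]
      refine if_congr Iff.rfl rfl (prod_congr rfl fun x hx => prod_congr rfl fun q' hq' => ?_)
      rw [ih q hqW (isEdge_free hq hx) hq']
    · rw [can_of_some hqW ho', can_of_some hqW ho']

theorem can_congr_om {ov : Ov V} {ω ω' : Om V M} (Z : Finset V → Prop)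
    (hZ : ∀ h q, Z (insert q h) → ov h q = some 0) (hlab : ∀ T, ¬ Z T → lab ω T = lab ω' T)
    (hbit : ∀ h q, ov h q = none → ω (Sum.inr (h, q)) = ω' (Sum.inr (h, q))) (W h : Finset V)
    (q : V) : can G σ ov ω W h q = can G σ ov ω' W h q ∧ ∀ c,
      act ω (insert q h) c * can G σ ov ω W h q = act ω' (insert q h) c * can G σ ov ω' W h q := by
  induction W using compl_induction generalizing h q with
  | h W ih =>
    by_cases hq : q ∈ W
    · simp [can_of_mem hq]
    by_cases hz : Z (insert q h)
    · simp [can_of_some hq (hZ h q hz)]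
    have : can G σ ov ω W h q = can G σ ov ω' W h q := by
      rcases ho' : ov h q with _ | α
      · rw [can_none hq ho', can_none hq ho']
        simp only [(ih q hq _ _).2, bit, hlab _ hz, hbit h q ho']
      · rw [can_of_some hq ho', can_of_some hq ho']
    exact ⟨this, fun c => by rw [this, act, act, hlab _ hz]⟩

/-- with the node `(e,w)` overridden nothing depends on its ideal variable -/
theorem dependsOn_Fcan_false (e : Finset V) (w : V) (α : ℝ) (B : Base V) :
    DependsOn (Fcan (M := M) G σ (ovT e w α false) B) {i | i ≠ Sum.inr (e, w)} := by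
  intro ω ω' hω
  refine prod_congr rfl fun h _ => prod_congr rfl fun q _ => ?_
  rw [canF, canF, (can_congr_om (fun _ => False) (fun _ _ h => h.elim)
    (fun T _ => by rw [lab, lab, hω (Sum.inl T) (by simp)]) (fun h q ho => hω _ ?_) _ _ _).2]
  rintro ⟨⟩
  simp [ovT] at ho

/-- with the triangles of `Xi e w` removed nothing depends on their variables -/
theorem dependsOn_Fcan_true (e : Finset V) (w : V) (α : ℝ) (B : Base V) :
    DependsOn (Fcan (M := M) G σ (ovT e w α true) B)
      {i | i ≠ Sum.inr (e, w) ∧ ¬ Xi e w (tri i)} := by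
  intro ω ω' hω
  refine prod_congr rfl fun h _ => prod_congr rfl fun q _ => ?_
  rw [canF, canF, (can_congr_om (Xi e w) (fun _ _ h => ovT_true_Xi α h)
    (fun T hT => by rw [lab, lab, hω (Sum.inl T) ⟨by simp, hT⟩])
    (fun h q ho => hω _ ⟨?_, fun hX => ?_⟩) _ _ _).2]
  · rintro ⟨⟩
    simp [ovT] at ho
  · rw [ovT_true_Xi α hX] at ho
    cases ho

/-- below the thresholds the canonical survival is the product of the ideal factors -/
theorem alive_can_ideal {h : Finset V} (he : IsEdge G h) {a : ℕ}
    (hσ : ∀ p ∈ Tg G, a ≤ σ p.1 p.2) (W : Finset V) (ω : Om V M) :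
    alive G h a (canF G σ (fun _ => noOv) W h) ∅ ω
      = ∏ q ∈ cn G h \ W, (1 - act ω (insert q h) a * bit ω h q) := by
  rw [alive_skip_congr (S' := W) (empty_subset _) fun q _ hq _ => by
    rw [canF, can_of_mem hq, mul_zero]]
  refine prod_congr rfl fun q hq => ?_
  rw [mem_sdiff] at hq
  unfold act
  split_ifs with hl
  · rw [canF, can_none hq.2 rfl, if_pos (hl.trans_le (hσ (h, q) (mem_Tg.2 ⟨he, hq.1⟩)))]
  · simp

end Crest.Agent.R030
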