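import Crest.Agent.R030.Basic

/-! # Row 30: data of the induction over time windows -/

set_option autoImplicit false
set_option linter.unusedSectionVars false

namespace Crest.Agent.R030
open Finset
open scoped Classical

variable {V : Type} [Fintype V] [DecidableEq V] {G : SimpleGraph V} {M : ℕ}

/-- index of the window containing `t` -/
noncomputable def idx (cw : ℕ → ℕ) (t : ℕ) : ℕ := sInf {i | t ≤ cw i}

/-- weight of a root with time `t` at level `i` -/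
noncomputable def yE (cw : ℕ → ℕ) (y0 om : ℝ) (i t : ℕ) : ℝ := y0 * om ^ (i - idx cw t)

/-- the weighted bound used when passing from level `i` to level `i+1` -/
noncomputable def ptw (pb : ℕ → ℝ) (cw : ℕ → ℕ) (y0 om : ℝ) (i t : ℕ) : ℝ :=
  pb t * Real.exp (if t ≤ cw (i + 1) then
    (if cw i < t then 5 else 0) + yE cw y0 om i (min t (cw i)) else 0)

/-- budget at level `i` -/
noncomputable def Ybud (Y0 om m : ℝ) : ℕ → ℝ
  | 0 => Y0
  | i + 1 => om * (Ybud Y0 om m i - m - 1)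

/-- hypotheses of the window induction -/
structure WinOK (G : SimpleGraph V) (M : ℕ) (pb : ℕ → ℝ) (cw : ℕ → ℕ) (top : ℕ)
    (D qq η Z y0 om Y0 lam : ℝ) (L : ℕ) : Prop where
  cw0 : cw 0 = 0
  mono : Monotone cw
  le : ∀ i, cw i ≤ M
  ctop : cw top = M
  y0_ge : 1 ≤ y0
  om_pos : 0 < om
  om_le : om * (y0 + 5) ≤ y0
  mm_le : ∀ t ≤ M, ∀ h, IsEdge G h → mm G M t h ≤ pb t
  ratio : ∀ i t, cw i < t → t ≤ cw (i + 1) → ∀ h, IsEdge G h →
    mm G M (cw i) h ≤ Real.exp 5 * mm G M t h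
  num : ∀ i < top, NumOK G M (ptw pb cw y0 om i) D qq η Z L
  num0 : NumOK G M pb D qq η Z L
  abar_le : ∀ t ≤ M, ∀ h, IsEdge G h → ∀ q ∈ cn G h, abar G M t h q ≤ lam
  lam_nn : 0 ≤ lam
  lam_Z : 8 * lam * Z ^ 2 ≤ 1
  kappa : 24 * (2000 * qq * Z ^ 13) ≤ 1
  Y0_Z : Y0 * (8 * L + 10) + 8 * L + 10 ≤ Z
  Ytop : 2 * y0 + 1 + ((8 * L + 10) * y0 + 1) ≤ Ybud Y0 om ((8 * L + 10) * y0 + 1) top

end Crest.Agent.R030
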