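import Crest.Agent.R030.Expand
import Crest.Agent.R030.WinDefs

/-! # Row 30: closing the hierarchy by an induction over time windows -/

set_option autoImplicit false
set_option linter.unusedSectionVars false

namespace Crest.Agent.R030
open Finset
open scoped Classical

variable {V : Type} [Fintype V] [DecidableEq V] {G : SimpleGraph V} {M : ℕ}

/-- ideal value of a pattern -/
noncomputable def Vb (G : SimpleGraph V) (M : ℕ) (H : Finset (Finset V)) (c : Finset V → ℕ) : ℝ :=
  ∏ h ∈ H, mm G M (c h) h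

/-- weighted size at level `i` -/
noncomputable def Zs (cw : ℕ → ℕ) (y0 om : ℝ) (L i : ℕ) (W : Finset V) (H : Finset (Finset V))
    (c : Finset V → ℕ) : ℝ :=
  ∑ h ∈ H, yE cw y0 om i (c h) + W.card * om ^ i / (8 * L + 10)

/-- the claim at level `i` -/
def Claim (G : SimpleGraph V) (M : ℕ) (cw : ℕ → ℕ) (y0 om Y0 : ℝ) (L i : ℕ) : Prop :=
  ∀ (σ : Thr V) (P : Pat V M), P.WFx G σ (cw i) ∅ ∅ →
    Zs cw y0 om L i P.W P.H P.c ≤ Ybud Y0 om ((8 * L + 10) * y0 + 1) i →
    ∀ I : Om V M → ℝ, (∀ ω, 0 ≤ I ω) → DepTri I {T | T ⊆ P.W} →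
      Ex G M (fun ω => I ω * P.Fx G ∅ ω) ≤ Ex G M I * (4 * Vb G M P.H P.c)

theorem Vb_nn {H : Finset (Finset V)} {c : Finset V → ℕ} (hc : ∀ h ∈ H, c h ≤ M) :
    0 ≤ Vb G M H c := prod_nonneg fun h hh => mm_nn (hc h hh) h

theorem Vb_split {H H' : Finset (Finset V)} {c c' : Finset V → ℕ} (hH : H ⊆ H')
    (hc : ∀ h ∈ H, c' h = c h) :
    Vb G M H' c' = Vb G M H c * ∏ h ∈ H' \ H, mm G M (c' h) h := by
  unfold Vb
  rw [← prod_sdiff hH, mul_comm]
  congr 1
  exact prod_congr rfl fun h hh => by rw [hc h hh]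

/-- the dropped triangles cost little -/
theorem Vdrop_le {B : Base V} {lam : ℝ} (hedge : ∀ h ∈ B.H0, IsEdge G h)
    (htime : ∀ h ∈ B.H0, B.c0 h ≤ M)
    (hab : ∀ t ≤ M, ∀ h, IsEdge G h → ∀ q ∈ cn G h, abar G M t h q ≤ lam) (hl : 0 ≤ lam) :
    Vdrop G M B * (1 - lam * (B.H0.card * B.W0.card)) ≤ Vb G M B.H0 B.c0 := by
  have h1 : Vb G M B.H0 B.c0 = Vdrop G M B *
      ∏ h ∈ B.H0, ∏ q ∈ cn G h ∩ B.W0, (1 - abar G M (B.c0 h) h q) := by
    unfold Vb Vdrop mm
    rw [← prod_mul_distrib]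
    refine prod_congr rfl fun h _ => ?_
    rw [← prod_union (disjoint_sdiff_inter _ _), sdiff_union_inter]
  have h0 : 0 ≤ Vdrop G M B := prod_nonneg fun h hh => prod_nonneg fun q _ => by
    have := abar_le_one (G := G) (htime h hh) h q; linarith
  rw [h1]
  apply mul_le_mul_of_nonneg_left _ h0
  rw [prod_sigma']
  have h2 := one_sub_prod_le_sum (B.H0.sigma fun h => cn G h ∩ B.W0)
    (fun x => abar G M (B.c0 x.1) x.1 x.2)
    (fun x hx => abar_nn (htime _ (mem_sigma.1 hx).1) _ _)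
    (fun x hx => abar_le_one (htime _ (mem_sigma.1 hx).1) _ _)
  have h3 : ∑ x ∈ B.H0.sigma (fun h => cn G h ∩ B.W0), abar G M (B.c0 x.1) x.1 x.2
      ≤ lam * (B.H0.card * B.W0.card) := by
    rw [sum_sigma]
    calc ∑ h ∈ B.H0, ∑ q ∈ cn G h ∩ B.W0, abar G M (B.c0 h) h q
        ≤ ∑ _h ∈ B.H0, lam * B.W0.card := by
          refine sum_le_sum fun h hh => ?_
          calc ∑ q ∈ cn G h ∩ B.W0, abar G M (B.c0 h) h q ≤ ∑ _q ∈ cn G h ∩ B.W0, lam :=
                sum_le_sum fun q hq => hab _ (htime h hh) h (hedge h hh) q (mem_inter.1 hq).1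
            _ = (cn G h ∩ B.W0).card * lam := by simp
            _ ≤ B.W0.card * lam := by
                apply mul_le_mul_of_nonneg_right _ hl
                exact_mod_cast card_le_card inter_subset_right
            _ = lam * B.W0.card := mul_comm _ _
      _ = lam * (B.H0.card * B.W0.card) := by simp; ring
  linarith

namespace WinOK
variable {pb : ℕ → ℝ} {cw : ℕ → ℕ} {top : ℕ} {D qq η Z y0 om Y0 lam : ℝ} {L : ℕ}
  (hW : WinOK G M pb cw top D qq η Z y0 om Y0 lam L)
include hW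

theorem om_le_one : om ≤ 1 := by
  have h1 := hW.om_le
  have h2 := hW.om_pos
  have h3 := hW.y0_ge
  by_contra hc
  push Not at hc
  nlinarith

theorem yE_nn (i t : ℕ) : 0 ≤ yE cw y0 om i t := by
  have h2 := hW.om_pos
  have h3 := hW.y0_ge
  unfold yE; positivity

theorem yE_le (i t : ℕ) : yE cw y0 om i t ≤ y0 := by
  unfold yE
  have h3 := hW.y0_ge
  have : om ^ (i - idx cw t) ≤ 1 := pow_le_one₀ hW.om_pos.le hW.om_le_one
  nlinarith

theorem yE_ge (i t : ℕ) : om ^ i ≤ yE cw y0 om i t := by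
  unfold yE
  have h3 := hW.y0_ge
  have h1 : om ^ i ≤ om ^ (i - idx cw t) :=
    pow_le_pow_of_le_one hW.om_pos.le hW.om_le_one (Nat.sub_le _ _)
  have h2 : 0 ≤ om ^ (i - idx cw t) := (pow_pos hW.om_pos _).le
  nlinarith

theorem idx_le {i t : ℕ} (ht : t ≤ cw i) : idx cw t ≤ i := Nat.sInf_le ht

theorem idx_top {i t : ℕ} (h1 : cw i < t) (h2 : t ≤ cw (i + 1)) : idx cw t = i + 1 := by
  apply le_antisymm (hW.idx_le h2)
  have hne : ({j | t ≤ cw j} : Set ℕ).Nonempty := ⟨i + 1, h2⟩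
  have hm : t ≤ cw (idx cw t) := Nat.sInf_mem hne
  by_contra hc
  push Not at hc
  have : cw (idx cw t) ≤ cw i := hW.mono (by omega)
  omega

/-- the weight at level `i+1` dominates the loss and the weight at level `i` -/
theorem yE_succ {i t : ℕ} (ht : t ≤ cw (i + 1)) :
    om * ((if cw i < t then 5 else 0) + yE cw y0 om i (min t (cw i))) ≤ yE cw y0 om (i + 1) t := by
  split_ifs with h1
  · have h2 := hW.yE_le i (min t (cw i))
    have h3 := hW.om_le
    have h4 := hW.om_pos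
    have : yE cw y0 om (i + 1) t = y0 := by
      unfold yE; rw [hW.idx_top h1 ht]; simp
    rw [this]
    nlinarith
  · push Not at h1
    rw [min_eq_left h1]
    unfold yE
    have h5 := hW.idx_le h1
    rw [show i + 1 - idx cw t = (i - idx cw t) + 1 by omega, pow_succ]
    apply le_of_eq; ring

theorem Ybud_le (i : ℕ) : Ybud Y0 om ((8 * L + 10) * y0 + 1) i ≤ om ^ i * Y0 := by
  induction i with
  | zero => simp [Ybud]
  | succ i ih =>
    simp only [Ybud]
    have h3 := hW.y0_ge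
    have h4 := hW.om_pos
    have : (0 : ℝ) ≤ (8 * L + 10) * y0 := by positivity
    rw [pow_succ]
    nlinarith

/-- a pattern within the budget is small -/
theorem small {i : ℕ} {W : Finset V} {H : Finset (Finset V)} {c : Finset V → ℕ}
    (hZ : Zs cw y0 om L i W H c ≤ Ybud Y0 om ((8 * L + 10) * y0 + 1) i) :
    (W.card : ℝ) + 8 * L + 10 ≤ Z ∧ (H.card : ℝ) + 8 * L + 10 ≤ Z := by
  have h1 := hW.Ybud_le i
  have h2 := hW.Y0_Z
  have hp : 0 < om ^ i := pow_pos hW.om_pos i
  have hc : (0 : ℝ) < 8 * L + 10 := by positivity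
  have hc1 : (1 : ℝ) ≤ 8 * L + 10 := by
    have : (0 : ℝ) ≤ L := Nat.cast_nonneg L
    linarith
  have h3 : (H.card : ℝ) * om ^ i ≤ ∑ h ∈ H, yE cw y0 om i (c h) := by
    calc (H.card : ℝ) * om ^ i = ∑ _h ∈ H, om ^ i := by simp
      _ ≤ _ := sum_le_sum fun h _ => hW.yE_ge i _
  have h4 : (0 : ℝ) ≤ (W.card : ℝ) * om ^ i / (8 * L + 10) := by positivity
  have h5 : (0 : ℝ) ≤ (H.card : ℝ) * om ^ i := by positivity
  unfold Zs at hZ
  have hH : (H.card : ℝ) ≤ Y0 := by
    have : (H.card : ℝ) * om ^ i ≤ Y0 * om ^ i := by linarith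
    exact le_of_mul_le_mul_right this hp
  have hWc : (W.card : ℝ) ≤ Y0 * (8 * L + 10) := by
    have : (W.card : ℝ) * om ^ i / (8 * L + 10) ≤ Y0 * om ^ i := by linarith
    rw [div_le_iff₀ hc] at this
    have h6 : (W.card : ℝ) * om ^ i ≤ (Y0 * (8 * L + 10)) * om ^ i := by linarith
    exact le_of_mul_le_mul_right h6 hp
  have hY : 0 ≤ Y0 := le_trans (Nat.cast_nonneg _) hH
  constructor
  · linarith
  · nlinarith

/-- growth of the weighted size under an extension -/
theorem Zs_ext {i : ℕ} {W W' : Finset V} {H H' : Finset (Finset V)} {c c' : Finset V → ℕ}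
    (hWW : W ⊆ W') (hH : H ⊆ H') (hc : ∀ h ∈ H, c' h = c h) :
    Zs cw y0 om L i W' H' c' = Zs cw y0 om L i W H c + ∑ h ∈ H' \ H, yE cw y0 om i (c' h)
      + (W' \ W).card * om ^ i / (8 * L + 10) := by
  unfold Zs
  rw [← sum_sdiff hH, ← card_sdiff_add_card_eq_card hWW]
  have : ∑ h ∈ H, yE cw y0 om i (c' h) = ∑ h ∈ H, yE cw y0 om i (c h) :=
    sum_congr rfl fun h hh => by rw [hc h hh]
  rw [this]
  push_cast
  ring

theorem ext_small {i : ℕ} {W' : Finset V} {H' : Finset (Finset V)} {c' : Finset V → ℕ}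
    (h1 : W'.card ≤ 8 * L + 10) (h2 : H'.card ≤ 8 * L + 10) :
    ∑ h ∈ H', yE cw y0 om i (c' h) ≤ (8 * L + 10) * y0 ∧
      (W'.card : ℝ) * om ^ i / (8 * L + 10) ≤ 1 := by
  have hc : (0 : ℝ) < 8 * L + 10 := by positivity
  have h3 := hW.y0_ge
  constructor
  · calc ∑ h ∈ H', yE cw y0 om i (c' h) ≤ ∑ _h ∈ H', y0 := sum_le_sum fun h _ => hW.yE_le i _
      _ = H'.card * y0 := by simp
      _ ≤ (8 * L + 10) * y0 := by
          apply mul_le_mul_of_nonneg_right _ (by linarith)
          exact_mod_cast h2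
  · rw [div_le_one hc]
    have h4 : om ^ i ≤ 1 := pow_le_one₀ hW.om_pos.le hW.om_le_one
    have h5 : (W'.card : ℝ) ≤ 8 * L + 10 := by exact_mod_cast h1
    have h6 : (0 : ℝ) ≤ W'.card := Nat.cast_nonneg _
    nlinarith

theorem claim_zero : Claim G M cw y0 om Y0 L 0 := by
  intro σ P hP _ I hI _
  have hM := hW.num0.Mpos
  have h0 : ∀ h ∈ P.H, P.c h = 0 := fun h hh => by
    have := hP.time h hh
    rw [hW.cw0] at this
    omega
  have h1 : Vb G M P.H P.c = 1 := by
    unfold Vb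
    exact prod_eq_one fun h hh => by rw [h0 h hh, mm_zero]
  rw [h1]
  have h2 : Ex G M (fun ω => I ω * P.Fx G ∅ ω) ≤ Ex G M I :=
    Ex_mono hM fun ω => by
      have := hP.Fx_le_one ω
      have := hI ω
      nlinarith
  have h3 := Ex_nn (G := G) hM hI
  linarith

/-- the crude bound: truncate the times at the previous window -/
theorem crude {i : ℕ} (hC : Claim G M cw y0 om Y0 L i) (σ : Thr V) (P : Pat V M)
    (hP : P.WFx G σ (cw (i + 1)) ∅ ∅)
    (hZ : Zs cw y0 om L i P.W P.H (fun h => min (P.c h) (cw i))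
      ≤ Ybud Y0 om ((8 * L + 10) * y0 + 1) i)
    (I : Om V M → ℝ) (hI : ∀ ω, 0 ≤ I ω) (hD : DepTri I {T | T ⊆ P.W}) :
    Ex G M (fun ω => I ω * P.Fx G ∅ ω) ≤ Ex G M I *
      (4 * (Vb G M P.H P.c * Real.exp (∑ h ∈ P.H, if cw i < P.c h then 5 else 0))) := by
  have hM := hW.num0.Mpos
  set P' : Pat V M := ⟨P.W, P.H, fun h => min (P.c h) (cw i), P.A⟩ with hP'
  have hP'wf : P'.WFx G σ (cw i) ∅ ∅ :=
    ⟨hP.edge, hP.sub, fun h _ => min_le_right _ _, hP.val⟩
  have h1 := hC σ P' hP'wf hZ I hI hD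
  have h2 : Ex G M (fun ω => I ω * P.Fx G ∅ ω) ≤ Ex G M (fun ω => I ω * P'.Fx G ∅ ω) := by
    refine Ex_mono hM fun ω => mul_le_mul_of_nonneg_left ?_ (hI ω)
    unfold Pat.Fx
    refine prod_le_prod (fun h hh => ?_) (fun h hh => ?_)
    · exact alive_nn (hP.val h (mem_sdiff.1 hh).1 (by simp)).bd _ _ _ _
    · exact alive_anti_time (hP.val h (mem_sdiff.1 hh).1 (by simp)).bd h (min_le_left _ _) _ _
  have h3 : Vb G M P'.H P'.c
      ≤ Vb G M P.H P.c * Real.exp (∑ h ∈ P.H, if cw i < P.c h then 5 else 0) := by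
    unfold Vb
    rw [Real.exp_sum, ← prod_mul_distrib]
    refine prod_le_prod (fun h _ => mm_nn (le_trans (min_le_right _ _) (hW.le i)) h) (fun h hh => ?_)
    show mm G M (min (P.c h) (cw i)) h ≤ _
    split_ifs with h4
    · rw [min_eq_right h4.le, mul_comm]
      exact hW.ratio i _ h4 (hP.time h hh) h (hP.edge h hh)
    · push Not at h4
      rw [min_eq_left h4]; simp
  have h4 := Ex_nn (G := G) hM hI
  calc _ ≤ _ := h2
    _ ≤ _ := h1
    _ ≤ _ := by gcongr

theorem claim_aux {i : ℕ} (hi : i < top) (hC : Claim G M cw y0 om Y0 L i) (k : ℕ) :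
    ∀ (σ : Thr V) (P : Pat V M), (univ \ P.W).card = k → P.WFx G σ (cw (i + 1)) ∅ ∅ →
      Zs cw y0 om L i P.W P.H (fun h => min (P.c h) (cw i))
        ≤ Ybud Y0 om ((8 * L + 10) * y0 + 1) i →
      ∀ I : Om V M → ℝ, (∀ ω, 0 ≤ I ω) → DepTri I {T | T ⊆ P.W} →
        Ex G M (fun ω => I ω * P.Fx G ∅ ω) ≤ Ex G M I * (Vb G M P.H P.c *
          (2 + 4 * Real.exp ((∑ h ∈ P.H, if cw i < P.c h then 5 else 0)
            + Zs cw y0 om L i P.W P.H (fun h => min (P.c h) (cw i))
            - (Ybud Y0 om ((8 * L + 10) * y0 + 1) i - ((8 * L + 10) * y0 + 1))))) := by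
  induction k using Nat.strong_induction_on with
  | _ k ih =>
  intro σ P hk hP hZ I hI hD
  have hM := hW.num0.Mpos
  have hEI := Ex_nn (G := G) hM hI
  have hVb : 0 ≤ Vb G M P.H P.c := Vb_nn fun h hh => le_trans (hP.time h hh) (hW.le _)
  set Y := Ybud Y0 om ((8 * L + 10) * y0 + 1) i with hY
  set m : ℝ := (8 * L + 10) * y0 + 1 with hm
  set Zt := Zs cw y0 om L i P.W P.H (fun h => min (P.c h) (cw i)) with hZt
  set R : ℝ := ∑ h ∈ P.H, if cw i < P.c h then 5 else 0 with hR
  by_cases hcase : Y - m ≤ Zt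
  · have h1 := hW.crude hC σ P hP hZ I hI hD
    refine le_trans h1 (mul_le_mul_of_nonneg_left ?_ hEI)
    have h2 : Real.exp R ≤ Real.exp (R + Zt - (Y - m)) := Real.exp_le_exp.2 (by linarith)
    nlinarith [mul_le_mul_of_nonneg_left h2 hVb]
  · push Not at hcase
    set θ := 4 * Real.exp (R + Zt - (Y - m)) with hθ
    have hθ0 : 0 ≤ θ := by positivity
    set B : Base V := ⟨P.W, P.H, P.c, Vb G M P.H P.c * (2 + θ) * 3, cw (i + 1)⟩ with hB
    obtain ⟨hs1, hs2⟩ := hW.small hZ
    have hBok : BaseOK G M B Z L :=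
      ⟨hP.edge, hP.sub, hP.time, hW.le _, by positivity, hs1, hs2⟩
    have hE : Ext G M B (ptw pb cw y0 om i) (8 * L + 10) := by
      intro σ' P' hP' hle hne hcW hcH I' hI' hD'
      have hWW : P.W ⊆ P'.W := hle.W
      have hHH : P.H ⊆ P'.H := hle.H
      have hcc : ∀ h ∈ P.H, P'.c h = P.c h := hle.c
      have hlt : (univ \ P'.W).card < k := by
        rw [← hk]
        apply card_lt_card
        refine ⟨sdiff_subset_sdiff Subset.rfl hWW, fun hh => hne ?_⟩
        apply Subset.antisymm _ hWW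
        intro x hx
        by_contra hxn
        have : x ∈ univ \ P'.W := hh (by simpa using hxn)
        simp [hx] at this
      have hz := hW.Zs_ext (i := i) (c := fun h => min (P.c h) (cw i))
        (c' := fun h => min (P'.c h) (cw i)) hWW hHH (fun h hh => by rw [hcc h hh])
      obtain ⟨hx1, hx2⟩ := hW.ext_small (i := i) (c' := fun h => min (P'.c h) (cw i)) hcW hcH
      have hZ' : Zs cw y0 om L i P'.W P'.H (fun h => min (P'.c h) (cw i)) ≤ Y := by
        rw [hz]
        simp only [hB] at hx1 hx2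
        linarith
      have h1 := ih _ hlt σ' P' rfl hP' hZ' I' hI' hD'
      refine le_trans h1 (mul_le_mul_of_nonneg_left ?_ (Ex_nn hM hI'))
      rw [Vb_split hHH hcc, hz]
      have hR' : (∑ h ∈ P'.H, if cw i < P'.c h then (5 : ℝ) else 0)
          = R + ∑ h ∈ P'.H \ P.H, if cw i < P'.c h then (5 : ℝ) else 0 := by
        rw [← sum_sdiff hHH, add_comm]
        congr 1
        exact sum_congr rfl fun h hh => by rw [hcc h hh]
      rw [hR']
      set S1 : ℝ := ∑ h ∈ P'.H \ P.H, if cw i < P'.c h then (5 : ℝ) else 0 with hS1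
      set S2 : ℝ := ∑ h ∈ P'.H \ P.H, yE cw y0 om i (min (P'.c h) (cw i)) with hS2
      set S3 : ℝ := ((P'.W \ P.W).card : ℝ) * om ^ i / (8 * L + 10) with hS3
      have hS10 : 0 ≤ S1 := sum_nonneg fun h _ => by split_ifs <;> norm_num
      have hS20 : 0 ≤ S2 := sum_nonneg fun h _ => hW.yE_nn _ _
      have hS31 : S3 ≤ 1 := hx2
      have he3 : Real.exp S3 ≤ 3 := by
        have := Real.exp_one_lt_d9
        have h2 := Real.exp_le_exp.2 hS31
        linarith
      have he1 : 1 ≤ Real.exp (S1 + S2) := Real.one_le_exp (by linarith)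
      have h2 : 2 + 4 * Real.exp (R + S1 + (Zt + S2 + S3) - (Y - m))
          ≤ (2 + θ) * 3 * Real.exp (S1 + S2) := by
        have : Real.exp (R + S1 + (Zt + S2 + S3) - (Y - m))
            = Real.exp (R + Zt - (Y - m)) * Real.exp S3 * Real.exp (S1 + S2) := by
          rw [← Real.exp_add, ← Real.exp_add]; congr 1; ring
        rw [this, hθ]
        have ha := Real.exp_pos (R + Zt - (Y - m))
        have hb : Real.exp (R + Zt - (Y - m)) * Real.exp S3 * Real.exp (S1 + S2)
            ≤ Real.exp (R + Zt - (Y - m)) * 3 * Real.exp (S1 + S2) := by gcongr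
        nlinarith
      have hmm : 0 ≤ ∏ h ∈ P'.H \ P.H, mm G M (P'.c h) h :=
        prod_nonneg fun h hh => mm_nn (le_trans (hP'.time h (mem_sdiff.1 hh).1) (hW.le _)) h
      have h3 : (∏ h ∈ P'.H \ P.H, mm G M (P'.c h) h) * Real.exp (S1 + S2)
          ≤ ∏ h ∈ P'.H \ P.H, ptw pb cw y0 om i (P'.c h) := by
        rw [hS1, hS2, ← sum_add_distrib, Real.exp_sum, ← prod_mul_distrib]
        refine prod_le_prod (fun h hh => ?_) (fun h hh => ?_)
        · exact mul_nonneg (mm_nn (le_trans (hP'.time h (mem_sdiff.1 hh).1) (hW.le _)) h)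
            (Real.exp_pos _).le
        · have ht : P'.c h ≤ cw (i + 1) := hP'.time h (mem_sdiff.1 hh).1
          unfold ptw
          rw [if_pos ht]
          exact mul_le_mul_of_nonneg_right
            (hW.mm_le _ (le_trans ht (hW.le _)) h (hP'.edge h (mem_sdiff.1 hh).1)) (Real.exp_pos _).le
      unfold Base.wgt
      calc Vb G M P.H P.c * (∏ h ∈ P'.H \ P.H, mm G M (P'.c h) h) *
            (2 + 4 * Real.exp (R + S1 + (Zt + S2 + S3) - (Y - m)))
          ≤ Vb G M P.H P.c * (∏ h ∈ P'.H \ P.H, mm G M (P'.c h) h) *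
            ((2 + θ) * 3 * Real.exp (S1 + S2)) := by gcongr
        _ = Vb G M P.H P.c * (2 + θ) * 3 *
            ((∏ h ∈ P'.H \ P.H, mm G M (P'.c h) h) * Real.exp (S1 + S2)) := by ring
        _ ≤ Vb G M P.H P.c * (2 + θ) * 3 * ∏ h ∈ P'.H \ P.H, ptw pb cw y0 om i (P'.c h) := by
            gcongr
    have h1 := expansion (hW.num i hi) hBok hE σ P rfl rfl (fun _ _ => rfl) hP I hI hD
    have h2 := Vdrop_le (G := G) (M := M) (B := B) hP.edge
      (fun h hh => le_trans (hP.time h hh) (hW.le _)) hW.abar_le hW.lam_nn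
    have hL0 : (0 : ℝ) ≤ L := Nat.cast_nonneg L
    have h3 : lam * ((B.H0.card : ℝ) * B.W0.card) ≤ 1 / 8 := by
      have ha : (B.H0.card : ℝ) ≤ Z := by simp only [hB]; linarith
      have hb : (B.W0.card : ℝ) ≤ Z := by simp only [hB]; linarith
      have hc : (B.H0.card : ℝ) * B.W0.card ≤ Z * Z :=
        mul_le_mul ha hb (Nat.cast_nonneg _) (le_trans (Nat.cast_nonneg _) ha)
      have hd := hW.lam_Z
      have he := hW.lam_nn
      nlinarith
    have h0 : 0 ≤ Vdrop G M B := prod_nonneg fun h hh => prod_nonneg fun q _ => by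
      have := abar_le_one (G := G) (le_trans (hP.time h hh) (hW.le _)) h q
      simp only [hB]; linarith
    have h4 : Vdrop G M B ≤ 3 / 2 * Vb G M P.H P.c := by
      have : Vb G M B.H0 B.c0 = Vb G M P.H P.c := rfl
      rw [this] at h2
      nlinarith
    have h5 := (abs_le.1 h1).2
    have hk := hW.kappa
    have hK : B.K = Vb G M P.H P.c * (2 + θ) * 3 := rfl
    rw [hK] at h5
    have h6 : Vb G M P.H P.c * (2 + θ) * 3 * (2000 * qq * Z ^ 13)
        ≤ Vb G M P.H P.c * (2 + θ) / 8 := by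
      have : 0 ≤ Vb G M P.H P.c * (2 + θ) := by positivity
      nlinarith
    have h7 : Vdrop G M B + Vb G M P.H P.c * (2 + θ) * 3 * (2000 * qq * Z ^ 13)
        ≤ Vb G M P.H P.c * (2 + θ) := by
      have : 0 ≤ Vb G M P.H P.c * θ := by positivity
      nlinarith
    have h8 := mul_le_mul_of_nonneg_left h7 hEI
    nlinarith

theorem claim_succ {i : ℕ} (hi : i < top) (hC : Claim G M cw y0 om Y0 L i) :
    Claim G M cw y0 om Y0 L (i + 1) := by
  intro σ P hP hZ I hI hD
  have hM := hW.num0.Mpos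
  have hEI := Ex_nn (G := G) hM hI
  have hVb : 0 ≤ Vb G M P.H P.c := Vb_nn fun h hh => le_trans (hP.time h hh) (hW.le _)
  have hom := hW.om_pos
  have hR0 : 0 ≤ ∑ h ∈ P.H, if cw i < P.c h then (5 : ℝ) else 0 :=
    sum_nonneg fun h _ => by split_ifs <;> norm_num
  have h1 : om * ((∑ h ∈ P.H, if cw i < P.c h then (5 : ℝ) else 0)
      + Zs cw y0 om L i P.W P.H (fun h => min (P.c h) (cw i)))
      ≤ Zs cw y0 om L (i + 1) P.W P.H P.c := by
    unfold Zs
    rw [← add_assoc, ← sum_add_distrib, mul_add, mul_sum]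
    have := sum_le_sum fun h (hh : h ∈ P.H) => hW.yE_succ (hP.time h hh)
    have h2 : om * (P.W.card * om ^ i / (8 * L + 10)) = P.W.card * om ^ (i + 1) / (8 * L + 10) := by
      rw [pow_succ]; ring
    linarith
  simp only [Ybud] at hZ
  have h2 : (∑ h ∈ P.H, if cw i < P.c h then (5 : ℝ) else 0)
      + Zs cw y0 om L i P.W P.H (fun h => min (P.c h) (cw i))
      ≤ Ybud Y0 om ((8 * L + 10) * y0 + 1) i - ((8 * L + 10) * y0 + 1) - 1 :=
    le_of_mul_le_mul_left (le_trans h1 hZ) hom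
  have hm : (0 : ℝ) ≤ (8 * L + 10) * y0 + 1 := by
    have := hW.y0_ge
    positivity
  have h3 := hW.claim_aux hi hC _ σ P rfl hP (by linarith) I hI hD
  refine le_trans h3 (mul_le_mul_of_nonneg_left ?_ hEI)
  have h4 : Real.exp ((∑ h ∈ P.H, if cw i < P.c h then (5 : ℝ) else 0)
      + Zs cw y0 om L i P.W P.H (fun h => min (P.c h) (cw i))
      - (Ybud Y0 om ((8 * L + 10) * y0 + 1) i - ((8 * L + 10) * y0 + 1))) ≤ Real.exp (-1) :=
    Real.exp_le_exp.2 (by linarith)
  have h5 : Real.exp (-1) ≤ 1 / 2 := by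
    have := Real.exp_neg_one_lt_d9
    linarith
  nlinarith

theorem claim_all (i : ℕ) (hi : i ≤ top) : Claim G M cw y0 om Y0 L i := by
  induction i with
  | zero => exact hW.claim_zero
  | succ i ih => exact hW.claim_succ (by omega) (ih (by omega))

/-- two-sided estimate for a small pattern of real survival constraints at time `M` -/
theorem final (W : Finset V) (H : Finset (Finset V)) (hedge : ∀ h ∈ H, IsEdge G h)
    (hsub : ∀ h ∈ H, h ⊆ W) (hWc : W.card ≤ 4) (hHc : H.card ≤ 2) :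
    |Ex G M (fun ω => ∏ h ∈ H, alive G h M (realA G h) W ω)
        - Vdrop G M ⟨W, H, fun _ => M, 0, M⟩|
      ≤ 4 * Vb G M H (fun _ => M) * (2000 * qq * Z ^ 13) := by
  have hM := hW.num0.Mpos
  have hC := hW.claim_all top le_rfl
  set P : Pat V M := ⟨W, H, fun _ => M, fun h => realA G h⟩ with hP
  have hVb : 0 ≤ Vb G M H (fun _ => M) := Vb_nn fun _ _ => le_rfl
  set B : Base V := ⟨W, H, fun _ => M, 4 * Vb G M H (fun _ => M), M⟩ with hB
  have hL0 : (0 : ℝ) ≤ L := Nat.cast_nonneg L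
  have hc : (0 : ℝ) < 8 * L + 10 := by positivity
  have hy := hW.y0_ge
  have hZ0 : Zs cw y0 om L top W H (fun _ => M) ≤ 2 * y0 + 1 := by
    unfold Zs
    have h1 : ∑ h ∈ H, yE cw y0 om top M ≤ 2 * y0 := by
      calc ∑ h ∈ H, yE cw y0 om top M ≤ ∑ _h ∈ H, y0 := sum_le_sum fun _ _ => hW.yE_le _ _
        _ = H.card * y0 := by simp
        _ ≤ 2 * y0 := by
            apply mul_le_mul_of_nonneg_right _ (by linarith)
            exact_mod_cast hHc
    have h2 : (W.card : ℝ) * om ^ top / (8 * L + 10) ≤ 1 := by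
      rw [div_le_one hc]
      have h4 : om ^ top ≤ 1 := pow_le_one₀ hW.om_pos.le hW.om_le_one
      have h5 : (W.card : ℝ) ≤ 4 := by exact_mod_cast hWc
      have h6 : (0 : ℝ) ≤ W.card := Nat.cast_nonneg _
      nlinarith
    linarith
  have hYt := hW.Ytop
  have hm : (0 : ℝ) ≤ (8 * L + 10) * y0 + 1 := by positivity
  obtain ⟨hs1, hs2⟩ := hW.small (i := top) (W := W) (H := H) (c := fun _ => M) (by linarith)
  have hBok : BaseOK G M B Z L :=
    ⟨hedge, hsub, fun _ _ => le_rfl, le_rfl, by positivity, hs1, hs2⟩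
  have hE : Ext G M B pb (8 * L + 10) := by
    intro σ' P' hP' hle _ hcW hcH I' hI' hD'
    have hWW : W ⊆ P'.W := hle.W
    have hHH : H ⊆ P'.H := hle.H
    have hcc : ∀ h ∈ H, P'.c h = M := hle.c
    have hz := hW.Zs_ext (i := top) (c := fun _ => M) (c' := P'.c) hWW hHH hcc
    obtain ⟨hx1, hx2⟩ := hW.ext_small (i := top) (c' := P'.c) hcW hcH
    have hP'' : P'.WFx G σ' (cw top) ∅ ∅ := by rw [hW.ctop]; exact hP'
    have h1 := hC σ' P' hP'' (by rw [hz]; simp only [hB] at hx1 hx2; linarith) I' hI' hD'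
    refine le_trans h1 (mul_le_mul_of_nonneg_left ?_ (Ex_nn hM hI'))
    rw [Vb_split (c := fun _ => M) hHH hcc]
    unfold Base.wgt
    have h3 : (∏ h ∈ P'.H \ H, mm G M (P'.c h) h) ≤ ∏ h ∈ P'.H \ H, pb (P'.c h) :=
      prod_le_prod (fun h hh => mm_nn (hP'.time h (mem_sdiff.1 hh).1) h)
        (fun h hh => hW.mm_le _ (hP'.time h (mem_sdiff.1 hh).1) h (hP'.edge h (mem_sdiff.1 hh).1))
    have := mul_le_mul_of_nonneg_left h3 hVb
    simp only [hB]
    linarith
  have hPwf : P.WFx G (fun _ _ => 0) B.ctop ∅ ∅ :=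
    ⟨hedge, hsub, fun _ _ => le_rfl, fun h _ _ => val_realA _ h⟩
  have h1 := expansion hW.num0 hBok hE (fun _ _ => 0) P rfl rfl (fun _ _ => rfl) hPwf
    (fun _ => 1) (fun _ => zero_le_one) (fun _ _ _ => rfl)
  rw [Ex_const hM] at h1
  simp only [one_mul] at h1
  have h2 : (fun ω => P.Fx G ∅ ω) = fun ω => ∏ h ∈ H, alive G h M (realA G h) W ω := by
    funext ω; simp [Pat.Fx, hP]
  rw [h2] at h1
  exact h1

end WinOK

theorem window {pb : ℕ → ℝ} {cw : ℕ → ℕ} {top : ℕ} {D qq η Z y0 om Y0 lam : ℝ} {L : ℕ}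
    (hW : WinOK G M pb cw top D qq η Z y0 om Y0 lam L) :
    (∀ h, IsEdge G h →
      (1 - 4 * (2000 * qq * Z ^ 13)) * mm G M M h ≤ Ex G M (fun ω => ral G ω M h)) ∧
    (∀ h h', IsEdge G h → IsEdge G h' → h ≠ h' →
      Ex G M (fun ω => ral G ω M h * ral G ω M h')
        ≤ (1 + 16 * lam + 4 * (2000 * qq * Z ^ 13)) * (mm G M M h * mm G M M h')) := by
  have hM := hW.num0.Mpos
  have hbd : ∀ h, Bd (realA (M := M) G h) := fun h => (val_realA ∅ h).bd
  constructor
  · intro h he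
    have h1 := hW.final h {h} (by simpa using he) (by simp) (by rw [he.card]; norm_num) (by simp)
    have hd : cn G h \ h = cn G h := by
      apply sdiff_eq_self_of_disjoint
      exact disjoint_left.2 fun q hq => not_mem_of_mem_cn hq
    have h2 : Vdrop G M ⟨h, {h}, fun _ => M, 0, M⟩ = mm G M M h := by
      simp [Vdrop, mm, hd]
    have h3 : Vb G M {h} (fun _ => M) = mm G M M h := by simp [Vb]
    have h4 : (fun ω => ∏ h' ∈ ({h} : Finset (Finset V)), alive G h' M (realA G h') h ω)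
        = fun ω : Om V M => ral G ω M h := by
      funext ω
      rw [prod_singleton, ral_eq_alive]
      unfold alive
      rw [hd, sdiff_empty]
    rw [h2, h3, h4] at h1
    have := (abs_le.1 h1).1
    linarith
  · intro h h' he he' hne
    have hc4 : (h ∪ h').card ≤ 4 := by
      have := card_union_le h h'
      rw [he.card, he'.card] at this
      exact this
    have h1 := hW.final (h ∪ h') {h, h'} (by
        intro f hf
        rcases mem_insert.1 hf with rfl | hf
        · exact he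
        · rw [mem_singleton.1 hf]; exact he') (by
        intro f hf
        rcases mem_insert.1 hf with rfl | hf
        · exact subset_union_left
        · rw [mem_singleton.1 hf]; exact subset_union_right) hc4 card_le_two
    have h3 : Vb G M {h, h'} (fun _ => M) = mm G M M h * mm G M M h' := by
      unfold Vb; rw [prod_pair hne]
    have h2 := Vdrop_le (G := G) (M := M) (B := ⟨h ∪ h', {h, h'}, fun _ => M, 0, M⟩) (by
        intro f hf
        rcases mem_insert.1 hf with rfl | hf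
        · exact he
        · rw [mem_singleton.1 hf]; exact he') (fun _ _ => le_rfl) hW.abar_le hW.lam_nn
    simp only at h2
    rw [h3] at h1 h2
    have h4 : Ex G M (fun ω => ral G ω M h * ral G ω M h')
        ≤ Ex G M (fun ω => ∏ f ∈ ({h, h'} : Finset (Finset V)), alive G f M (realA G f) (h ∪ h') ω) := by
      refine Ex_mono hM fun ω => ?_
      rw [prod_pair hne, ral_eq_alive, ral_eq_alive]
      exact mul_le_mul (alive_mono_skip (hbd h) _ _ (empty_subset _) ω)
        (alive_mono_skip (hbd h') _ _ (empty_subset _) ω) (alive_nn (hbd h') _ _ _ _)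
        (alive_nn (hbd h) _ _ _ _)
    have h5 := (abs_le.1 h1).2
    have h0 : 0 ≤ Vdrop G M ⟨h ∪ h', {h, h'}, fun _ => M, 0, M⟩ :=
      prod_nonneg fun f _ => prod_nonneg fun q _ => by
        have := abar_le_one (G := G) (le_refl M) f q
        simp only; linarith
    have hl := hW.lam_nn
    have hlz := hW.lam_Z
    have hZ := hW.num0.Z_ge
    have h6 : lam * ((({h, h'} : Finset (Finset V)).card : ℝ) * ((h ∪ h').card : ℝ)) ≤ 8 * lam := by
      have ha : (({h, h'} : Finset (Finset V)).card : ℝ) ≤ 2 := by exact_mod_cast card_le_two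
      have hb : ((h ∪ h').card : ℝ) ≤ 4 := by exact_mod_cast hc4
      have hc : (({h, h'} : Finset (Finset V)).card : ℝ) * ((h ∪ h').card : ℝ) ≤ 2 * 4 :=
        mul_le_mul ha hb (Nat.cast_nonneg _) (by norm_num)
      nlinarith
    have h7 : 8 * lam ≤ 1 / 2 := by nlinarith
    have hmm : 0 ≤ mm G M M h * mm G M M h' := mul_nonneg (mm_nn le_rfl h) (mm_nn le_rfl h')
    set v := Vdrop G M ⟨h ∪ h', {h, h'}, fun _ => M, 0, M⟩
    set b := mm G M M h * mm G M M h'
    have h8 : v * (1 - 8 * lam) ≤ b := by nlinarith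
    have h9 : v ≤ 2 * b := by nlinarith
    have h10 : v ≤ (1 + 16 * lam) * b := by nlinarith
    nlinarith

end Crest.Agent.R030
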